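import Vale.Agent.P188.H796.Ln

/-!
Metric facts on the group `S`.
-/

open Finset Filter Topology
open scoped commutatorElement

universe u v w

namespace Vale.Agent.P188.H796

open H615

section wlen

variable {N : Type u} [Group N]

/-- homomorphisms increase word lengths at most by a factor -/
theorem wl_map_le {N' : Type v} [Group N'] {B : Set N} (hB : B.Finite)
    (hgen : Subgroup.closure B = ⊤) {B' : Set N'} (hgen' : Subgroup.closure B' = ⊤)
    (φ : N →* N') : ∃ Λ : ℕ, ∀ x, wl B' (φ x) ≤ Λ * wl B x := by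
  obtain ⟨M, hM⟩ := ((hB.union hB.inv).image fun x => wl B' (φ x)).bddAbove
  refine ⟨M, fun x => ?_⟩
  obtain ⟨l, h1, h2, h3⟩ := wl_list hgen x
  rw [← h1, ← h3]
  clear h1 h3
  induction l with
  | nil => simp [wl_one]
  | cons a l ih =>
    rw [List.prod_cons, map_mul, List.length_cons]
    have e1 := wl_mul hgen' (φ a) (φ l.prod)
    have e2 : wl B' (φ a) ≤ M := hM ⟨a, h2 a List.mem_cons_self, rfl⟩
    have e3 := ih fun b hb => h2 b (List.mem_cons_of_mem _ hb)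
    nlinarith

end wlen

section nlen

variable {Γ : Type u} [Group Γ] {k : ℕ} (η : Γ →* Multiplicative (Fin k → ℤ))

open Classical in
/-- word length of the kernel, extended by zero -/
noncomputable def ℓN (B : Set η.ker) (x : Γ) : ℝ := if h : x ∈ η.ker then (wl B ⟨x, h⟩ : ℝ) else 0

theorem ℓN_coe (B : Set η.ker) (x : η.ker) : ℓN η B x = wl B x := by
  rw [ℓN, dif_pos x.2]

theorem nlen_ℓN {B : Set η.ker} (hB : B.Finite) (hgen : Subgroup.closure B = ⊤) :
    NLen η.ker (ℓN η B) where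
  nonneg x := by
    unfold ℓN
    split_ifs
    · exact Nat.cast_nonneg _
    · exact le_rfl
  one := by
    have := ℓN_coe η B 1
    rw [wl_one] at this
    simpa using this
  mul x hx y hy := by
    have h1 := ℓN_coe η B ⟨x, hx⟩
    have h2 := ℓN_coe η B ⟨y, hy⟩
    have h3 := ℓN_coe η B (⟨x, hx⟩ * ⟨y, hy⟩)
    have h4 := wl_mul hgen (⟨x, hx⟩ : η.ker) ⟨y, hy⟩
    simp only [Subgroup.coe_mul] at h1 h2 h3
    rw [h1, h2, h3]
    exact_mod_cast h4
  inv x hx := by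
    have h1 := ℓN_coe η B ⟨x, hx⟩
    have h3 := ℓN_coe η B (⟨x, hx⟩⁻¹)
    have h4 := wl_inv hgen (⟨x, hx⟩ : η.ker)
    simp only [Subgroup.coe_inv] at h1 h3
    rw [h1, h3, h4]
  conj γ := by
    obtain ⟨Λ, hΛ⟩ := wl_map_le hB hgen hgen ((MulAut.conjNormal γ : MulAut η.ker) : η.ker →* η.ker)
    refine ⟨Λ + 1, by linarith [(Nat.cast_nonneg Λ : (0 : ℝ) ≤ Λ)], fun x hx => ?_⟩
    have h1 := ℓN_coe η B ⟨x, hx⟩
    have h3 := ℓN_coe η B (MulAut.conjNormal γ ⟨x, hx⟩)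
    have h4 : ((MulAut.conjNormal γ ⟨x, hx⟩ : η.ker) : Γ) = γ * x * γ⁻¹ :=
      MulAut.conjNormal_apply γ ⟨x, hx⟩
    rw [h4] at h3
    simp only at h1
    rw [h1, h3]
    have h5 : ((wl B (MulAut.conjNormal γ ⟨x, hx⟩) : ℕ) : ℝ) ≤ ((Λ * wl B ⟨x, hx⟩ : ℕ) : ℝ) := by
      exact_mod_cast hΛ ⟨x, hx⟩
    refine h5.trans ?_
    push_cast
    exact mul_le_mul_of_nonneg_right (by linarith) (Nat.cast_nonneg _)
  comm a b := comm_mem_ker η a b
  norm γ x hx := η.normal_ker.conj_mem x hx γ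

theorem exists_lift (hη : Function.Surjective η) : ∃ t : Fin k → Γ, ∀ i, ev η (t i) = Pi.single i 1 := by
  choose t ht using fun i : Fin k => hη (Multiplicative.ofAdd (Pi.single i 1))
  exact ⟨t, fun i => by rw [ev, ht]; rfl⟩

/-- **exponential distortion of the kernel** -/
theorem wl_ker_le (hη : Function.Surjective η) {B : Set η.ker} (hB : B.Finite)
    (hgen : Subgroup.closure B = ⊤) (F : Set Γ) (hF : F.Finite) : ∃ C : ℝ, 0 < C ∧ ∀ L : List Γ,
    (∀ x ∈ L, x ∈ F ∨ x⁻¹ ∈ F) → ∀ h : L.prod ∈ η.ker,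
      (wl B ⟨L.prod, h⟩ : ℝ) ≤ Real.exp (C * (L.length + 1)) := by
  obtain ⟨t, ht⟩ := exists_lift η hη
  obtain ⟨C, hC, key⟩ := exp_distortion η (nlen_ℓN η hB hgen) t ht F hF
  refine ⟨C, hC, fun L hL h => ?_⟩
  have h1 := (key L hL).1
  have h2 : xr η t L.prod = L.prod := by
    rw [xr, (mem_ker_iff_ev η _).1 h, sec_zero, inv_one, mul_one]
  rw [h2] at h1
  have h3 := ℓN_coe η B ⟨L.prod, h⟩
  simp only at h3
  rw [← h3]
  exact h1

end nlen

theorem exp_bound_aux {C C' : ℝ} (hC : 0 < C) (hC' : 0 < C') (m : ℕ) : ∃ C'' : ℝ, 0 < C'' ∧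
    ∀ (r x : ℝ), 1 ≤ r → 0 ≤ x → x ≤ Real.exp (C * r) → C' * (1 + x) ^ m ≤ Real.exp (C'' * r) := by
  refine ⟨|Real.log C'| + m * (1 + C) + 1, by positivity, fun r x hr hx0 hx => ?_⟩
  have h1 : 1 + x ≤ Real.exp ((1 + C) * r) := by
    have h2 : (1 : ℝ) ≤ Real.exp (C * r) := Real.one_le_exp (by positivity)
    have h3 : (2 : ℝ) ≤ Real.exp r := by
      have := Real.add_one_le_exp r
      linarith
    rw [add_mul, one_mul, Real.exp_add]
    nlinarith
  have h2 : (1 + x) ^ m ≤ Real.exp (m * ((1 + C) * r)) := by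
    rw [Real.exp_nat_mul]
    exact pow_le_pow_left₀ (by linarith) h1 m
  have h3 : C' ≤ Real.exp (|Real.log C'| * r) := by
    rw [← Real.exp_log hC']
    refine Real.exp_le_exp.2 ?_
    rw [Real.exp_log hC']
    nlinarith [le_abs_self (Real.log C'), abs_nonneg (Real.log C')]
  calc C' * (1 + x) ^ m ≤ Real.exp (|Real.log C'| * r) * Real.exp (m * ((1 + C) * r)) :=
        mul_le_mul h3 h2 (by positivity) (by positivity)
    _ = Real.exp (|Real.log C'| * r + m * ((1 + C) * r)) := by rw [Real.exp_add]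
    _ ≤ _ := Real.exp_le_exp.2 (by nlinarith)

section conc

variable {Γ : Type u} [Group Γ] {k : ℕ} {η : Γ →* Multiplicative (Fin k → ℤ)} {d n : ℕ}
  (D : MB η.ker d n)

/-- exponential bound for elements of `N` in terms of words in `Γ` -/
theorem MB.norm_ρ_le (hη : Function.Surjective η) (F : Set Γ) (hF : F.Finite) :
    ∃ C : ℝ, 0 < C ∧ ∀ L : List Γ, (∀ x ∈ L, x ∈ F ∨ x⁻¹ ∈ F) → ∀ h : L.prod ∈ η.ker,
      ‖D.R.ρ ⟨L.prod, h⟩‖ ≤ Real.exp (C * (L.length + 1)) := by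
  have hB : (Set.range D.b).Finite := Set.finite_range _
  obtain ⟨C1, hC1, h1⟩ := wl_ker_le η hη hB D.closure_b F hF
  obtain ⟨C2, hC2, h2⟩ := D.R.exists_ι_bound (Set.range D.b) hB
  obtain ⟨C3, hC3, h3⟩ := exp_bound_aux hC1 hC2 D.R.m
  refine ⟨C3, hC3, fun L hL h => ?_⟩
  obtain ⟨l, e1, e2, e3⟩ := wl_list D.closure_b (⟨L.prod, h⟩ : η.ker)
  have h4 := h2 l e2
  rw [e3] at h4
  refine h4.trans (h3 _ _ ?_ (Nat.cast_nonneg _) ?_)
  · linarith [(Nat.cast_nonneg L.length : (0 : ℝ) ≤ L.length)]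
  · rw [e1]
    exact h1 L hL h

/-- generating set of `S` -/
def MB.U (F : Set Γ) : Set D.S :=
  D.inΓ '' F ∪ D.ex '' {v : D.R.V | ‖(v : D.Alg)‖ ≤ 1}

theorem MB.Th_bound (F : Set Γ) (hF : F.Finite) : ∃ Λ : ℝ, 1 ≤ Λ ∧ ∀ f, (f ∈ F ∨ f⁻¹ ∈ F) →
    ∀ a : D.Alg, ‖D.Th (MulAut.conjNormal f) a‖ ≤ Λ * ‖a‖ := by
  have hF' : (F ∪ F⁻¹).Finite := hF.union hF.inv
  have h1 : ∀ f : Γ, ∃ Λ : ℝ, ∀ a : D.Alg, ‖D.Th (MulAut.conjNormal f) a‖ ≤ Λ * ‖a‖ := by
    intro f
    let T : D.Alg →L[ℝ] D.Alg :=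
      LinearMap.toContinuousLinearMap (D.Th (MulAut.conjNormal f)).toLinearMap
    exact ⟨‖T‖, fun a => T.le_opNorm a⟩
  choose Λ hΛ using h1
  obtain ⟨M, hM⟩ := (hF'.image Λ).bddAbove
  refine ⟨max M 1, le_max_right _ _, fun f hf a => (hΛ f a).trans ?_⟩
  refine mul_le_mul_of_nonneg_right ?_ (norm_nonneg _)
  exact (hM ⟨f, hf, rfl⟩).trans (le_max_left _ _)

theorem RD.Lo_inv {N : Type u} [Group N] {d n : ℕ} {D : MB N d n} {A : Type v} [NormedRing A]
    [NormedAlgebra ℝ A] [FiniteDimensional ℝ A] (R : RD D A) (s : R.NR) : R.Lo s⁻¹ = -R.Lo s := by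
  apply R.Ex_injective
  rw [R.Ex_neg, R.Ex_Lo, R.Ex_Lo]

/-- elements of `U` and their inverses -/
theorem MB.mem_U {F : Set Γ} {z : D.S} (hz : z ∈ D.U F ∨ z⁻¹ ∈ D.U F) :
    (∃ f : Γ, (f ∈ F ∨ f⁻¹ ∈ F) ∧ z = D.inΓ f) ∨
      ∃ v : D.R.V, ‖(v : D.Alg)‖ ≤ 1 ∧ z = D.inN (D.R.Ex v) := by
  rcases hz with (⟨f, hf, rfl⟩ | ⟨v, hv, rfl⟩) | (⟨f, hf, h⟩ | ⟨v, hv, h⟩)
  · exact Or.inl ⟨f, Or.inl hf, rfl⟩
  · exact Or.inr ⟨v, hv, rfl⟩
  · refine Or.inl ⟨f⁻¹, Or.inr (by rwa [inv_inv]), ?_⟩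
    rw [map_inv]
    exact inv_eq_iff_eq_inv.1 h.symm
  · refine Or.inr ⟨-v, ?_, ?_⟩
    · simpa using hv
    · rw [D.R.Ex_neg, map_inv]
      exact inv_eq_iff_eq_inv.1 h.symm

/-- **structure of words in `S`** -/
theorem MB.word_form (F : Set Γ) (hF : F.Finite) : ∃ C : ℝ, 0 < C ∧ ∀ L : List D.S,
    (∀ z ∈ L, z ∈ D.U F ∨ z⁻¹ ∈ D.U F) → ∃ (l : List Γ) (y : D.R.NR),
      (∀ x ∈ l, x ∈ F ∨ x⁻¹ ∈ F) ∧ l.length ≤ L.length ∧
      L.prod = D.inN y * D.inΓ l.prod ∧ ‖D.R.toA y‖ ≤ Real.exp (C * (L.length + 1)) := by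
  obtain ⟨Λ, hΛ, hTh⟩ := D.Th_bound F hF
  obtain ⟨C1, hC1, h1⟩ := RD.exists_ex_bound (A := D.Alg) D.R.m
  set K : ℝ := C1 * 2 ^ D.R.m + ‖(1 : D.Alg)‖ with hK
  have hK0 : 0 ≤ K := by positivity
  have hball : ∀ v : D.R.V, ‖(v : D.Alg)‖ ≤ 1 → ‖D.R.toA (D.R.Ex v) - 1‖ ≤ K := by
    intro v hv
    rw [D.R.toA_Ex]
    refine (norm_sub_le _ _).trans (add_le_add_left ?_ _)
    refine (h1 _).trans (mul_le_mul_of_nonneg_left ?_ hC1.le)
    exact pow_le_pow_left₀ (by positivity) (by linarith) _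
  have key : ∀ L : List D.S, (∀ z ∈ L, z ∈ D.U F ∨ z⁻¹ ∈ D.U F) →
      ∃ (l : List Γ) (y : D.R.NR) (W : List D.Alg),
        (∀ x ∈ l, x ∈ F ∨ x⁻¹ ∈ F) ∧ l.length ≤ L.length ∧
        L.prod = D.inN y * D.inΓ l.prod ∧ D.R.toA y = W.prod ∧ W.length ≤ L.length ∧
        (∀ u ∈ W, u - 1 ∈ D.R.J) ∧ ∀ u ∈ W, ‖u - 1‖ ≤ K * Λ ^ L.length := by
    intro L
    induction L with
    | nil =>
      intro _
      refine ⟨[], 1, [], by simp, le_rfl, ?_, ?_, le_rfl, by simp, by simp⟩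
      · rw [List.prod_nil, List.prod_nil, map_one, map_one, one_mul]
      · rw [map_one, List.prod_nil]
    | cons z L ih =>
      intro hL
      obtain ⟨l, y, W, a1, a2, a3, a4, a5, a6, a7⟩ := ih fun x hx => hL x (List.mem_cons_of_mem _ hx)
      rcases D.mem_U (hL z List.mem_cons_self) with ⟨f, hf, hz⟩ | ⟨v, hv, hz⟩
      · refine ⟨f :: l, D.αΓ f y, W.map (D.Th (MulAut.conjNormal f)), ?_, ?_, ?_, ?_, ?_, ?_, ?_⟩
        · intro x hx
          rcases List.mem_cons.1 hx with rfl | hx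
          · exact hf
          · exact a1 x hx
        · rw [List.length_cons, List.length_cons]; omega
        · rw [List.prod_cons, hz, a3, List.prod_cons, map_mul, ← mul_assoc, ← mul_assoc]
          congr 1
          exact D.P.inG_mul_inK f y
        · have : D.R.toA (D.αΓ f y) = D.Th (MulAut.conjNormal f) (D.R.toA y) := D.toA_actM _ y
          rw [this, a4, map_list_prod]
        · rw [List.length_map, List.length_cons]; omega
        · intro u hu
          rw [List.mem_map] at hu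
          obtain ⟨u', hu', rfl⟩ := hu
          have h2 := D.R.map_J (MulAut.conjNormal f : MulAut η.ker).toMonoidHom
            (D.Th (MulAut.conjNormal f) : D.Alg →ₐ[ℝ] D.Alg) (fun x => D.Th_ρ _ x) (a6 u' hu')
          have h3 : D.Th (MulAut.conjNormal f) u' - 1 = D.Th (MulAut.conjNormal f) (u' - 1) := by
            rw [map_sub, map_one]
          rw [h3]
          exact h2
        · intro u hu
          rw [List.mem_map] at hu
          obtain ⟨u', hu', rfl⟩ := hu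
          have h3 : D.Th (MulAut.conjNormal f) u' - 1 = D.Th (MulAut.conjNormal f) (u' - 1) := by
            rw [map_sub, map_one]
          rw [h3]
          refine (hTh f hf _).trans ?_
          rw [List.length_cons, pow_succ]
          have := mul_le_mul_of_nonneg_left (a7 u' hu') (zero_le_one.trans hΛ)
          linarith
      · refine ⟨l, D.R.Ex v * y, D.R.toA (D.R.Ex v) :: W, a1, ?_, ?_, ?_, ?_, ?_, ?_⟩
        · rw [List.length_cons]; omega
        · rw [List.prod_cons, hz, a3, map_mul, mul_assoc]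
        · rw [map_mul, a4, List.prod_cons]
        · rw [List.length_cons, List.length_cons]; omega
        · intro u hu
          rcases List.mem_cons.1 hu with rfl | hu
          · exact D.R.E_sub_one_mem _
          · exact a6 u hu
        · intro u hu
          have hp : K * Λ ^ L.length ≤ K * Λ ^ (z :: L).length := by
            rw [List.length_cons]
            exact mul_le_mul_of_nonneg_left (pow_le_pow_right₀ hΛ (Nat.le_succ _)) hK0
          rcases List.mem_cons.1 hu with rfl | hu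
          · refine (hball v hv).trans ?_
            exact le_mul_of_one_le_right hK0 (one_le_pow₀ hΛ)
          · exact (a7 u hu).trans hp
  have hC1' : 0 < 1 + K + Real.log Λ := by have := Real.log_nonneg hΛ; linarith
  have hC2' : 0 < ‖(1 : D.Alg)‖ * D.R.m + 1 := by positivity
  obtain ⟨C, hC, hfin⟩ := exp_bound_aux hC1' hC2' D.R.m
  refine ⟨C, hC, fun L hL => ?_⟩
  obtain ⟨l, y, W, a1, a2, a3, a4, a5, a6, a7⟩ := key L hL
  refine ⟨l, y, a1, a2, a3, ?_⟩
  have hKL : 0 ≤ K * Λ ^ L.length := by positivity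
  have h2 := D.R.norm_prod_le W hKL a6 a7
  rw [a4]
  have hr : (1 : ℝ) ≤ L.length + 1 := by linarith [(Nat.cast_nonneg L.length : (0 : ℝ) ≤ L.length)]
  have hx0 : 0 ≤ (W.length : ℝ) * (K * Λ ^ L.length) := by positivity
  have hx : (W.length : ℝ) * (K * Λ ^ L.length) ≤
      Real.exp ((1 + K + Real.log Λ) * (L.length + 1)) := by
    have e1 : (W.length : ℝ) ≤ Real.exp (L.length + 1) := by
      have : (W.length : ℝ) ≤ L.length := by exact_mod_cast a5
      linarith [Real.add_one_le_exp ((L.length : ℝ) + 1)]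
    have e2 : K ≤ Real.exp (K * (L.length + 1)) := by
      have := Real.add_one_le_exp (K * ((L.length : ℝ) + 1))
      nlinarith
    have e3 : Λ ^ L.length ≤ Real.exp (Real.log Λ * (L.length + 1)) := by
      have : Λ ^ L.length = Real.exp (Real.log Λ * L.length) := by
        rw [mul_comm, Real.exp_nat_mul, Real.exp_log (by linarith)]
      rw [this]
      refine Real.exp_le_exp.2 (mul_le_mul_of_nonneg_left (by linarith) (Real.log_nonneg hΛ))
    have e4 : Real.exp ((1 + K + Real.log Λ) * ((L.length : ℝ) + 1)) =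
        Real.exp ((L.length : ℝ) + 1) * (Real.exp (K * (L.length + 1)) *
        Real.exp (Real.log Λ * (L.length + 1))) := by
      rw [← Real.exp_add, ← Real.exp_add]; congr 1; ring
    rw [e4]
    refine mul_le_mul e1 ?_ hKL (Real.exp_pos _).le
    exact mul_le_mul e2 e3 (by positivity) (Real.exp_pos _).le
  refine h2.trans (le_trans ?_ (hfin _ _ hr hx0 hx))
  exact mul_le_mul_of_nonneg_right (by linarith) (by positivity)

/-- `U` generates `S` -/
theorem MB.closure_U {F : Set Γ} (hF : Subgroup.closure F = ⊤) :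
    Subgroup.closure (D.U F) = ⊤ := by
  rw [eq_top_iff]
  intro s _
  obtain ⟨k, g, rfl⟩ := D.P.exists_eq s
  refine Subgroup.mul_mem _ ?_ ?_
  · obtain ⟨n, hn⟩ := exists_nat_gt ‖((D.R.Lo k : D.R.V) : D.Alg)‖
    have hn0 : (0 : ℝ) < n := lt_of_le_of_lt (norm_nonneg _) hn
    have h1 : D.P.inK k = (D.ex ((n : ℝ)⁻¹ • D.R.Lo k)) ^ n := by
      have h2 : ∀ (v : D.R.V) (j : ℕ), (D.R.Ex v) ^ j = D.R.Ex ((j : ℝ) • v) := by
        intro v j
        induction j with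
        | zero => rw [pow_zero, Nat.cast_zero, zero_smul, D.R.Ex_zero]
        | succ j ih =>
          rw [pow_succ, ih, Nat.cast_succ, D.R.Ex_add, one_smul]
      change D.inN k = (D.inN (D.R.Ex _)) ^ n
      rw [← map_pow, h2, smul_smul, mul_inv_cancel₀ hn0.ne', one_smul, D.R.Ex_Lo]
    have h2 : ‖(((n : ℝ)⁻¹ • D.R.Lo k : D.R.V) : D.Alg)‖ ≤ 1 := by
      rw [Submodule.coe_smul, norm_smul, norm_inv, Real.norm_natCast, inv_mul_le_iff₀ hn0, mul_one]
      exact hn.le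
    have h3 : D.ex ((n : ℝ)⁻¹ • D.R.Lo k) ∈ D.U F := Or.inr ⟨_, h2, rfl⟩
    rw [h1]
    exact Subgroup.pow_mem _ (Subgroup.subset_closure h3) n
  · have h1 : Subgroup.closure F ≤ (Subgroup.closure (D.U F)).comap D.inΓ := by
      rw [Subgroup.closure_le]
      intro f hf
      exact Subgroup.subset_closure (Or.inl ⟨f, hf, rfl⟩)
    exact h1 (by rw [hF]; trivial)

/-- **(M2)**: exponential upper bound for the norm of elements of `N_ℝ` -/
theorem MB.M2_toA (hη : Function.Surjective η) (F : Set Γ) (hF : F.Finite)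
    (hgen : Subgroup.closure F = ⊤) : ∃ C : ℝ, 0 < C ∧ ∀ y : D.R.NR,
      ‖D.R.toA y‖ ≤ Real.exp (C * (wl (D.U F) (D.inN y) + 1)) := by
  obtain ⟨C1, hC1, h1⟩ := D.word_form F hF
  obtain ⟨C2, hC2, h2⟩ := D.norm_ρ_le hη F hF
  refine ⟨C1 + C2, by linarith, fun y => ?_⟩
  obtain ⟨L, e1, e2, e3⟩ := wl_list (D.closure_U hgen) (D.inN y)
  obtain ⟨l, y', a1, a2, a3, a4⟩ := h1 L e2
  rw [e3] at a3
  have h3 : l.prod ∈ η.ker := by
    have := congrArg (D.θ η) a3
    rw [map_mul, D.θ_inN, D.θ_inN, D.θ_inΓ, one_mul] at this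
    exact this.symm
  have h4 : y = y' * D.R.ι ⟨l.prod, h3⟩ := by
    apply D.P.inK_injective
    rw [map_mul]
    refine a3.trans ?_
    congr 1
    exact D.P.inG_coe ⟨l.prod, h3⟩
  rw [h4, map_mul, D.R.toA_ι]
  have h5 := h2 l a1 h3
  have h6 : (l.length : ℝ) ≤ wl (D.U F) (D.inN y) := by
    rw [← e1]; exact_mod_cast a2
  rw [← h4, ← e1]
  rw [← e1] at h6
  refine (norm_mul_le _ _).trans ?_
  calc ‖D.R.toA y'‖ * ‖D.R.ρ ⟨l.prod, h3⟩‖
      ≤ Real.exp (C1 * (L.length + 1)) * Real.exp (C2 * (l.length + 1)) :=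
        mul_le_mul a4 h5 (norm_nonneg _) (Real.exp_pos _).le
    _ = Real.exp (C1 * (L.length + 1) + C2 * (l.length + 1)) := by rw [Real.exp_add]
    _ ≤ _ := Real.exp_le_exp.2 (by nlinarith)

/-- **(M2)**: exponential upper bound for the logarithm of elements of `N_ℝ` -/
theorem MB.M2 (hη : Function.Surjective η) (F : Set Γ) (hF : F.Finite)
    (hgen : Subgroup.closure F = ⊤) : ∃ C : ℝ, 0 < C ∧ ∀ y : D.R.NR,
      ‖((D.R.Lo y : D.R.V) : D.Alg)‖ ≤ Real.exp (C * (wl (D.U F) (D.inN y) + 1)) := by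
  obtain ⟨C1, hC1, h1⟩ := D.M2_toA hη F hF hgen
  obtain ⟨C2, hC2, h2⟩ := D.R.exists_Lo_bound
  obtain ⟨C3, hC3, h3⟩ := exp_bound_aux (show 0 < C1 + ‖(1 : D.Alg)‖ by positivity) hC2 D.R.m
  refine ⟨C3, hC3, fun y => ?_⟩
  set r : ℝ := wl (D.U F) (D.inN y) + 1 with hr
  have hr1 : 1 ≤ r := by
    have : (0 : ℝ) ≤ wl (D.U F) (D.inN y) := Nat.cast_nonneg _
    linarith
  refine (h2 y).trans (h3 r _ hr1 (norm_nonneg _) ?_)
  refine (norm_sub_le _ _).trans ?_
  have h4 := h1 y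
  have h5 : Real.exp ((C1 + ‖(1 : D.Alg)‖) * r) =
      Real.exp (C1 * r) * Real.exp (‖(1 : D.Alg)‖ * r) := by rw [← Real.exp_add]; congr 1; ring
  have h6 : 1 + ‖(1 : D.Alg)‖ ≤ Real.exp (‖(1 : D.Alg)‖ * r) := by
    have := Real.add_one_le_exp (‖(1 : D.Alg)‖ * r)
    nlinarith [norm_nonneg (1 : D.Alg)]
  have h7 : 1 ≤ Real.exp (C1 * r) := Real.one_le_exp (by positivity)
  rw [h5]
  nlinarith [norm_nonneg (1 : D.Alg)]

end conc

end Vale.Agent.P188.H796
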