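import Vale.Agent.P188.H796.Lj

/-!
`Adn (Ex X) = exp (ad X)`; nilpotency of the Lie algebra.
-/

open Finset Filter Topology

universe u v w

namespace Vale.Agent.P188.H796

section alg

variable {A : Type v} [NormedRing A] [NormedAlgebra ℝ A] [FiniteDimensional ℝ A] {m : ℕ}

/-- commutator with `x` as a continuous linear map -/
noncomputable def adA (x : A) : A →L[ℝ] A :=
  ContinuousLinearMap.mul ℝ A x - (ContinuousLinearMap.mul ℝ A).flip x

omit [FiniteDimensional ℝ A] in
theorem adA_apply (x y : A) : adA x y = x * y - y * x := rfl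

omit [FiniteDimensional ℝ A] in
theorem adA_pow {x : A} (hx : x ^ m = 0) : (adA x) ^ (2 * m) = 0 := by
  have h1 : ∀ k : ℕ, ∀ y, ((ContinuousLinearMap.mul ℝ A x) ^ k) y = x ^ k * y := by
    intro k
    induction k with
    | zero => intro y; simp
    | succ k ih =>
      intro y
      rw [pow_succ, _root_.mul_apply_eq_comp, ContinuousLinearMap.mul_apply', ih, pow_succ,
        mul_assoc]
  have h2 : ∀ k : ℕ, ∀ y, ((-((ContinuousLinearMap.mul ℝ A).flip x)) ^ k) y = y * (-x) ^ k := by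
    intro k
    induction k with
    | zero => intro y; simp
    | succ k ih =>
      intro y
      rw [pow_succ, _root_.mul_apply_eq_comp]
      have : (-((ContinuousLinearMap.mul ℝ A).flip x)) y = y * (-x) := by simp
      rw [this, ih, pow_succ', mul_assoc]
  have h3 : Commute (ContinuousLinearMap.mul ℝ A x) (-((ContinuousLinearMap.mul ℝ A).flip x)) := by
    ext y
    simp [mul_assoc]
  have h4 : adA x = ContinuousLinearMap.mul ℝ A x + (-((ContinuousLinearMap.mul ℝ A).flip x)) :=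
    sub_eq_add_neg _ _
  rw [h4]
  refine h3.add_pow_eq_zero_of_add_le_succ_of_pow_eq_zero (m := m) (n := m) ?_ ?_ (by omega)
  · ext y
    rw [h1, hx]; simp
  · ext y
    rw [h2, neg_pow, hx]; simp

/-- `exp(x) y exp(-x) = exp(ad x) y` -/
theorem ex_mul_mul_ex_neg (hm : 0 < m) {x : A} (hx : x ^ m = 0) (y : A) :
    ex m x * y * ex m (-x) = ∑ k ∈ range (2 * m), ((k.factorial : ℝ)⁻¹) • ((adA x) ^ k) y := by
  let M := ContinuousLinearMap.mul ℝ A
  let f : ℝ → (A →L[ℝ] A) := fun t => (M (ex m (t • x))).comp (M.flip (ex m ((-t) • x)))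
  have hf : ∀ t, HasDerivAt f (f t * adA x) t := by
    intro t
    have e1 : HasDerivAt (fun t => M (ex m (t • x))) (M (ex m (t • x) * x)) t :=
      (M.hasFDerivAt.comp_hasDerivAt t (hasDerivAt_ex hx t))
    have e2 : HasDerivAt (fun t => M.flip (ex m ((-t) • x))) (M.flip (-(x * ex m ((-t) • x)))) t :=
      (M.flip.hasFDerivAt.comp_hasDerivAt t (hasDerivAt_ex_neg hx t))
    have e3 := e1.clm_comp e2
    refine e3.congr_deriv ?_
    ext y
    simp only [_root_.add_apply, ContinuousLinearMap.comp_apply, f,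
      _root_.mul_apply_eq_comp, adA_apply, M, ContinuousLinearMap.flip_apply,
      ContinuousLinearMap.mul_apply', mul_neg]
    rw [sub_mul, mul_sub, sub_eq_add_neg]
    simp only [mul_assoc]
  have h := ode_unique (m := 2 * m) (by omega) (adA_pow hx) hf 1
  have hz : ex m (0 : A) = 1 := by
    have := ex_zero_smul hm (0 : A)
    rwa [smul_zero] at this
  have h0 : f 0 = 1 := by
    ext y
    simp [f, M, hz]
  have h1 : f 1 y = ex m x * y * ex m (-x) := by
    simp [f, M, mul_assoc]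
  rw [← h1, h, h0, one_mul, one_smul, ex]
  simp only [_root_.sum_apply, _root_.smul_apply]

end alg

namespace RD

variable {N : Type u} [Group N] {d n : ℕ} {D : MB N d n} {A : Type v} [NormedRing A]
  [NormedAlgebra ℝ A] [FiniteDimensional ℝ A] (R : RD D A)

theorem coe_ad_pow (X : R.V) (k : ℕ) (v : R.V) :
    ((((LieAlgebra.ad ℝ R.V X) ^ k) v : R.V) : A) = ((adA (X : A)) ^ k) (v : A) := by
  induction k generalizing v with
  | zero => simp
  | succ k ih =>
    rw [pow_succ, pow_succ, Module.End.mul_apply, _root_.mul_apply_eq_comp, ih]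
    rfl

theorem ad_pow (X : R.V) : (LieAlgebra.ad ℝ R.V X) ^ (2 * R.m) = 0 := by
  ext v
  rw [coe_ad_pow, adA_pow (R.J_nil X.2.1)]
  rfl

/-- the adjoint action of `Ex X` is `exp (ad X)` -/
theorem Adn_Ex (X v : R.V) : R.Adn (R.Ex X) v =
    ∑ k ∈ range (2 * R.m), ((k.factorial : ℝ)⁻¹) • ((LieAlgebra.ad ℝ R.V X) ^ k) v := by
  apply Subtype.ext
  have h1 : (((R.EU (R.Ex X))⁻¹ : Aˣ) : A) = ex R.m (-(X : A)) := by
    rw [← R.toA_inv, ← R.Ex_neg]
    exact R.toA_Ex (-X)
  have h2 : R.E (R.Ex X) = ex R.m (X : A) := R.toA_Ex X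
  rw [coe_Adn, h1, h2, ex_mul_mul_ex_neg R.hm0 (R.J_nil X.2.1), Submodule.coe_sum]
  refine sum_congr rfl fun k _ => ?_
  rw [Submodule.coe_smul, coe_ad_pow]

theorem Adn_eq (s : R.NR) (v : R.V) : R.Adn s v =
    ∑ k ∈ range (2 * R.m), ((k.factorial : ℝ)⁻¹) • ((LieAlgebra.ad ℝ R.V (R.Lo s)) ^ k) v := by
  conv_lhs => rw [← R.Ex_Lo s]
  exact R.Adn_Ex _ v

theorem Adn_sub_mem (s : R.NR) (I : LieIdeal ℝ R.V) {x : R.V} (hx : x ∈ I) :
    R.Adn s x - x ∈ (⁅(⊤ : LieIdeal ℝ R.V), I⁆ : LieIdeal ℝ R.V) := by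
  have hk : ∀ k, ((LieAlgebra.ad ℝ R.V (R.Lo s)) ^ k) x ∈ I := by
    intro k
    induction k with
    | zero => simpa using hx
    | succ k ih =>
      rw [pow_succ', Module.End.mul_apply]
      exact I.lie_mem ih
  obtain ⟨M, hM⟩ : ∃ M, 2 * R.m = M + 1 := ⟨2 * R.m - 1, by have := R.hm0; omega⟩
  rw [Adn_eq, hM, sum_range_succ']
  simp only [Nat.factorial_zero, Nat.cast_one, inv_one, pow_zero, one_smul, Module.End.one_apply,
    add_sub_cancel_right]
  refine Submodule.sum_mem (⁅(⊤ : LieIdeal ℝ R.V), I⁆ : LieIdeal ℝ R.V).toSubmodule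
    fun k _ => ?_
  refine Submodule.smul_mem (⁅(⊤ : LieIdeal ℝ R.V), I⁆ : LieIdeal ℝ R.V).toSubmodule _ ?_
  rw [pow_succ', Module.End.mul_apply]
  exact LieSubmodule.lie_mem_lie (LieSubmodule.mem_top _) (hk k)

instance : LieModule.IsNilpotent R.V R.V := by
  have : LieRing.IsNilpotent R.V := by
    rw [LieAlgebra.isNilpotent_iff_forall (R := ℝ)]
    intro x
    exact ⟨2 * R.m, R.ad_pow x⟩
  exact this

end RD

end Vale.Agent.P188.H796
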