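import Vale.Agent.P188.H796.GeoH
import Vale.Agent.P188.H8.GeoP

/-!
# P188, route B: `H_sh`, `H_grow` over the definitions of H8/GeoP
-/

set_option linter.all false

open MeasureTheory Set
open Vale.Agent.P188.H8 Vale.Agent.P188.H615 Vale.Agent.P188.H131 Vale.Agent.P188.H796
open Vale.P188.H532 (exto)

namespace Vale.Agent.P188.Z1

section concrete

variable {Γ : Type} [Group Γ] {k : ℕ} {η : Γ →* Multiplicative (Fin k → ℤ)} {d n : ℕ}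
  {D : MB η.ker d n} {M : RModel D.S Γ D.R.V k} {J : Type} [DecidableEq J] (Rd : RayD M J)

theorem US_eq {B : M.NatBox} (hB : B.Bx = NBx D M.X) (p : M.ι → Prop) (σ : M.ι → ℝ) :
    US M p σ = B.bE (on p σ) := by
  ext e
  show (∃ v ∈ H615.nb (LB M.X (on p σ)), D.ex v = (e : D.S)) ↔ (e : D.S) ∈ B.Bx (on p σ)
  rw [hB, NBx, Gb_eq_LB]
  rfl

theorem U0_eq {B : M.NatBox} (hB : B.Bx = NBx D M.X) (o : Option J) (μ r : ℝ) :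
    H8.U0 Rd o μ r = UB Rd B o μ r := US_eq hB _ _

variable [Fintype J]

/-- field `H_sh` -/
theorem H_sh {B : M.NatBox} (h : NatHyp M) (hB : B.Bx = NBx D M.X) : ∃ C0 : ℝ, 0 ≤ C0 ∧
    ∀ C : ℝ, C0 ≤ C → ∀ (o : Option J) (ρ ρ' : Option J → ℝ) (l r : ℝ), 0 ≤ r →
      (∀ j, |ρ' j - ρ j| ≤ r) →
      Real.log (pkn (NE Rd B ρ') (H8.U0 Rd o (ρ' o + l) (ρ' none))) ≤
        Real.log (pkn (NE Rd B ρ) (H8.U0 Rd o (ρ o + l) (ρ none))) + C * (1 + r) := by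
  obtain ⟨C0, h0, H⟩ := Hf_sh Rd h hB
  refine ⟨C0, h0, fun C hC o ρ ρ' l r hr hρ => ?_⟩
  rw [U0_eq Rd hB, U0_eq Rd hB]
  exact H C hC o ρ ρ' l r hr hρ

/-- field `H_grow` -/
theorem H_grow {B : M.NatBox} (h : NatHyp M) (hB : B.Bx = NBx D M.X)
    (c : ∀ j, M.CrossS (Rd.b j)) : ∃ C0 : ℝ, 1 ≤ C0 ∧ ∀ C : ℝ, C0 ≤ C →
    ∀ (i : J) (ρ : Option J → ℝ) (l l' : ℝ), (∀ j, 0 ≤ ρ j) → 0 ≤ l' → l' ≤ l →
      Real.log (pkn (NE Rd B ρ) (H8.U0 Rd (some i) (ρ (some i) + l') (ρ none))) + (l - l') / C - C ≤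
        Real.log (pkn (NE Rd B ρ) (H8.U0 Rd (some i) (ρ (some i) + l) (ρ none))) := by
  obtain ⟨C0, h0, H⟩ := Hf_grow Rd h hB c
  refine ⟨C0, h0, fun C hC i ρ l l' hρ hl' hl => ?_⟩
  rw [U0_eq Rd hB, U0_eq Rd hB]
  exact H C hC i ρ l l' hρ hl' hl

/-- field `D_vol` -/
theorem D_vol_NE {B : M.NatBox} (c : ∀ j, M.CrossS (Rd.b j)) : ∃ C0 : ℝ, 1 ≤ C0 ∧ ∀ C : ℝ, C0 ≤ C →
    ∀ (j : J) (ρ : Option J → ℝ) (r : ℝ) (d : ℂ),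
    M.nu {n | n ∈ NE Rd B ρ ∧ ‖(c j).D (n : D.S) - d‖ ≤ Real.exp r} ≤
      ENNReal.ofReal (Real.exp (C - (ρ (some j) - r) / C)) * M.nu (NE Rd B ρ) :=
  D_volE Rd c

end concrete

end Vale.Agent.P188.Z1
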