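import Vale.Agent.P188.H796.Lg

/-!
Automorphisms on the Lie algebra, adjoint action, topology, cocompactness.
-/

open Finset Filter Topology

universe u v

namespace Vale.Agent.P188.H796

theorem ex_map {A B : Type*} [NormedRing A] [NormedAlgebra ℝ A] [NormedRing B] [NormedAlgebra ℝ B]
    (f : A →ₐ[ℝ] B) (m : ℕ) (v : A) : f (ex m v) = ex m (f v) := by
  simp [ex, map_sum, map_smul, map_pow]

theorem lg_map {A B : Type*} [NormedRing A] [NormedAlgebra ℝ A] [NormedRing B] [NormedAlgebra ℝ B]
    (f : A →ₐ[ℝ] B) (m : ℕ) (v : A) : f (lg m v) = lg m (f v) := by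
  simp [lg, map_sum, map_smul, map_pow, map_sub]

namespace RD

section action

variable {N : Type u} [Group N] {d n : ℕ} {D : MB N d n} {A : Type v} [NormedRing A]
  [NormedAlgebra ℝ A] [FiniteDimensional ℝ A] (R : RD D A)

omit [FiniteDimensional ℝ A] in
theorem map_J (θ : N →* N) (Θ : A →ₐ[ℝ] A) (h : ∀ x, Θ (R.ρ x) = R.ρ (θ x)) {v : A}
    (hv : v ∈ R.J) : Θ v ∈ R.J := by
  have h1 : R.J ≤ R.J.comap Θ.toLinearMap := by
    conv_lhs => rw [J]
    rw [Submodule.span_le]
    rintro _ ⟨x, rfl⟩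
    change Θ (R.ρ x - 1) ∈ R.J
    rw [map_sub, map_one, h]
    exact Submodule.subset_span ⟨_, rfl⟩
  exact h1 hv

omit [FiniteDimensional ℝ A] in
theorem map_VS (θ : N →* N) (Θ : A →ₐ[ℝ] A) (h : ∀ x, Θ (R.ρ x) = R.ρ (θ x)) {v : A}
    (hv : v ∈ R.VS) : Θ v ∈ R.VS := by
  obtain ⟨hJ, s, hs⟩ := hv
  refine ⟨R.map_J θ Θ h hJ, R.act θ Θ h s, ?_⟩
  rw [← ex_map, ← hs]
  exact R.toA_act θ Θ h s

/-- action of an automorphism on the Lie algebra -/
noncomputable def adL (θ : N →* N) (Θ : A →ₐ[ℝ] A) (h : ∀ x, Θ (R.ρ x) = R.ρ (θ x)) :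
    R.V →ₗ[ℝ] R.V where
  toFun v := ⟨Θ v, R.map_VS θ Θ h v.2⟩
  map_add' v w := Subtype.ext (by simp)
  map_smul' c v := Subtype.ext (by simp)

theorem coe_adL (θ : N →* N) (Θ : A →ₐ[ℝ] A) (h : ∀ x, Θ (R.ρ x) = R.ρ (θ x)) (v : R.V) :
    ((R.adL θ Θ h v : R.V) : A) = Θ v := rfl

theorem adL_lie (θ : N →* N) (Θ : A →ₐ[ℝ] A) (h : ∀ x, Θ (R.ρ x) = R.ρ (θ x)) (v w : R.V) :
    R.adL θ Θ h ⁅v, w⁆ = ⁅R.adL θ Θ h v, R.adL θ Θ h w⁆ :=
  Subtype.ext (by simp [coe_adL, coe_bracket])

theorem Ex_adL (θ : N →* N) (Θ : A →ₐ[ℝ] A) (h : ∀ x, Θ (R.ρ x) = R.ρ (θ x)) (v : R.V) :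
    R.Ex (R.adL θ Θ h v) = R.act θ Θ h (R.Ex v) :=
  R.toA_inj (by rw [toA_Ex, toA_act, toA_Ex, ex_map, coe_adL])

theorem Ex_injective : Function.Injective R.Ex := fun v w h => by
  rw [← R.Lo_Ex v, h, R.Lo_Ex]

theorem Lo_injective : Function.Injective R.Lo := fun v w h => by
  rw [← R.Ex_Lo v, h, R.Ex_Lo]

/-- adjoint action of the real group on the Lie algebra -/
noncomputable def Adn : R.NR →* (R.V →ₗ[ℝ] R.V) where
  toFun s :=
    { toFun := fun v => ⟨R.E s * v * (((R.EU s)⁻¹ : Aˣ) : A), R.conj_mem_V v.2 s⟩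
      map_add' := fun v w => Subtype.ext (by simp [mul_add, add_mul])
      map_smul' := fun c v => Subtype.ext (by simp) }
  map_one' := by
    ext v
    have h1 : R.E (1 : R.NR) = 1 := R.toA_one
    have h2 : ((((R.EU (1 : R.NR))⁻¹ : Aˣ)) : A) = 1 := by
      rw [← R.toA_inv, inv_one, toA_one]
    simp [h1, h2]
  map_mul' s s' := by
    ext v
    have h2 : ((((R.EU (s * s' : R.NR))⁻¹ : Aˣ)) : A) =
        (((R.EU s')⁻¹ : Aˣ) : A) * (((R.EU s)⁻¹ : Aˣ) : A) := by
      rw [← R.toA_inv, mul_inv_rev, toA_mul, toA_inv, toA_inv]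
    simp [h2, toA_mul, mul_assoc]

theorem coe_Adn (s : R.NR) (v : R.V) :
    ((R.Adn s v : R.V) : A) = R.E s * v * (((R.EU s)⁻¹ : Aˣ) : A) := rfl

theorem Ex_Adn (s : R.NR) (v : R.V) : R.Ex (R.Adn s v) = s * R.Ex v * s⁻¹ :=
  R.toA_inj (by
    rw [toA_Ex, coe_Adn, map_mul, map_mul, toA_Ex]
    have h : R.toA s⁻¹ = (((R.EU s)⁻¹ : Aˣ) : A) := R.toA_inv s
    rw [h]
    exact ex_conj (R.EU s) (v : A))

end action

/-! ### topology -/

section topo

variable {N : Type u} [Group N] {d n : ℕ} {D : MB N d n} {A : Type v} [NormedRing A]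
  [NormedAlgebra ℝ A] [FiniteDimensional ℝ A] (R : RD D A)

instance : TopologicalSpace R.NR := inferInstanceAs (TopologicalSpace (Fin d → ℝ))
instance : T2Space R.NR := inferInstanceAs (T2Space (Fin d → ℝ))
instance : LocallyCompactSpace R.NR := inferInstanceAs (LocallyCompactSpace (Fin d → ℝ))
instance : SecondCountableTopology R.NR := inferInstanceAs (SecondCountableTopology (Fin d → ℝ))

omit [FiniteDimensional ℝ A] in
theorem continuous_toA : Continuous R.toA := R.continuous_E

theorem continuous_coords {X : Type*} [TopologicalSpace X] {f : X → A} (hf : Continuous f) :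
    Continuous (fun x => (fun i => R.ℓ i (f x) : R.NR)) :=
  continuous_pi (A := fun _ => ℝ) fun i => ((R.ℓ i).continuous_of_finiteDimensional).comp hf

instance : ContinuousMul R.NR := ⟨by
  have h : (fun p : R.NR × R.NR => p.1 * p.2) =
      fun p => (fun i => R.ℓ i (R.toA p.1 * R.toA p.2) : R.NR) := rfl
  rw [h]
  exact R.continuous_coords ((R.continuous_toA.comp continuous_fst).mul
    (R.continuous_toA.comp continuous_snd))⟩

instance : ContinuousInv R.NR := ⟨by
  have : CompleteSpace A := FiniteDimensional.complete ℝ A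
  have h : (fun s : R.NR => s⁻¹) = fun s => (fun i => R.ℓ i (Ring.inverse (R.toA s)) : R.NR) := by
    funext s
    have h1 : Ring.inverse (R.toA s) = (((R.EU s)⁻¹ : Aˣ) : A) := Ring.inverse_unit (R.EU s)
    rw [h1]
    rfl
  rw [h]
  refine R.continuous_coords ?_
  rw [continuous_iff_continuousAt]
  intro s
  have h1 : ContinuousAt Ring.inverse (R.toA s) := NormedRing.inverse_continuousAt (R.EU s)
  exact ContinuousAt.comp (f := R.toA) h1 (R.continuous_toA.continuousAt)⟩

instance : IsTopologicalGroup R.NR where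

theorem continuous_Ex : Continuous R.Ex :=
  R.continuous_coords (continuous_ex.comp continuous_subtype_val)

theorem continuous_Lo : Continuous R.Lo :=
  Continuous.subtype_mk (continuous_lg.comp R.continuous_toA) _

/-- the exponential map is a homeomorphism -/
noncomputable def ExHomeo : R.V ≃ₜ R.NR where
  toFun := R.Ex
  invFun := R.Lo
  left_inv := R.Lo_Ex
  right_inv := R.Ex_Lo
  continuous_toFun := R.continuous_Ex
  continuous_invFun := R.continuous_Lo

end topo

/-! ### cocompactness -/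

section cocompact

variable {N : Type u} [Group N] {d n : ℕ} {D : MB N d n} {A : Type v} [Ring A] [Algebra ℝ A]
  (R : RD D A)

theorem prod_ofFn_split {M : Type*} [Monoid M] : ∀ {d : ℕ} (k : Fin d) (f : Fin d → M),
    (∀ j, j < k → f j = 1) →
    (List.ofFn f).prod = f k * (List.ofFn (Function.update f k 1)).prod
  | d + 1, k, f, hf => by
    revert hf
    refine Fin.cases ?_ (fun k => ?_) k
    · intro _
      rw [List.ofFn_succ, List.prod_cons, List.ofFn_succ, List.prod_cons]
      simp
    · intro hf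
      have h0 : f 0 = 1 := hf 0 (Fin.succ_pos k)
      rw [List.ofFn_succ, List.prod_cons, h0, one_mul, List.ofFn_succ, List.prod_cons]
      have h1 := prod_ofFn_split k (fun i => f i.succ) (fun j hj => hf _ (Fin.succ_lt_succ_iff.2 hj))
      have h2 : (fun i : Fin d => Function.update f k.succ 1 i.succ) =
          Function.update (fun i => f i.succ) k 1 := by
        funext i
        by_cases h : i = k
        · subst h; simp
        · rw [Function.update_of_ne h, Function.update_of_ne (fun h' => h (Fin.succ_injective _ h'))]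
      rw [h1, h2, Function.update_of_ne (Fin.succ_ne_zero k).symm, h0, one_mul]

/-- one-parameter subgroups of the basis -/
def sg (k : Fin d) (t : ℝ) : R.NR := (Pi.single k t : Fin d → ℝ)

theorem EU_split (k : Fin d) (s : Fin d → ℝ) (hs : ∀ j, j < k → s j = 0) :
    R.EU s = rpU R.m (R.ρ (D.b k)) (R.unip _) (s k) * R.EU (Function.update s k 0) := by
  have hz : ∀ j, rpU R.m (R.ρ (D.b j)) (R.unip _) 0 = 1 := fun j => Units.ext (by
    rw [rpU_val, rp_zero (R.unip _), Units.val_one])
  rw [EU, prod_ofFn_split k]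
  · congr 3
    funext j
    by_cases h : j = k
    · subst h; rw [Function.update_self, Function.update_self, hz]
    · rw [Function.update_of_ne h, Function.update_of_ne h]
  · intro j hj
    rw [hs j hj, hz]

theorem EU_zero : R.EU 0 = 1 := Units.ext R.E_zero

theorem EU_sg (k : Fin d) (t : ℝ) : R.EU (R.sg k t) = rpU R.m (R.ρ (D.b k)) (R.unip _) t := by
  have h := R.EU_split k (Pi.single k t) (fun j hj => Pi.single_eq_of_ne hj.ne _)
  have h2 : Function.update (Pi.single k t : Fin d → ℝ) k 0 = 0 := by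
    funext j
    by_cases h : j = k
    · subst h; simp
    · rw [Function.update_of_ne h, Pi.single_eq_of_ne h, Pi.zero_apply]
  rw [h2, EU_zero, mul_one, Pi.single_eq_same] at h
  exact h

theorem EU_injective : Function.Injective R.EU := fun _ _ h =>
  R.E_injective (congrArg Units.val h)

theorem EU_mul (s s' : R.NR) : R.EU (s * s' : R.NR) = R.EU s * R.EU s' :=
  Units.ext (R.toA_mul s s')

theorem update_eq_ite {d : ℕ} (s : Fin d → ℝ) (k : Fin d) :
    Function.update s k 0 = fun j => if j = k then 0 else s j := by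
  funext j
  by_cases hj : j = k
  · subst hj; rw [Function.update_self, if_pos rfl]
  · rw [Function.update_of_ne hj, if_neg hj]

/-- change one coordinate -/
def upd (s : R.NR) (k : Fin d) (t : ℝ) : R.NR := fun j => if j = k then t else s j

theorem upd_self (s : R.NR) (k : Fin d) (t : ℝ) : R.upd s k t k = t := if_pos rfl

theorem upd_of_ne (s : R.NR) {k j : Fin d} (h : j ≠ k) (t : ℝ) : R.upd s k t j = s j := if_neg h

theorem split (k : Fin d) (s : R.NR) (hs : ∀ j, j < k → s j = 0) :
    s = R.sg k (s k) * R.upd s k 0 := by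
  refine R.EU_injective ?_
  rw [EU_mul, EU_sg]
  have h := R.EU_split k s hs
  exact h.trans (congrArg (fun z => rpU R.m (R.ρ (D.b k)) (R.unip _) (s k) * R.EU z)
    (update_eq_ite s k))

theorem sg_add (k : Fin d) (s t : ℝ) : R.sg k (s + t) = R.sg k s * R.sg k t := by
  refine R.EU_injective ?_
  rw [EU_mul, EU_sg, EU_sg, EU_sg]
  exact Units.ext (rp_add (R.unip _) s t)

theorem sg_zero (k : Fin d) : R.sg k 0 = 1 := by
  have : (Pi.single k 0 : Fin d → ℝ) = 0 := Pi.single_zero k
  exact this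

/-- elements whose coordinates up to `k` vanish -/
theorem sg_mul_apply (k : Fin d) (t : ℝ) (w : R.NR) (hw : ∀ j, j ≤ k → w j = 0) :
    R.sg k t * w = R.upd w k t := by
  have h := R.split k (R.upd w k t) (fun j hj => by
    rw [R.upd_of_ne w hj.ne]; exact hw j hj.le)
  have h2 : R.upd (R.upd w k t) k 0 = w := by
    funext j
    by_cases hj : j = k
    · subst hj; rw [R.upd_self]; exact (hw j le_rfl).symm
    · rw [R.upd_of_ne _ hj, R.upd_of_ne _ hj]
  rw [h2, R.upd_self] at h
  exact h.symm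

theorem ι_b (k : Fin d) (t : ℤ) : R.ι (D.b k ^ t) = R.sg k t := by
  have h1 : (List.ofFn fun i => D.b i ^ (Pi.single k t : Fin d → ℤ) i).prod = D.b k ^ t := by
    rw [prod_ofFn_split k]
    · rw [Pi.single_eq_same]
      have : (Function.update (fun i => D.b i ^ (Pi.single k t : Fin d → ℤ) i) k 1) = fun _ => 1 := by
        funext j
        by_cases hj : j = k
        · subst hj; simp
        · rw [Function.update_of_ne hj, Pi.single_eq_of_ne hj, zpow_zero]
      rw [this]
      simp
    · intro j hj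
      rw [Pi.single_eq_of_ne hj.ne, zpow_zero]
  funext i
  rw [ι_apply, ← h1, D.c_prod]
  by_cases hi : i = k
  · subst hi; simp [sg]
  · simp [sg, Pi.single_eq_of_ne hi]

/-- normality of the real series under integer powers of the basis -/
theorem norm_real (k : Fin d) (t : ℤ) (w : R.NR) (hw : ∀ j, j ≤ k → w j = 0) :
    ∀ j, j ≤ k → (R.sg k t * w * R.sg k (-t) : R.NR) j = 0 := by
  intro j hj
  let mask : (Fin d → ℝ) → R.NR := fun s i => if i ≤ k then 0 else s i
  have key : ∀ s : R.NR, R.ℓ j (R.E (R.sg k t) * R.E (mask s) * R.E (R.sg k (-t))) = 0 := by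
    refine R.dens ?_ (fun γ hγ => PC.const 0) ?_
    · intro γ hγ
      refine (((PC.const _).mul (R.PC_E fun i => ?_)).mul (PC.const _)).map (R.ℓ j)
      by_cases hi : i ≤ k
      · simp only [mask, if_pos hi]; exact PC.const 0
      · simp only [mask, if_neg hi]; exact hγ i
    · intro y
      let s' : Fin d → ℤ := fun i => if i ≤ k then 0 else D.c i y
      let y' : N := (List.ofFn fun i => D.b i ^ s' i).prod
      have h1 : mask (R.ι y) = R.ι y' := by
        funext i
        rw [ι_apply, D.c_prod]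
        by_cases hi : i ≤ k
        · simp [mask, s', hi]
        · simp [mask, s', hi, ι_apply]
      have h2 : R.E (R.ι y') = R.ρ y' := R.E_coord y'
      have h3 : R.E (R.sg k t) = R.ρ (D.b k ^ t) := by
        rw [← ι_b]; exact R.E_coord _
      have h4 : R.E (R.sg k (-(t : ℝ))) = R.ρ (D.b k ^ (-t)) := by
        have := R.E_coord (D.b k ^ (-t))
        rw [← this]
        have h5 := R.ι_b k (-t)
        push_cast at h5
        rw [← h5]
        rfl
      rw [h1, h2, h3, h4, ← map_mul, ← map_mul, R.hℓ]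
      have h6 := D.norm k t y' (fun i hi => by
        rw [D.c_prod]; simp [s', hi]) j hj
      rw [h6]; simp
  have h := key w
  have hmw : mask w = w := by
    funext i
    by_cases hi : i ≤ k
    · simp only [mask, if_pos hi]; exact (hw i hi).symm
    · simp only [mask, if_neg hi]
  rw [hmw] at h
  have h2 : R.ℓ j (R.E (R.sg k t * w * R.sg k (-t) : R.NR)) = 0 := by
    rw [toA_mul, toA_mul]; exact h
  rw [← R.ℓ_E (R.sg k t * w * R.sg k (-t) : R.NR) j]
  exact h2

theorem exists_cube_aux : ∀ (r k : ℕ), r + k = d → ∀ s : R.NR, (∀ j : Fin d, (j : ℕ) < k → s j = 0) →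
    ∃ x : N, (∀ j, 0 ≤ (s * R.ι x : R.NR) j ∧ (s * R.ι x : R.NR) j < 1) ∧
      ∀ j : Fin d, (j : ℕ) < k → (s * R.ι x : R.NR) j = 0
  | 0, k, hk, s, hs => by
    have h0 : ∀ j, s j = 0 := fun j => hs j (by have := j.2; omega)
    refine ⟨1, ?_, ?_⟩
    · intro j
      rw [map_one, mul_one, h0]
      exact ⟨le_rfl, one_pos⟩
    · intro j _
      rw [map_one, mul_one, h0]
  | r + 1, k, hk, s, hs => by
    let K : Fin d := ⟨k, by omega⟩
    set t : ℤ := ⌊s K⌋ with ht
    set m : R.NR := R.upd s K 0 with hm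
    have hm0 : ∀ j, j ≤ K → m j = 0 := by
      intro j hj
      rcases eq_or_lt_of_le hj with h | h
      · subst h; exact R.upd_self _ _ _
      · rw [hm, R.upd_of_ne _ h.ne]; exact hs j h
    have hsplit := R.split K s (fun j hj => hs j hj)
    set m' : R.NR := R.sg K t * m * R.sg K (-t) with hm'
    have hm'0 := R.norm_real K t m hm0
    obtain ⟨x, hx1, hx2⟩ := exists_cube_aux r (k + 1) (by omega) m' (fun j hj =>
      hm'0 j (Fin.le_iff_val_le_val.2 (by change (j : ℕ) ≤ k; omega)))
    have e1 : s * R.ι (D.b K ^ (-t) * x) = R.sg K (s K - t) * (m' * R.ι x) := by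
      have h1 : R.ι (D.b K ^ (-t)) = R.sg K (-(t : ℝ)) := by
        rw [ι_b]; push_cast; rfl
      have h2 : R.sg K (s K) = R.sg K (s K - t) * R.sg K t := by
        rw [← sg_add]; congr 1; ring
      conv_lhs => rw [hsplit]
      rw [map_mul, h1, h2, hm']
      simp only [mul_assoc]
      rfl
    have hw0 : ∀ j, j ≤ K → (m' * R.ι x : R.NR) j = 0 := fun j hj =>
      hx2 j (by have : (j : ℕ) ≤ k := hj; omega)
    have e2 := R.sg_mul_apply K (s K - t) (m' * R.ι x) hw0
    refine ⟨D.b K ^ (-t) * x, ?_, ?_⟩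
    · intro j
      rw [e1, e2]
      by_cases hj : j = K
      · subst hj
        rw [R.upd_self]
        exact ⟨by linarith [Int.floor_le (s K)], by linarith [Int.lt_floor_add_one (s K)]⟩
      · rw [R.upd_of_ne _ hj]
        exact hx1 j
    · intro j hj
      rw [e1, e2, R.upd_of_ne _ (by intro h; subst h; exact absurd hj (lt_irrefl _))]
      exact hx2 j (by omega)

/-- **cocompactness** (right form): every element of the real group can be moved to the unit cube by
a right translation by an element of `N`. -/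
theorem exists_cube_right (s : R.NR) :
    ∃ x : N, ∀ j, 0 ≤ (s * R.ι x : R.NR) j ∧ (s * R.ι x : R.NR) j < 1 := by
  obtain ⟨x, hx, _⟩ := R.exists_cube_aux d 0 (by omega) s (fun j hj => absurd hj (Nat.not_lt_zero _))
  exact ⟨x, hx⟩

/-- the unit cube -/
def cube : Set R.NR := {s | ∀ j, 0 ≤ s j ∧ s j < 1}

/-- **cocompactness** (left form) -/
theorem exists_cube_left (s : R.NR) : ∃ (x : N) (c : R.NR), c⁻¹ ∈ R.cube ∧ s = R.ι x * c := by
  obtain ⟨x, hx⟩ := R.exists_cube_right s⁻¹
  refine ⟨x, (s⁻¹ * R.ι x)⁻¹, ?_, by group⟩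
  rw [inv_inv]
  exact hx

end cocompact

end RD

end Vale.Agent.P188.H796
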