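import Vale.Agent.P188.H796.Lk
import Vale.Agent.P188.H269.Ideal

/-!
The adjoint representation of `S` satisfies the hypotheses of the weight decomposition.
-/

open Finset Filter Topology
open scoped commutatorElement

universe u v w

namespace Vale.Agent.P188.H796

variable {Γ : Type u} [Group Γ] {N : Subgroup Γ} [hN : N.Normal] {d n : ℕ} (D : MB N d n)

/-- the adjoint representation as a homomorphism to endomorphisms -/
noncomputable def MB.AdE : D.S →* Module.End ℝ D.R.V :=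
  (LinearEquiv.automorphismGroup.toLinearMapMonoidHom).comp D.Ad

theorem MB.AdE_apply (s : D.S) (v : D.R.V) : D.AdE s v = D.Ad s v := rfl

instance MB.normal_inN : (D.inN : D.R.NR →* D.S).range.Normal := D.P.range_inK_normal

theorem MB.comm_mem (habel : ∀ a b : Γ, ⁅a, b⁆ ∈ N) (s s' : D.S) :
    ⁅s, s'⁆ ∈ (D.inN : D.R.NR →* D.S).range := by
  have hq : ∀ k : D.R.NR, (QuotientGroup.mk' (D.inN : D.R.NR →* D.S).range) (D.inN k) = 1 := by
    intro k
    rw [QuotientGroup.mk'_apply, QuotientGroup.eq_one_iff]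
    exact ⟨k, rfl⟩
  obtain ⟨k, g, rfl⟩ := D.P.exists_eq s
  obtain ⟨k', g', rfl⟩ := D.P.exists_eq s'
  rw [← QuotientGroup.eq_one_iff, ← QuotientGroup.mk'_apply, map_commutatorElement, map_mul,
    map_mul]
  have h1 := hq k
  have h2 := hq k'
  change ⁅(QuotientGroup.mk' (D.inN : D.R.NR →* D.S).range) (D.inN k) * _,
    (QuotientGroup.mk' (D.inN : D.R.NR →* D.S).range) (D.inN k') * _⁆ = 1
  rw [h1, h2, one_mul, one_mul, ← map_commutatorElement, ← map_commutatorElement]
  have h3 := D.P.inG_coe ⟨⁅g, g'⁆, habel g g'⟩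
  simp only at h3
  rw [h3]
  exact hq _

theorem MB.lrep (habel : ∀ a b : Γ, ⁅a, b⁆ ∈ N) :
    H269.LRep (D.inN : D.R.NR →* D.S).range D.AdE where
  comm := D.comm_mem habel
  lie := fun g x y => D.Ad_lie g x y
  unip := by
    rintro _ ⟨s, rfl⟩ I x hx
    rw [D.AdE_apply, D.Ad_inN]
    exact D.R.Adn_sub_mem s I hx
  nil := inferInstance

omit hN in
theorem comm_mem_ker {k : ℕ} (η : Γ →* Multiplicative (Fin k → ℤ)) (a b : Γ) :
    ⁅a, b⁆ ∈ η.ker := by
  rw [MonoidHom.mem_ker, map_commutatorElement, commutatorElement_eq_one_iff_mul_comm, mul_comm]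

/-- the projection of `S` to `ℤ^k` -/
noncomputable def MB.θ {k : ℕ} (η : Γ →* Multiplicative (Fin k → ℤ)) (D : MB η.ker d n) :
    D.S →* Multiplicative (Fin k → ℤ) :=
  D.P.lift η (fun x => x.2)

theorem MB.θ_inN {k : ℕ} (η : Γ →* Multiplicative (Fin k → ℤ)) (D : MB η.ker d n) (s : D.R.NR) :
    D.θ η (D.inN s) = 1 := D.P.lift_inK _ _ s

theorem MB.θ_inΓ {k : ℕ} (η : Γ →* Multiplicative (Fin k → ℤ)) (D : MB η.ker d n) (g : Γ) :
    D.θ η (D.inΓ g) = η g := D.P.lift_inG _ _ g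

theorem MB.θ_ker {k : ℕ} (η : Γ →* Multiplicative (Fin k → ℤ)) (D : MB η.ker d n) :
    (D.θ η).ker = (D.inN : D.R.NR →* D.S).range := by
  ext s
  rw [MonoidHom.mem_ker]
  exact D.P.ker_lift η rfl s

end Vale.Agent.P188.H796
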