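import Vale.Agent.P188.H796.Metr2
import Vale.Agent.P188.H530.ModZ

/-!
Block RM-a of the real model: length, heights, exponential, adjoint action and their bounds.
-/

open Finset Filter Topology
open scoped commutatorElement Pointwise

universe u v w

namespace Vale.Agent.P188.H796

open H615 H131
open Agent.P188.H428 (IsLen)
open Vale.Agent.P188.H530 (hgt)

section path

variable {G : Type u} [Group G] {U : Set G}

theorem wl_eq_zero (hgen : Subgroup.closure U = ⊤) {x : G} (hx : wl U x = 0) : x = 1 := by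
  obtain ⟨l, e1, e2, e3⟩ := wl_list hgen x
  rw [hx] at e1
  rw [← e3, List.length_eq_zero_iff.1 e1, List.prod_nil]

theorem wl_path (hgen : Subgroup.closure U = ⊤) (x : G) :
    ∃ p : ℕ → G, p 0 = 1 ∧ p (wl U x) = x ∧ ∀ i, wl U ((p i)⁻¹ * p (i + 1)) ≤ 1 := by
  obtain ⟨l, e1, e2, e3⟩ := wl_list hgen x
  refine ⟨fun i => (l.take i).prod, by simp, ?_, fun i => ?_⟩
  · change (l.take (wl U x)).prod = x
    rw [← e1, List.take_length, e3]
  · change wl U ((l.take i).prod⁻¹ * (l.take (i + 1)).prod) ≤ 1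
    rcases Nat.lt_or_ge i l.length with h | h
    · have e4 : (l.take (i + 1)).prod = (l.take i).prod * l[i] := by
        rw [List.take_succ_eq_append_getElem h, List.prod_append, List.prod_singleton]
      rw [e4, inv_mul_cancel_left]
      rcases e2 _ (List.getElem_mem h) with h' | h'
      · exact wl_le_one h'
      · rw [← wl_inv hgen]
        exact wl_le_one h'
    · rw [List.take_of_length_le h, List.take_of_length_le (Nat.le_succ_of_le h), inv_mul_cancel,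
        wl_one]
      exact Nat.zero_le _

end path

section conc

variable {Γ : Type u} [Group Γ] {k : ℕ} {η : Γ →* Multiplicative (Fin k → ℤ)} {d n : ℕ}
  (D : MB η.ker d n)

/-- the norm on the Lie algebra -/
noncomputable def MB.nm : Seminorm ℝ D.R.V := normSeminorm ℝ D.R.V

theorem MB.nm_eq (v : D.R.V) : D.nm v = ‖(v : D.Alg)‖ := rfl

theorem MB.nm_zero (v : D.R.V) (hv : D.nm v = 0) : v = 0 :=
  Subtype.ext (norm_eq_zero.1 hv)

/-- **the facts of block RM-a** -/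
structure PartA (l : D.S → ℕ) (C : ℝ) : Prop where
  one_le : 1 ≤ C
  len : IsLen l
  l_zero : ∀ x, l x = 0 → x = 1
  l_path : ∀ x, ∃ p : ℕ → D.S, p 0 = 1 ∧ p (l x) = x ∧ ∀ i, l ((p i)⁻¹ * p (i + 1)) ≤ 1
  η_le : ∀ x, ‖hgt (D.θ η) x‖ ≤ C * l x
  Ad_le : ∀ s v, D.nm (D.AdE s v) ≤ Real.exp (C * l s) * D.nm v
  Ad_ex_le : ∀ w v, D.nm (D.AdE (D.ex w) v) ≤ C * (1 + D.nm w) ^ C * D.nm v
  ex_mul_le : ∀ v w u, D.ex v * D.ex w = D.ex u → D.nm u ≤ C * (1 + D.nm v + D.nm w) ^ C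
  met_V : ∀ v, (l (D.ex v) : ℝ) ≤ C * (1 + D.nm v)
  met_lo : ∀ v, D.nm v ≤ Real.exp (C * (1 + l (D.ex v)))

theorem PartA.mono {l : D.S → ℕ} {C C' : ℝ} (h : PartA D l C) (hC : C ≤ C') : PartA D l C' where
  one_le := h.one_le.trans hC
  len := h.len
  l_zero := h.l_zero
  l_path := h.l_path
  η_le x := (h.η_le x).trans (mul_le_mul_of_nonneg_right hC (Nat.cast_nonneg _))
  Ad_le s v := (h.Ad_le s v).trans (mul_le_mul_of_nonneg_right
    (Real.exp_le_exp.2 (mul_le_mul_of_nonneg_right hC (Nat.cast_nonneg _))) (apply_nonneg D.nm _))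
  Ad_ex_le w v := by
    have h0 : 0 ≤ D.nm w := apply_nonneg D.nm _
    have h1 := h.one_le
    refine (h.Ad_ex_le w v).trans (mul_le_mul_of_nonneg_right ?_ (apply_nonneg D.nm _))
    exact mul_le_mul hC (Real.rpow_le_rpow_of_exponent_le (by linarith) hC)
      (Real.rpow_nonneg (by linarith) _) (by linarith)
  ex_mul_le v w u e := by
    have h0 : 0 ≤ D.nm w := apply_nonneg D.nm _
    have h0' : 0 ≤ D.nm v := apply_nonneg D.nm _
    have h1 := h.one_le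
    refine (h.ex_mul_le v w u e).trans ?_
    exact mul_le_mul hC (Real.rpow_le_rpow_of_exponent_le (by linarith) hC)
      (Real.rpow_nonneg (by linarith) _) (by linarith)
  met_V v := (h.met_V v).trans (mul_le_mul_of_nonneg_right hC (by
    have : 0 ≤ D.nm v := apply_nonneg D.nm _
    linarith))
  met_lo v := (h.met_lo v).trans (Real.exp_le_exp.2
    (mul_le_mul_of_nonneg_right hC (by positivity)))

theorem MB.hgt_ex (v : D.R.V) : hgt (D.θ η) (D.ex v) = 0 := by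
  funext i
  change (((Multiplicative.toAdd (D.θ η (D.inN (D.R.Ex v))) i : ℤ)) : ℝ) = 0
  rw [D.θ_inN]
  simp

theorem MB.hgt_inΓ (g : Γ) : hgt (D.θ η) (D.inΓ g) = hgt η g := by
  funext i
  simp only [hgt, D.θ_inΓ]

theorem MB.hgt_comp : hgt ((D.θ η).comp D.inΓ) = hgt η := by
  funext g i
  simp only [hgt, MonoidHom.comp_apply, D.θ_inΓ]

theorem MB.θ_comp : (D.θ η).comp D.inΓ = η := by
  ext g : 1
  exact D.θ_inΓ η g

theorem MB.θ_surjective (hη : Function.Surjective η) : Function.Surjective (D.θ η) := by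
  intro w
  obtain ⟨g, hg⟩ := hη w
  exact ⟨D.inΓ g, by rw [D.θ_inΓ, hg]⟩

theorem MB.θ_ex (v : D.R.V) : D.θ η (D.ex v) = 1 := D.θ_inN η _

theorem MB.ex_of_θ (s : D.S) (hs : D.θ η s = 1) : ∃ v, D.ex v = s := by
  have h : s ∈ (D.θ η).ker := hs
  rw [D.θ_ker] at h
  obtain ⟨y, rfl⟩ := h
  exact ⟨D.R.Lo y, by rw [MB.ex, D.R.Ex_Lo]⟩

theorem MB.ex_zero : D.ex 0 = 1 := by rw [MB.ex, D.R.Ex_zero, map_one]

theorem MB.ex_add (x y : ℝ) (v : D.R.V) : D.ex ((x + y) • v) = D.ex (x • v) * D.ex (y • v) := by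
  rw [MB.ex, D.R.Ex_add, map_mul, MB.ex, MB.ex]

theorem MB.ex_AdE (s : D.S) (v : D.R.V) : D.ex (D.AdE s v) = s * D.ex v * s⁻¹ := D.ex_Ad s v

theorem MB.hgt_mul' (x y : D.S) : hgt (D.θ η) (x * y) = hgt (D.θ η) x + hgt (D.θ η) y :=
  H530.hgt_mul _ _ _

/-- bound on heights -/
theorem MB.hgt_le {F : Set Γ} (hF : F.Finite) (hgen : Subgroup.closure F = ⊤) :
    ∃ C : ℝ, 0 < C ∧ ∀ x : D.S, ‖hgt (D.θ η) x‖ ≤ C * wl (D.U F) x := by
  have hF' : (F ∪ F⁻¹).Finite := hF.union hF.inv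
  obtain ⟨M, hM⟩ := (hF'.image fun g => ‖hgt η g‖).bddAbove
  refine ⟨max M 1, by positivity, fun x => ?_⟩
  refine wl_le_mul_of_gen (D.closure_U hgen) (f := fun x => ‖hgt (D.θ η) x‖) ?_ ?_ x
  · have h1 : hgt (D.θ η) (1 : D.S) = 0 := by
      have := D.hgt_ex 0
      rwa [D.ex_zero] at this
    simp only [h1, norm_zero, le_refl]
  · intro a x ha
    simp only [D.hgt_mul']
    refine (norm_add_le _ _).trans (add_le_add_left ?_ _)
    rcases D.mem_U ha with ⟨f, hf, rfl⟩ | ⟨v, hv, rfl⟩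
    · rw [D.hgt_inΓ]
      exact (hM ⟨f, hf, rfl⟩).trans (le_max_left _ _)
    · have : hgt (D.θ η) (D.inN (D.R.Ex v)) = 0 := D.hgt_ex v
      rw [this, norm_zero]
      positivity

/-- polynomial bound on the adjoint action of exponentials -/
theorem MB.Ad_ex_bound : ∃ C : ℝ, 0 < C ∧ ∀ w v : D.R.V,
    D.nm (D.AdE (D.ex w) v) ≤ C * (1 + D.nm w) ^ (2 * D.R.m) * D.nm v := by
  obtain ⟨C1, hC1, h1⟩ := RD.exists_ex_bound (A := D.Alg) D.R.m
  refine ⟨C1 * C1, by positivity, fun w v => ?_⟩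
  have h0 : D.AdE (D.ex w) v = D.R.Adn (D.R.Ex w) v := D.Ad_inN _ _
  rw [h0, D.nm_eq, D.nm_eq, D.nm_eq, D.R.coe_Adn]
  have e1 : (((D.R.EU (D.R.Ex w))⁻¹ : D.Algˣ) : D.Alg) = H796.ex D.R.m ((-w : D.R.V) : D.Alg) := by
    rw [← D.R.toA_inv, ← D.R.Ex_neg]
    exact D.R.toA_Ex (-w)
  have e2 : D.R.E (D.R.Ex w) = H796.ex D.R.m (w : D.Alg) := D.R.toA_Ex w
  rw [e1, e2]
  have e3 := h1 (w : D.Alg)
  have e4 := h1 ((-w : D.R.V) : D.Alg)
  have e5 : ‖((-w : D.R.V) : D.Alg)‖ = ‖(w : D.Alg)‖ := by simp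
  rw [e5] at e4
  have h2 : 0 ≤ ‖(w : D.Alg)‖ := norm_nonneg _
  calc ‖H796.ex D.R.m (w : D.Alg) * v * H796.ex D.R.m ((-w : D.R.V) : D.Alg)‖
      ≤ ‖H796.ex D.R.m (w : D.Alg)‖ * ‖(v : D.Alg)‖ * ‖H796.ex D.R.m ((-w : D.R.V) : D.Alg)‖ :=
        (norm_mul_le _ _).trans (mul_le_mul_of_nonneg_right (norm_mul_le _ _) (norm_nonneg _))
    _ ≤ (C1 * (1 + ‖(w : D.Alg)‖) ^ D.R.m) * ‖(v : D.Alg)‖ * (C1 * (1 + ‖(w : D.Alg)‖) ^ D.R.m) := by
        gcongr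
    _ = C1 * C1 * (1 + ‖(w : D.Alg)‖) ^ (2 * D.R.m) * ‖(v : D.Alg)‖ := by ring

/-- polynomial bound on products -/
theorem MB.ex_mul_bound : ∃ C : ℝ, 0 < C ∧ ∀ v w u : D.R.V, D.ex v * D.ex w = D.ex u →
    D.nm u ≤ C * (1 + D.nm v + D.nm w) ^ (2 * D.R.m * D.R.m) := by
  obtain ⟨C1, hC1, h1⟩ := RD.exists_ex_bound (A := D.Alg) D.R.m
  obtain ⟨C2, hC2, h2⟩ := D.R.exists_Lo_bound
  refine ⟨C2 * (1 + C1 * C1 + ‖(1 : D.Alg)‖) ^ D.R.m, by positivity, fun v w u e => ?_⟩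
  have e' : D.R.Ex v * D.R.Ex w = D.R.Ex u := by
    apply D.P.inK_injective
    rw [map_mul]
    exact e
  have e1 := h2 (D.R.Ex u)
  rw [D.R.Lo_Ex] at e1
  rw [D.nm_eq, D.nm_eq, D.nm_eq]
  refine e1.trans ?_
  have hv : 0 ≤ ‖(v : D.Alg)‖ := norm_nonneg _
  have hw : 0 ≤ ‖(w : D.Alg)‖ := norm_nonneg _
  set r : ℝ := 1 + ‖(v : D.Alg)‖ + ‖(w : D.Alg)‖ with hr
  have hr1 : 1 ≤ r := by linarith
  have h3 : ‖D.R.toA (D.R.Ex u)‖ ≤ C1 * C1 * r ^ (2 * D.R.m) := by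
    rw [← e', map_mul]
    have e2 : D.R.toA (D.R.Ex v) = H796.ex D.R.m (v : D.Alg) := D.R.toA_Ex v
    have e3 : D.R.toA (D.R.Ex w) = H796.ex D.R.m (w : D.Alg) := D.R.toA_Ex w
    rw [e2, e3]
    calc ‖H796.ex D.R.m (v : D.Alg) * H796.ex D.R.m (w : D.Alg)‖
        ≤ ‖H796.ex D.R.m (v : D.Alg)‖ * ‖H796.ex D.R.m (w : D.Alg)‖ := norm_mul_le _ _
      _ ≤ (C1 * (1 + ‖(v : D.Alg)‖) ^ D.R.m) * (C1 * (1 + ‖(w : D.Alg)‖) ^ D.R.m) :=
        mul_le_mul (h1 _) (h1 _) (norm_nonneg _) (by positivity)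
      _ ≤ (C1 * r ^ D.R.m) * (C1 * r ^ D.R.m) := by
        gcongr <;> linarith
      _ = C1 * C1 * r ^ (2 * D.R.m) := by ring
  have hrp : 1 ≤ r ^ (2 * D.R.m) := one_le_pow₀ hr1
  have h4 : 1 + ‖D.R.toA (D.R.Ex u) - 1‖ ≤ (1 + C1 * C1 + ‖(1 : D.Alg)‖) * r ^ (2 * D.R.m) := by
    have := norm_sub_le (D.R.toA (D.R.Ex u)) 1
    nlinarith [norm_nonneg (1 : D.Alg)]
  calc C2 * (1 + ‖D.R.toA (D.R.Ex u) - 1‖) ^ D.R.m
      ≤ C2 * ((1 + C1 * C1 + ‖(1 : D.Alg)‖) * r ^ (2 * D.R.m)) ^ D.R.m := by gcongr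
    _ = C2 * (1 + C1 * C1 + ‖(1 : D.Alg)‖) ^ D.R.m * r ^ (2 * D.R.m * D.R.m) := by
      rw [mul_pow, ← pow_mul]; ring

/-- **block RM-a** -/
theorem MB.exists_partA (hη : Function.Surjective η) {F : Set Γ} (hF : F.Finite)
    (hgen : Subgroup.closure F = ⊤) : ∃ C : ℝ, PartA D (wl (D.U F)) C := by
  obtain ⟨C1, hC1, h1⟩ := D.hgt_le hF hgen
  obtain ⟨C2, hC2, h2⟩ := D.Ad_bound hF hgen
  obtain ⟨C3, hC3, h3⟩ := D.Ad_ex_bound
  obtain ⟨C4, hC4, h4⟩ := D.ex_mul_bound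
  obtain ⟨C5, hC5, h5⟩ := D.M2 hη F hF hgen
  set C : ℝ := 1 + C1 + C2 + C3 + C4 + C5 + (2 * D.R.m : ℕ) + (2 * D.R.m * D.R.m : ℕ) with hC
  have hm1 : (0 : ℝ) ≤ ((2 * D.R.m : ℕ) : ℝ) := Nat.cast_nonneg _
  have hm2 : (0 : ℝ) ≤ ((2 * D.R.m * D.R.m : ℕ) : ℝ) := Nat.cast_nonneg _
  refine ⟨C, ?_⟩
  refine
    { one_le := by linarith
      len := D.isLen_S hgen
      l_zero := fun x hx => wl_eq_zero (D.closure_U hgen) hx
      l_path := fun x => wl_path (D.closure_U hgen) x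
      η_le := fun x => (h1 x).trans (mul_le_mul_of_nonneg_right (by linarith) (Nat.cast_nonneg _))
      Ad_le := ?_
      Ad_ex_le := ?_
      ex_mul_le := ?_
      met_V := ?_
      met_lo := ?_ }
  · intro s v
    refine (h2 s v).trans (mul_le_mul_of_nonneg_right ?_ (norm_nonneg _))
    exact Real.exp_le_exp.2 (mul_le_mul_of_nonneg_right (by linarith) (Nat.cast_nonneg _))
  · intro w v
    have hw : 0 ≤ D.nm w := apply_nonneg D.nm _
    refine (h3 w v).trans (mul_le_mul_of_nonneg_right ?_ (apply_nonneg D.nm _))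
    rw [← Real.rpow_natCast]
    exact mul_le_mul (by linarith) (Real.rpow_le_rpow_of_exponent_le (by linarith) (by linarith))
      (Real.rpow_nonneg (by linarith) _) (by linarith)
  · intro v w u e
    have hw : 0 ≤ D.nm w := apply_nonneg D.nm _
    have hv : 0 ≤ D.nm v := apply_nonneg D.nm _
    refine (h4 v w u e).trans ?_
    rw [← Real.rpow_natCast]
    exact mul_le_mul (by linarith) (Real.rpow_le_rpow_of_exponent_le (by linarith) (by linarith))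
      (Real.rpow_nonneg (by linarith) _) (by linarith)
  · intro v
    have hv : 0 ≤ D.nm v := apply_nonneg D.nm _
    have h6 := D.wl_ex_le F v ⌈D.nm v⌉₊ (Nat.le_ceil _)
    have h7 : (wl (D.U F) (D.ex v) : ℝ) ≤ ⌈D.nm v⌉₊ := by exact_mod_cast h6
    have h8 := (Nat.ceil_lt_add_one hv).le
    nlinarith
  · intro v
    have h6 := h5 (D.R.Ex v)
    rw [D.R.Lo_Ex] at h6
    refine (show D.nm v ≤ _ from h6).trans (Real.exp_le_exp.2 ?_)
    have h7 : (0 : ℝ) ≤ wl (D.U F) (D.inN (D.R.Ex v)) := Nat.cast_nonneg _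
    change C5 * ((wl (D.U F) (D.inN (D.R.Ex v)) : ℝ) + 1) ≤
      C * (1 + (wl (D.U F) (D.inN (D.R.Ex v)) : ℝ))
    rw [add_comm (wl (D.U F) (D.inN (D.R.Ex v)) : ℝ) 1]
    exact mul_le_mul_of_nonneg_right (by linarith) (by linarith)

end conc

end Vale.Agent.P188.H796
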