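import Vale.Agent.P188.H131.ModelC
import Vale.Agent.P188.H796.Ll

/-!
The adjoint action of `S` has determinant `±1`.
-/

open MeasureTheory MeasureTheory.Measure Topology Set Filter Vale.Agent.P188.H131
  Vale.Agent.P188.H615
open scoped ENNReal Pointwise

set_option linter.unusedSectionVars false

universe u v

namespace Vale.Agent.P188.H796

theorem MB.countable {N : Type u} [Group N] {d n : ℕ} (D : MB N d n) : Countable N := by
  have hinj : Function.Injective (fun y : N => fun i => D.c i y) := by
    intro y z h
    rw [← D.prod_c y, ← D.prod_c z]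
    have h' : ∀ i, D.c i y = D.c i z := fun i => congrFun h i
    simp only [h']
  exact hinj.countable

section det

variable {Γ : Type u} [Group Γ] {N : Subgroup Γ} [hN : N.Normal] {d n : ℕ} (D : MB N d n)

/-- a linear map which becomes measure preserving under `Ex` has determinant `±1` -/
theorem abs_det_of_mp (T : D.R.V →ₗ[ℝ] D.R.V) (f : D.R.NR → D.R.NR)
    (hf : MeasurePreserving f (haarK D) (haarK D)) (h : ∀ v, D.R.Ex (T v) = f (D.R.Ex v)) :
    |LinearMap.det T| = 1 := by
  have hinjEx : Function.Injective D.R.Ex := D.R.Ex_injective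
  have hTc : Continuous T := T.continuous_of_finiteDimensional
  have hmEx : Measurable D.R.Ex := D.R.continuous_Ex.measurable
  have hmLo : Measurable D.R.Lo := D.R.continuous_Lo.measurable
  -- `volV` is the image of `haarK` under `Lo`
  have h1 : (haarK D).map D.R.Lo = volV D := by
    unfold haarK muK
    rw [map_map hmLo hmEx]
    have : D.R.Lo ∘ D.R.Ex = id := by
      funext v; exact D.R.Lo_Ex v
    rw [this, Measure.map_id]
  -- `T` preserves `volV`
  have h2 : (volV D).map T = volV D := by
    conv_lhs => rw [← h1]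
    rw [map_map hTc.measurable hmLo]
    have h3 : T ∘ D.R.Lo = D.R.Lo ∘ f := by
      funext k
      apply hinjEx
      change D.R.Ex (T (D.R.Lo k)) = D.R.Ex (D.R.Lo (f k))
      rw [h, D.R.Ex_Lo, D.R.Ex_Lo]
    rw [h3, ← map_map hmLo hf.measurable, hf.map_eq, h1]
  -- hence the determinant
  have hdet : LinearMap.det T ≠ 0 := by
    intro h0
    have h4 : (volV D) Set.univ = (volV D) (LinearMap.range T : Set D.R.V) := by
      have hms : MeasurableSet (LinearMap.range T : Set D.R.V) :=
        (LinearMap.range T).closed_of_finiteDimensional.measurableSet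
      conv_rhs => rw [← h2]
      rw [map_apply hTc.measurable hms]
      congr 1
      ext v
      simp
    have h5 : LinearMap.range T ≠ ⊤ := by
      intro h6
      have hu : IsUnit T := (Module.End.isUnit_iff T).2
        ⟨LinearMap.injective_iff_surjective.2 (LinearMap.range_eq_top.1 h6),
          LinearMap.range_eq_top.1 h6⟩
      have := (LinearMap.isUnit_det T hu)
      rw [h0] at this
      exact not_isUnit_zero this
    have h7 : (volV D) (LinearMap.range T : Set D.R.V) = 0 :=
      addHaar_submodule (volV D) _ h5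
    rw [h7] at h4
    exact (NeZero.ne ((volV D) Set.univ)) h4
  have h8 := map_linearMap_addHaar_eq_smul_addHaar (μ := volV D) hdet
  rw [h2] at h8
  -- evaluate on a ball
  have hpos : (volV D) (Metric.ball (0 : D.R.V) 1) ≠ 0 :=
    (Metric.measure_ball_pos (volV D) _ one_pos).ne'
  have hfin : (volV D) (Metric.ball (0 : D.R.V) 1) ≠ ⊤ := measure_ball_lt_top.ne
  have h9 := congrArg (fun m : Measure D.R.V => m (Metric.ball (0 : D.R.V) 1)) h8
  simp only [Measure.smul_apply, smul_eq_mul] at h9
  have h10 : ENNReal.ofReal |(LinearMap.det T)⁻¹| = 1 := by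
    have h11 : (volV D) (Metric.ball (0 : D.R.V) 1) * 1 =
        (volV D) (Metric.ball (0 : D.R.V) 1) * ENNReal.ofReal |(LinearMap.det T)⁻¹| := by
      rw [mul_one, mul_comm]; exact h9
    exact ((ENNReal.mul_right_inj hpos hfin).1 h11).symm
  rw [ENNReal.ofReal_eq_one, abs_inv, inv_eq_one] at h10
  exact h10

/-- **`|det Ad s| = 1`** -/
theorem abs_det_AdE (s : D.S) : |LinearMap.det (D.AdE s)| = 1 := by
  have hc : Countable N := D.countable
  obtain ⟨k, g, rfl⟩ := D.P.exists_eq s
  rw [map_mul, map_mul, abs_mul]
  have hright : (haarK D).IsMulRightInvariant := haar_right D.P (lat_P D) (haarK D)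
  have e1 : |LinearMap.det (D.AdE (D.P.inK k))| = 1 := by
    refine abs_det_of_mp D _ (fun x => k * x * k⁻¹) ?_ ?_
    · exact (measurePreserving_mul_right (haarK D) k⁻¹).comp
        (measurePreserving_mul_left (haarK D) k)
    · intro v
      have : D.AdE (D.P.inK k) v = D.R.Adn k v := D.Ad_inN k v
      rw [this, D.R.Ex_Adn]
  have e2 : |LinearMap.det (D.AdE (D.P.inG g))| = 1 := by
    refine abs_det_of_mp D _ (D.P.α g) (haar_alpha D.P (lat_P D) (continuous_α D) (haarK D) g) ?_
    intro v
    have : D.AdE (D.P.inG g) v = D.AdΓ g v := D.Ad_inΓ g v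
    rw [this]
    exact D.Ex_AdΓ g v
  rw [e1, e2, one_mul]

end det

end Vale.Agent.P188.H796
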