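import Vale.Agent.P188.H796.InstA
import Vale.Agent.P188.H187.Univ

/-!
The bridge from the structure theorem Z0 to the Malcev data.
-/

open Finset Filter Topology
open scoped commutatorElement Pointwise

universe u v w

namespace Vale.Agent.P188.H796

open H754 (PolyZ.fg)

/-- all the standing facts about `Γ` used for the construction of the real group -/
theorem exists_MB_data {Γ : Type u} [Group Γ] {k : ℕ} (η : Γ →* Multiplicative (Fin k → ℤ))
    (hnil : Group.IsNilpotent η.ker) (hZ : ∃ m, PolyZ m Γ) (hZ' : ∃ m, PolyZ m η.ker) :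
    ∃ d n, Nonempty (MB η.ker d n) ∧
      ∃ F : Set Γ, F.Finite ∧ Subgroup.closure F = ⊤ ∧ (1 : Γ) ∈ F ∧ ∀ x ∈ F, x⁻¹ ∈ F := by
  obtain ⟨m, hm⟩ := hZ
  obtain ⟨d, hd⟩ := hZ'
  obtain ⟨n, hD⟩ := exists_MB d η.ker hd hnil
  obtain ⟨F₀, hF₀⟩ := (Group.fg_def.1 (H754.PolyZ.fg m hm))
  refine ⟨d, n, hD, insert 1 ((F₀ : Set Γ) ∪ (F₀ : Set Γ)⁻¹), ?_, ?_, Set.mem_insert _ _, ?_⟩
  · exact (F₀.finite_toSet.union F₀.finite_toSet.inv).insert _
  · rw [eq_top_iff, ← hF₀]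
    exact Subgroup.closure_mono (fun x hx => Or.inr (Or.inl hx))
  · rintro x (rfl | hx | hx)
    · rw [inv_one]; exact Set.mem_insert _ _
    · exact Or.inr (Or.inr (by rwa [Set.mem_inv, inv_inv]))
    · exact Or.inr (Or.inl hx)

/-- the same from `Z0` -/
theorem Z0_data {Γ : Type} [Group Γ] {k : ℕ} {η : Γ →* Multiplicative (Fin k → ℤ)}
    (h : H187.Z0 Γ k η) : ∃ d n, Nonempty (MB η.ker d n) ∧
      ∃ F : Set Γ, F.Finite ∧ Subgroup.closure F = ⊤ ∧ (1 : Γ) ∈ F ∧ ∀ x ∈ F, x⁻¹ ∈ F :=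
  exists_MB_data η h.nil h.polyZ h.ker_polyZ

end Vale.Agent.P188.H796
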