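import Vale.Agent.P188.H796.Ll

/-!
Norm bounds in the unipotent algebra, and polynomial comparison of coordinates, logarithms and
norms.
-/

open Finset Filter Topology

universe u v w

namespace Vale.Agent.P188.H796

namespace RD

section prod

variable {N : Type u} [Group N] {d n : ℕ} {D : MB N d n} {A : Type v} [NormedRing A]
  [NormedAlgebra ℝ A] (R : RD D A)

/-- non-commutative elementary symmetric polynomials of the `u - 1` -/
def es {A : Type v} [NormedRing A] : List A → ℕ → A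
  | [], 0 => 1
  | [], _ + 1 => 0
  | _ :: _, 0 => 1
  | u :: L, j + 1 => es L (j + 1) + (u - 1) * es L j

theorem es_zero (L : List A) : es L 0 = 1 := by cases L <;> rfl

theorem es_cons (u : A) (L : List A) (j : ℕ) :
    es (u :: L) (j + 1) = es L (j + 1) + (u - 1) * es L j := rfl

theorem es_of_lt (L : List A) : ∀ j, L.length < j → es L j = 0 := by
  induction L with
  | nil => intro j hj; obtain ⟨j, rfl⟩ : ∃ k, j = k + 1 := ⟨j - 1, by simp at hj; omega⟩; rfl
  | cons u L ih =>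
    intro j hj
    rw [List.length_cons] at hj
    obtain ⟨j, rfl⟩ : ∃ k, j = k + 1 := ⟨j - 1, by omega⟩
    rw [es_cons, ih _ (by omega), ih _ (by omega), mul_zero, add_zero]

theorem prod_eq_es (L : List A) : ∀ M, L.length ≤ M → L.prod = ∑ j ∈ range (M + 1), es L j := by
  induction L with
  | nil =>
    intro M _
    rw [sum_range_succ']
    have h0 : ∑ k ∈ range M, es ([] : List A) (k + 1) = 0 := sum_eq_zero fun j _ => rfl
    rw [h0, zero_add]
    rfl
  | cons u L ih =>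
    intro M hM
    rw [List.length_cons] at hM
    obtain ⟨M, rfl⟩ : ∃ k, M = k + 1 := ⟨M - 1, by omega⟩
    rw [sum_range_succ', es_zero, List.prod_cons]
    simp only [es_cons]
    rw [sum_add_distrib, ← mul_sum, ← ih M (by omega)]
    have h1 := ih (M + 1) (by omega)
    rw [sum_range_succ', es_zero] at h1
    calc u * L.prod = (u - 1) * L.prod + L.prod := by noncomm_ring
      _ = (u - 1) * L.prod + (∑ k ∈ range (M + 1), es L (k + 1) + 1) := by rw [← h1]
      _ = _ := by abel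

theorem es_mem (L : List A) (hL : ∀ u ∈ L, u - 1 ∈ R.J) : ∀ j, es L j ∈ R.J ^ j := by
  induction L with
  | nil =>
    intro j
    cases j with
    | zero => rw [pow_zero]; exact Submodule.one_le.1 le_rfl
    | succ j => exact Submodule.zero_mem _
  | cons u L ih =>
    have ih' := ih (fun v hv => hL v (List.mem_cons_of_mem _ hv))
    intro j
    cases j with
    | zero => rw [es_zero, pow_zero]; exact Submodule.one_le.1 le_rfl
    | succ j =>
      rw [es_cons]
      refine Submodule.add_mem _ (ih' _) ?_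
      rw [pow_succ']
      exact Submodule.mul_mem_mul (hL u List.mem_cons_self) (ih' _)

theorem J_pow_ge {j : ℕ} (hj : R.m ≤ j) : R.J ^ j = ⊥ := by
  obtain ⟨i, rfl⟩ := Nat.exists_eq_add_of_le hj
  rw [pow_add, R.J_pow, Submodule.bot_mul]

theorem es_norm (L : List A) {K : ℝ} (hK : 0 ≤ K) (hL : ∀ u ∈ L, ‖u - 1‖ ≤ K) :
    ∀ j, ‖es L j‖ ≤ ‖(1 : A)‖ * (L.length * K) ^ j := by
  induction L with
  | nil =>
    intro j
    cases j with
    | zero => simp [es]
    | succ j => simp [es]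
  | cons u L ih =>
    have ih' := ih (fun v hv => hL v (List.mem_cons_of_mem _ hv))
    intro j
    cases j with
    | zero => simp [es]
    | succ j =>
      rw [es_cons]
      have h1 := ih' (j + 1)
      have h2 := ih' j
      have h3 := hL u List.mem_cons_self
      have hb : 0 ≤ ‖(1 : A)‖ := norm_nonneg _
      have hl : (0 : ℝ) ≤ L.length * K := by positivity
      have h4 : ‖(u - 1) * es L j‖ ≤ K * (‖(1 : A)‖ * (L.length * K) ^ j) :=
        (norm_mul_le _ _).trans (mul_le_mul h3 h2 (norm_nonneg _) hK)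
      have h5 : (L.length * K) ^ j ≤ ((L.length + 1) * K) ^ j :=
        pow_le_pow_left₀ hl (by nlinarith) j
      calc ‖es L (j + 1) + (u - 1) * es L j‖
          ≤ ‖(1 : A)‖ * (L.length * K) ^ (j + 1) + K * (‖(1 : A)‖ * (L.length * K) ^ j) :=
            (norm_add_le _ _).trans (add_le_add h1 h4)
        _ = ‖(1 : A)‖ * ((L.length * K) ^ j * ((L.length + 1) * K)) := by ring
        _ ≤ ‖(1 : A)‖ * (((L.length + 1) * K) ^ j * ((L.length + 1) * K)) := by gcongr
        _ = _ := by rw [List.length_cons]; push_cast; ring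

/-- **product bound** in the unipotent algebra -/
theorem norm_prod_le (L : List A) {K : ℝ} (hK : 0 ≤ K) (hJ : ∀ u ∈ L, u - 1 ∈ R.J)
    (hL : ∀ u ∈ L, ‖u - 1‖ ≤ K) :
    ‖L.prod‖ ≤ ‖(1 : A)‖ * R.m * (1 + L.length * K) ^ R.m := by
  have hl : (0 : ℝ) ≤ L.length * K := by positivity
  have h1 : L.prod = ∑ j ∈ range R.m, es L j := by
    rw [prod_eq_es L (L.length + R.m) (by omega)]
    symm
    refine sum_subset (range_subset_range.2 (by omega)) ?_
    intro j _ hj
    rw [mem_range, not_lt] at hj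
    have := R.es_mem L hJ j
    rw [R.J_pow_ge hj] at this
    exact (Submodule.mem_bot ℝ).1 this
  rw [h1]
  refine (norm_sum_le _ _).trans ?_
  have h2 : ∀ j ∈ range R.m, ‖es L j‖ ≤ ‖(1 : A)‖ * (1 + L.length * K) ^ R.m := by
    intro j hj
    rw [mem_range] at hj
    refine (es_norm L hK hL j).trans ?_
    refine mul_le_mul_of_nonneg_left ?_ (norm_nonneg _)
    calc (L.length * K) ^ j ≤ (1 + L.length * K) ^ j := pow_le_pow_left₀ hl (by linarith) j
      _ ≤ (1 + L.length * K) ^ R.m := pow_le_pow_right₀ (by linarith) hj.le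
  refine (sum_le_sum h2).trans ?_
  rw [sum_const, card_range, nsmul_eq_mul]
  exact le_of_eq (by ring)

end prod

section comp

variable {N : Type u} [Group N] {d n : ℕ} {D : MB N d n} {A : Type v} [NormedRing A]
  [NormedAlgebra ℝ A] [FiniteDimensional ℝ A] (R : RD D A)

omit [FiniteDimensional ℝ A] in
theorem norm_pow_le_max (u : A) (k : ℕ) : ‖u ^ k‖ ≤ max 1 ‖(1 : A)‖ * ‖u‖ ^ k := by
  rcases Nat.eq_zero_or_pos k with rfl | hk
  · simp
  · calc ‖u ^ k‖ ≤ ‖u‖ ^ k := norm_pow_le' u hk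
      _ ≤ max 1 ‖(1 : A)‖ * ‖u‖ ^ k := le_mul_of_one_le_left (by positivity) (le_max_left _ _)

omit [FiniteDimensional ℝ A] in
theorem exists_ex_bound (m : ℕ) : ∃ C : ℝ, 0 < C ∧ ∀ v : A, ‖ex m v‖ ≤ C * (1 + ‖v‖) ^ m := by
  refine ⟨m * max 1 ‖(1 : A)‖ + 1, by positivity, fun v => ?_⟩
  unfold ex
  refine (norm_sum_le _ _).trans ?_
  have h : ∀ k ∈ range m, ‖((k.factorial : ℝ)⁻¹) • v ^ k‖ ≤ max 1 ‖(1 : A)‖ * (1 + ‖v‖) ^ m := by
    intro k hk
    rw [mem_range] at hk
    rw [norm_smul]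
    have h1 : ‖((k.factorial : ℝ)⁻¹)‖ ≤ 1 := by
      rw [norm_inv, Real.norm_natCast]
      exact inv_le_one_of_one_le₀ (by exact_mod_cast Nat.one_le_iff_ne_zero.2 k.factorial_ne_zero)
    have h2 := norm_pow_le_max v k
    have h3 : ‖v‖ ^ k ≤ (1 + ‖v‖) ^ m :=
      (pow_le_pow_left₀ (norm_nonneg _) (by linarith) k).trans
        (pow_le_pow_right₀ (by linarith [norm_nonneg v]) hk.le)
    calc ‖((k.factorial : ℝ)⁻¹)‖ * ‖v ^ k‖ ≤ 1 * (max 1 ‖(1 : A)‖ * ‖v‖ ^ k) :=
          mul_le_mul h1 h2 (norm_nonneg _) zero_le_one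
      _ ≤ max 1 ‖(1 : A)‖ * (1 + ‖v‖) ^ m := by rw [one_mul]; gcongr
  refine (sum_le_sum h).trans ?_
  rw [sum_const, card_range, nsmul_eq_mul, ← mul_assoc]
  refine mul_le_mul_of_nonneg_right (by linarith) (by positivity)

omit [FiniteDimensional ℝ A] in
theorem exists_lg_bound (m : ℕ) : ∃ C : ℝ, 0 < C ∧ ∀ u : A, ‖lg m u‖ ≤ C * (1 + ‖u - 1‖) ^ m := by
  refine ⟨(∑ k ∈ range m, |be k|) * max 1 ‖(1 : A)‖ + 1, by positivity, fun u => ?_⟩
  unfold lg
  refine (norm_sum_le _ _).trans ?_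
  have h : ∀ k ∈ range m, ‖be k • (u - 1) ^ k‖ ≤
      |be k| * (max 1 ‖(1 : A)‖ * (1 + ‖u - 1‖) ^ m) := by
    intro k hk
    rw [mem_range] at hk
    rw [norm_smul, Real.norm_eq_abs]
    refine mul_le_mul_of_nonneg_left ?_ (abs_nonneg _)
    refine (norm_pow_le_max (u - 1) k).trans ?_
    have h3 : ‖u - 1‖ ^ k ≤ (1 + ‖u - 1‖) ^ m :=
      (pow_le_pow_left₀ (norm_nonneg _) (by linarith) k).trans
        (pow_le_pow_right₀ (by linarith [norm_nonneg (u - 1)]) hk.le)
    gcongr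
  refine (sum_le_sum h).trans ?_
  rw [← sum_mul, ← mul_assoc]
  refine mul_le_mul_of_nonneg_right (by linarith) (by positivity)

/-- `‖Lo s‖` is polynomially bounded by `‖toA s - 1‖` -/
theorem exists_Lo_bound : ∃ C : ℝ, 0 < C ∧ ∀ s : R.NR,
    ‖((R.Lo s : R.V) : A)‖ ≤ C * (1 + ‖R.toA s - 1‖) ^ R.m := by
  obtain ⟨C, hC, h⟩ := exists_lg_bound (A := A) R.m
  exact ⟨C, hC, fun s => h _⟩

/-- `‖toA s‖` is polynomially bounded by `‖Lo s‖` -/
theorem exists_toA_bound : ∃ C : ℝ, 0 < C ∧ ∀ s : R.NR,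
    ‖R.toA s‖ ≤ C * (1 + ‖((R.Lo s : R.V) : A)‖) ^ R.m := by
  obtain ⟨C, hC, h⟩ := exists_ex_bound (A := A) R.m
  refine ⟨C, hC, fun s => ?_⟩
  have h1 := R.toA_Ex (R.Lo s)
  rw [R.Ex_Lo] at h1
  rw [h1]
  exact h _

/-- inverses -/
theorem exists_inv_bound : ∃ (C : ℝ) (k : ℕ), 0 < C ∧ ∀ s : R.NR,
    ‖R.toA s⁻¹‖ ≤ C * (1 + ‖R.toA s - 1‖) ^ k := by
  obtain ⟨C1, hC1, h1⟩ := R.exists_Lo_bound
  obtain ⟨C2, hC2, h2⟩ := exists_ex_bound (A := A) R.m
  refine ⟨C2 * (1 + C1) ^ R.m, R.m * R.m, by positivity, fun s => ?_⟩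
  have h3 : R.toA s⁻¹ = ex R.m (-((R.Lo s : R.V) : A)) := by
    have h4 : s⁻¹ = R.Ex (-(R.Lo s)) := by rw [R.Ex_neg, R.Ex_Lo]
    rw [h4, R.toA_Ex]; rfl
  rw [h3]
  refine (h2 _).trans ?_
  rw [norm_neg, mul_assoc]
  refine mul_le_mul_of_nonneg_left ?_ hC2.le
  rw [pow_mul, ← mul_pow]
  refine pow_le_pow_left₀ (by positivity) ?_ _
  have h5 : (1 : ℝ) ≤ (1 + ‖R.toA s - 1‖) ^ R.m := one_le_pow₀ (by linarith [norm_nonneg (R.toA s - 1)])
  nlinarith [h1 s]

/-- coordinates are linear functionals of `toA s` -/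
theorem exists_coord_bound : ∃ C : ℝ, 0 < C ∧ ∀ (s : R.NR) (i : Fin d), |s i| ≤ C * ‖R.toA s‖ := by
  have h1 : ∀ i : Fin d, ∃ C : ℝ, 0 < C ∧ ∀ a : A, |R.ℓ i a| ≤ C * ‖a‖ := by
    intro i
    let f : A →L[ℝ] ℝ := LinearMap.toContinuousLinearMap (R.ℓ i)
    refine ⟨‖f‖ + 1, by positivity, fun a => ?_⟩
    have := f.le_opNorm a
    calc |R.ℓ i a| = ‖f a‖ := rfl
      _ ≤ ‖f‖ * ‖a‖ := this
      _ ≤ (‖f‖ + 1) * ‖a‖ := by nlinarith [norm_nonneg a]
  choose C hC h using h1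
  refine ⟨∑ i, C i + 1, by have := sum_nonneg fun i (_ : i ∈ univ) => (hC i).le; linarith,
    fun s i => ?_⟩
  have h2 : s i = R.ℓ i (R.toA s) := (R.ℓ_toA s i).symm
  rw [h2]
  refine (h i _).trans (mul_le_mul_of_nonneg_right ?_ (norm_nonneg _))
  have := single_le_sum (fun i (_ : i ∈ univ) => (hC i).le) (mem_univ i)
  linarith

omit [FiniteDimensional ℝ A] in
theorem exists_rp_bound (x : N) : ∃ C : ℝ, 0 < C ∧ ∀ t : ℝ,
    ‖rp R.m (R.ρ x) t‖ ≤ C * (1 + |t|) ^ R.m := by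
  obtain ⟨C, hC, h⟩ := exists_ex_bound (A := A) R.m
  refine ⟨C * (1 + ‖lg R.m (R.ρ x)‖) ^ R.m, by positivity, fun t => ?_⟩
  rw [rp_eq_ex R.hm0 (R.unip x)]
  refine (h _).trans ?_
  rw [mul_assoc, ← mul_pow, norm_smul, Real.norm_eq_abs]
  refine mul_le_mul_of_nonneg_left (pow_le_pow_left₀ (by positivity) ?_ _) hC.le
  nlinarith [norm_nonneg (lg R.m (R.ρ x)), abs_nonneg t]

omit [FiniteDimensional ℝ A] in
theorem E_eq_prod (s : Fin d → ℝ) : R.E s = ((List.finRange d).map fun i =>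
    rp R.m (R.ρ (D.b i)) (s i)).prod := by
  have h4 := map_list_prod (Units.coeHom A)
    (List.ofFn fun i => rpU R.m (R.ρ (D.b i)) (R.unip _) (s i))
  rw [List.map_ofFn] at h4
  have h5 : R.E s = (List.ofFn ((Units.coeHom A) ∘ fun i =>
    rpU R.m (R.ρ (D.b i)) (R.unip _) (s i))).prod := h4
  rw [h5, List.ofFn_eq_map]
  rfl

omit [FiniteDimensional ℝ A] in
/-- `‖toA s‖` is polynomially bounded by the coordinates -/
theorem exists_toA_coord_bound : ∃ (C : ℝ) (k : ℕ), 0 < C ∧ ∀ (s : R.NR) (r : ℝ),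
    0 ≤ r → (∀ i, |s i| ≤ r) → ‖R.toA s‖ ≤ C * (1 + r) ^ k := by
  choose C hC h using fun i => R.exists_rp_bound (D.b i)
  obtain ⟨C0, hC0, hC0'⟩ : ∃ C0 : ℝ, 0 < C0 ∧ ∀ i, C i ≤ C0 :=
    ⟨∑ i, C i + 1, by have := sum_nonneg fun i (_ : i ∈ univ) => (hC i).le; linarith, fun i => by
      have := single_le_sum (fun i (_ : i ∈ univ) => (hC i).le) (mem_univ i)
      linarith⟩
  have key : ∀ (L : List (Fin d)) (s : R.NR) (r : ℝ), 0 ≤ r → (∀ i, |s i| ≤ r) →
      ‖(L.map fun i => rp R.m (R.ρ (D.b i)) (s i)).prod‖ ≤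
        ‖(1 : A)‖ * (C0 * (1 + r) ^ R.m) ^ L.length := by
    intro L s r hr hs
    induction L with
    | nil => simp
    | cons i L ih =>
      simp only [List.map_cons, List.prod_cons, List.length_cons]
      have h1 : ‖rp R.m (R.ρ (D.b i)) (s i)‖ ≤ C0 * (1 + r) ^ R.m := by
        refine (h i (s i)).trans ?_
        have h2 : (1 + |s i|) ^ R.m ≤ (1 + r) ^ R.m :=
          pow_le_pow_left₀ (by positivity) (by linarith [hs i]) _
        exact mul_le_mul (hC0' i) h2 (by positivity) hC0.le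
      refine (norm_mul_le _ _).trans ?_
      refine (mul_le_mul h1 ih (norm_nonneg _) (by positivity)).trans (le_of_eq ?_)
      ring
  refine ⟨(‖(1 : A)‖ + 1) * C0 ^ d, R.m * d, by positivity, fun s r hr hs => ?_⟩
  have h1 : R.toA s = ((List.finRange d).map fun i => rp R.m (R.ρ (D.b i)) (s i)).prod :=
    R.E_eq_prod s
  rw [h1]
  refine (key _ s r hr hs).trans ?_
  rw [List.length_finRange, mul_pow, ← pow_mul, mul_assoc]
  refine mul_le_mul_of_nonneg_right (by linarith) (by positivity)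

omit [FiniteDimensional ℝ A] in
/-- products of elements of a bounded set: polynomial bound -/
theorem exists_list_bound (K : ℝ) (hK : 0 ≤ K) : ∃ C : ℝ, 0 < C ∧ ∀ L : List R.NR,
    (∀ s ∈ L, ‖R.toA s - 1‖ ≤ K) → ‖R.toA L.prod‖ ≤ C * (1 + L.length) ^ R.m := by
  refine ⟨(‖(1 : A)‖ * R.m + 1) * (1 + K) ^ R.m, by positivity, fun L hL => ?_⟩
  have h1 := R.norm_prod_le (L.map R.toA) hK (by
    intro u hu
    rw [List.mem_map] at hu
    obtain ⟨s, _, rfl⟩ := hu
    exact R.E_sub_one_mem s) (by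
    intro u hu
    rw [List.mem_map] at hu
    obtain ⟨s, hs, rfl⟩ := hu
    exact hL s hs)
  rw [← map_list_prod, List.length_map] at h1
  refine h1.trans ?_
  have h2 : (1 + (L.length : ℝ) * K) ≤ (1 + K) * (1 + L.length) := by
    nlinarith [(Nat.cast_nonneg L.length : (0 : ℝ) ≤ L.length)]
  calc ‖(1 : A)‖ * R.m * (1 + (L.length : ℝ) * K) ^ R.m
      ≤ (‖(1 : A)‖ * R.m + 1) * ((1 + K) * (1 + L.length)) ^ R.m := by gcongr; linarith
    _ = _ := by rw [mul_pow]; ring

/-- word length bounds in `N`: the norm of `toA (ι x)` is polynomial in the word length -/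
theorem exists_ι_bound (B : Set N) (hB : B.Finite) : ∃ C : ℝ, 0 < C ∧ ∀ L : List N,
    (∀ x ∈ L, x ∈ B ∨ x⁻¹ ∈ B) → ‖R.ρ L.prod‖ ≤ C * (1 + L.length) ^ R.m := by
  have hB' : (B ∪ B⁻¹).Finite := hB.union hB.inv
  obtain ⟨K, hK⟩ := (hB'.image fun x => ‖R.ρ x - 1‖).bddAbove
  obtain ⟨C, hC, h⟩ := R.exists_list_bound (max K 0) (le_max_right _ _)
  refine ⟨C, hC, fun L hL => ?_⟩
  have h1 := h (L.map R.ι) (by
    intro s hs
    rw [List.mem_map] at hs
    obtain ⟨x, hx, rfl⟩ := hs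
    rw [R.toA_ι]
    refine le_trans (hK ⟨x, ?_, rfl⟩) (le_max_left _ _)
    rcases hL x hx with h | h
    · exact Or.inl h
    · exact Or.inr h)
  rwa [← map_list_prod, R.toA_ι, List.length_map] at h1

end comp

end RD

/-- elements of `N` have word length bounded by the coordinates -/
theorem MB.exists_list {N : Type u} [Group N] {d n : ℕ} (D : MB N d n) (x : N) :
    ∃ L : List N, (∀ y ∈ L, y ∈ Set.range D.b ∨ y⁻¹ ∈ Set.range D.b) ∧ L.prod = x ∧
      L.length = ∑ i, (D.c i x).natAbs := by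
  have key : ∀ I : List (Fin d), ∃ L : List N, (∀ y ∈ L, y ∈ Set.range D.b ∨ y⁻¹ ∈ Set.range D.b) ∧
      L.prod = (I.map fun i => D.b i ^ D.c i x).prod ∧
      L.length = (I.map fun i => (D.c i x).natAbs).sum := by
    intro I
    induction I with
    | nil => exact ⟨[], by simp, rfl, rfl⟩
    | cons i I ih =>
      obtain ⟨L, h1, h2, h3⟩ := ih
      obtain ⟨m, hm | hm⟩ := (D.c i x).eq_nat_or_neg
      · refine ⟨List.replicate m (D.b i) ++ L, ?_, ?_, ?_⟩
        · intro y hy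
          rcases List.mem_append.1 hy with hy | hy
          · left; rw [List.eq_of_mem_replicate hy]; exact ⟨i, rfl⟩
          · exact h1 y hy
        · rw [List.prod_append, List.prod_replicate, h2, List.map_cons, List.prod_cons, hm,
            zpow_natCast]
        · rw [List.length_append, List.length_replicate, h3, List.map_cons, List.sum_cons, hm,
            Int.natAbs_natCast]
      · refine ⟨List.replicate m (D.b i)⁻¹ ++ L, ?_, ?_, ?_⟩
        · intro y hy
          rcases List.mem_append.1 hy with hy | hy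
          · right; rw [List.eq_of_mem_replicate hy, inv_inv]; exact ⟨i, rfl⟩
          · exact h1 y hy
        · rw [List.prod_append, List.prod_replicate, h2, List.map_cons, List.prod_cons, hm,
            zpow_neg, zpow_natCast, inv_pow]
        · rw [List.length_append, List.length_replicate, h3, List.map_cons, List.sum_cons, hm,
            Int.natAbs_neg, Int.natAbs_natCast]
  obtain ⟨L, h1, h2, h3⟩ := key (List.finRange d)
  refine ⟨L, h1, ?_, ?_⟩
  · rw [h2, ← List.ofFn_eq_map, D.prod_c]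
  · rw [h3, ← List.ofFn_eq_map, List.sum_ofFn]

end Vale.Agent.P188.H796
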