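import Vale.Agent.P188.H796.Fd

/-!
P188, Gromov-lite: an infinite group of polynomial growth virtually maps onto `ℤ`.
-/

universe u v

open Filter Topology Pointwise

namespace Vale.Agent.P188.H796

open Vale.Agent.P188.SG

theorem surj_of_infinite_add {B : Type u} [AddCommGroup B] [Module.Finite ℤ B] [Infinite B] :
    ∃ φ : B →+ ℤ, Function.Surjective φ := by
  by_cases hsub : Subsingleton (B ⧸ Submodule.torsion ℤ B)
  · exfalso
    rw [Submodule.Quotient.subsingleton_iff] at hsub
    have h1 : Module.IsTorsion ℤ B := by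
      intro x
      have h2 : x ∈ Submodule.torsion ℤ B := by rw [hsub]; trivial
      exact h2
    have := Module.finite_of_fg_torsion B h1
    exact not_finite B
  · rw [not_subsingleton_iff_nontrivial] at hsub
    let bs := Module.Free.chooseBasis ℤ (B ⧸ Submodule.torsion ℤ B)
    have hne : Nonempty (Module.Free.ChooseBasisIndex ℤ (B ⧸ Submodule.torsion ℤ B)) :=
      bs.index_nonempty
    obtain ⟨i⟩ := hne
    refine ⟨((bs.coord i).comp (Submodule.torsion ℤ B).mkQ).toAddMonoidHom, fun n => ?_⟩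
    obtain ⟨x, hx⟩ := (Submodule.torsion ℤ B).mkQ_surjective (n • bs i)
    refine ⟨x, ?_⟩
    show bs.coord i ((Submodule.torsion ℤ B).mkQ x) = n
    rw [hx]
    simp

/-- a finitely generated group with an infinite commutative image maps onto `ℤ` -/
theorem surj_of_infinite_comm {K : Type u} [Group K] [Group.FG K] {A : Type v} [Group A]
    (f : K →* A) (hc : ∀ x y, f x * f y = f y * f x) (hinf : ¬ Finite f.range) :
    ∃ φ : K →* Multiplicative ℤ, Function.Surjective φ := by
  let _ : CommGroup f.range :=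
    { (inferInstance : Group f.range) with
      mul_comm := by
        rintro ⟨_, x, rfl⟩ ⟨_, y, rfl⟩
        exact Subtype.ext (hc x y) }
  have h1 : Group.FG f.range := Group.fg_of_surjective f.rangeRestrict_surjective
  have h2 : AddGroup.FG (Additive f.range) := GroupFG.iff_add_fg.1 h1
  have h3 : Module.Finite ℤ (Additive f.range) := Module.Finite.iff_addGroup_fg.2 h2
  have h4 : Infinite (Additive f.range) := not_finite_iff_infinite.1 hinf
  obtain ⟨φ, hφ⟩ := surj_of_infinite_add (B := Additive f.range)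
  refine ⟨(AddMonoidHom.toMultiplicativeRight φ).comp f.rangeRestrict, fun n => ?_⟩
  obtain ⟨x, hx⟩ := hφ (Multiplicative.toAdd n)
  obtain ⟨y, hy⟩ := f.rangeRestrict_surjective (Additive.toMul x)
  refine ⟨y, ?_⟩
  rw [MonoidHom.comp_apply, hy]
  show Multiplicative.ofAdd (φ x) = n
  rw [hx]
  rfl

/-- an infinite finitely generated group of polynomial growth has a finite index subgroup
mapping onto `ℤ` -/
theorem exists_onto {H : Type u} [Group H] [Group.FG H] [Infinite H] {D : ℕ}
    (hG : GrowthLE H D) :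
    ∃ K : Subgroup H, K.FiniteIndex ∧ ∃ φ : K →* Multiplicative ℤ, Function.Surjective φ := by
  classical
  obtain ⟨S₀, hS₀⟩ := (Group.fg_def (G := H)).1 inferInstance
  obtain ⟨S, hS, h1⟩ : ∃ S : Finset H, SymGen S ∧ (1 : H) ∈ S := by
    refine ⟨insert 1 (S₀ ∪ S₀.image fun x => x⁻¹), ⟨⟨1, Finset.mem_insert_self _ _⟩, ?_, ?_⟩,
      Finset.mem_insert_self _ _⟩
    · intro s hs
      simp only [Finset.mem_insert, Finset.mem_union, Finset.mem_image] at hs ⊢
      rcases hs with h | h | ⟨y, hy, rfl⟩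
      · exact Or.inl (by rw [h, inv_one])
      · exact Or.inr (Or.inr ⟨s, h, rfl⟩)
      · exact Or.inr (Or.inl (by rwa [inv_inv]))
    · rw [eq_top_iff, ← hS₀]
      refine Subgroup.closure_mono fun x hx => ?_
      exact Finset.mem_coe.2 (Finset.mem_insert_of_mem (Finset.mem_union_left _ hx))
  obtain ⟨W, i1, i2, i3, σ, c, hc, hh, s₀, hs₀, hcs₀⟩ := exists_fd_harmonic hS h1 hG
  by_cases hK : σ.ker.FiniteIndex
  · refine ⟨σ.ker, hK, ?_⟩
    have hKfg : Group.FG σ.ker := Subgroup.fg_of_index_ne_zero _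
    have hcK : ∀ g : H, ∀ k ∈ σ.ker, c (g * k) = c g + σ g (c k) := fun g k _ => hc g k
    let f : σ.ker →* Multiplicative W :=
      { toFun := fun k => Multiplicative.ofAdd (c k)
        map_one' := by
          show Multiplicative.ofAdd (c ((1 : σ.ker) : H)) = 1
          rw [Subgroup.coe_one, EO_one hc, ofAdd_zero]
        map_mul' := fun g h => by
          show Multiplicative.ofAdd (c ((g : H) * h)) =
            Multiplicative.ofAdd (c g) * Multiplicative.ofAdd (c h)
          have hg : σ (g : H) = 1 := g.2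
          rw [hc, hg, ← ofAdd_add]
          rfl }
    refine surj_of_infinite_comm f (fun x y => mul_comm _ _) fun hfin => ?_
    -- the cocycle vanishes on the kernel
    have h0 : ∀ k ∈ σ.ker, c k = 0 := by
      intro k hk
      obtain ⟨n, hn, hk1⟩ := isOfFinOrder_iff_pow_eq_one.1
        (isOfFinOrder_of_finite (f.rangeRestrict ⟨k, hk⟩))
      have hk2 : (f ⟨k, hk⟩) ^ n = 1 := by
        have := congrArg Subtype.val hk1
        simpa using this
      have hk3 : n • c k = 0 := by
        have : Multiplicative.ofAdd (n • c k) = 1 := by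
          rw [ofAdd_nsmul]
          exact hk2
        exact this
      rw [← Nat.cast_smul_eq_nsmul ℝ] at hk3
      rcases smul_eq_zero.1 hk3 with h | h
      · exact absurd h (by exact_mod_cast hn.ne')
      · exact h
    -- so it takes finitely many values
    have hfr : (Set.range c).Finite := by
      have : Finite (H ⧸ σ.ker) := Subgroup.finite_quotient_of_finiteIndex
      let F : H ⧸ σ.ker → W := Quotient.lift c (by
        intro a b hab
        have h2 : a⁻¹ * b ∈ σ.ker := QuotientGroup.leftRel_apply.1 hab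
        have h3 := hc a (a⁻¹ * b)
        rw [mul_inv_cancel_left, h0 _ h2, map_zero, add_zero] at h3
        exact h3.symm)
      refine (Set.finite_range F).subset ?_
      rintro _ ⟨g, rfl⟩
      exact ⟨QuotientGroup.mk g, rfl⟩
    obtain ⟨_, ⟨g, rfl⟩, hg⟩ := Set.exists_max_image (Set.range c) (fun v => ‖v‖ ^ 2) hfr
      ⟨c 1, 1, rfl⟩
    have h2 : ∀ s ∈ S, ‖c (g * s)‖ ^ 2 =
        ‖c g‖ ^ 2 + 2 * inner ℝ (c g) (σ g (c s)) + ‖c s‖ ^ 2 := by
      intro s _
      rw [hc g s, norm_add_sq_real, LinearIsometryEquiv.norm_map]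
    have h3 : ∑ s ∈ S, ‖c (g * s)‖ ^ 2 = S.card * ‖c g‖ ^ 2 + ∑ s ∈ S, ‖c s‖ ^ 2 := by
      rw [Finset.sum_congr rfl h2, Finset.sum_add_distrib, Finset.sum_add_distrib,
        ← Finset.mul_sum, ← inner_sum, ← map_sum, hh, map_zero, inner_zero_right, mul_zero,
        add_zero, Finset.sum_const, nsmul_eq_mul]
    have h4 : ∑ s ∈ S, ‖c (g * s)‖ ^ 2 ≤ S.card * ‖c g‖ ^ 2 := by
      have := Finset.sum_le_card_nsmul S (fun s => ‖c (g * s)‖ ^ 2) (‖c g‖ ^ 2)
        (fun s _ => hg _ ⟨g * s, rfl⟩)
      rwa [nsmul_eq_mul] at this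
    have h5 : ‖c s₀‖ ^ 2 ≤ ∑ s ∈ S, ‖c s‖ ^ 2 :=
      Finset.single_le_sum (f := fun s => ‖c s‖ ^ 2) (fun s _ => by positivity) hs₀
    have h6 : ‖c s₀‖ ^ 2 ≤ 0 := by linarith
    have h7 : 0 < ‖c s₀‖ := norm_pos_iff.2 hcs₀
    nlinarith
  · obtain ⟨N, hN, hcomm⟩ := real_virtAbelian hG σ
    refine ⟨N, hN, ?_⟩
    have hNfg : Group.FG N := Subgroup.fg_of_index_ne_zero _
    refine surj_of_infinite_comm (σ.comp N.subtype) (fun x y => hcomm x x.2 y y.2)
      fun hfin => hK ?_
    have h2 : (σ.comp N.subtype).ker.FiniteIndex := Subgroup.finiteIndex_ker _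
    have h3 : (σ.comp N.subtype).ker = σ.ker.subgroupOf N := rfl
    rw [h3] at h2
    have h4 : (σ.ker ⊓ N).FiniteIndex := by
      refine ⟨?_⟩
      rw [← Subgroup.relIndex_mul_index (inf_le_right : σ.ker ⊓ N ≤ N), Subgroup.inf_relIndex_right]
      exact mul_ne_zero h2.index_ne_zero hN.index_ne_zero
    exact Subgroup.finiteIndex_of_le (inf_le_left : σ.ker ⊓ N ≤ σ.ker)

end Vale.Agent.P188.H796
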