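import Vale.Agent.P188.H796.Ext
import Vale.Agent.P188.H796.Onto

/-!
P188: finitely generated groups of polynomial growth are virtually polycyclic
(a weak form of Gromov's theorem, after Kleiner, Shalom and Ozawa).
-/

universe u v

open Pointwise

namespace Vale.Agent.P188.H796

theorem ker_fg {K : Type u} [Group K] [Group.FG K] {D : ℕ} (hG : GrowthLE K D)
    (φ : K →* Multiplicative ℤ) (t : K) (ht : φ t = Multiplicative.ofAdd 1) :
    Group.FG φ.ker := by
  classical
  obtain ⟨S, hS⟩ := (Group.fg_def (G := K)).1 inferInstance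
  have htk : ∀ k : ℤ, φ (t ^ k) = Multiplicative.ofAdd k := fun k => by
    rw [map_zpow, ht, ← ofAdd_zsmul, smul_eq_mul, mul_one]
  obtain ⟨es, hes⟩ : ∃ es : K → K, ∀ s, es s = s * (t ^ (Multiplicative.toAdd (φ s)))⁻¹ :=
    ⟨_, fun _ => rfl⟩
  have hesk : ∀ s, es s ∈ φ.ker := fun s => by
    rw [MonoidHom.mem_ker, hes, map_mul, map_inv, htk]
    simp
  choose T hT1 hT2 using fun s : K => milnor_two hG t (es s)
  obtain ⟨M, hM⟩ : ∃ M : Subgroup K, M = Subgroup.closure ((S.biUnion T : Finset K) : Set K) :=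
    ⟨_, rfl⟩
  have hMk : M ≤ φ.ker := by
    rw [hM, Subgroup.closure_le]
    intro x hx
    rw [Finset.mem_coe, Finset.mem_biUnion] at hx
    obtain ⟨s, -, hx⟩ := hx
    obtain ⟨k, rfl⟩ := hT1 s x hx
    have := φ.normal_ker.conj_mem (es s) (hesk s) (t ^ k)
    exact this
  have hcj : ∀ s ∈ S, ∀ k : ℤ, t ^ k * es s * (t ^ k)⁻¹ ∈ M := by
    intro s hs k
    rw [hM]
    refine Subgroup.closure_mono ?_ (hT2 s k)
    intro x hx
    exact Finset.mem_coe.2 (Finset.mem_biUnion.2 ⟨s, hs, hx⟩)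
  have hMt : ∀ k : ℤ, ∀ x ∈ M, t ^ k * x * (t ^ k)⁻¹ ∈ M := by
    intro k x hx
    rw [hM] at hx
    induction hx using Subgroup.closure_induction with
    | mem x hx =>
      rw [Finset.mem_coe, Finset.mem_biUnion] at hx
      obtain ⟨s, hs, hx⟩ := hx
      obtain ⟨l, rfl⟩ := hT1 s x hx
      have := hcj s hs (k + l)
      have e : t ^ k * (t ^ l * es s * (t ^ l)⁻¹) * (t ^ k)⁻¹ =
          t ^ (k + l) * es s * (t ^ (k + l))⁻¹ := by rw [zpow_add]; group
      rwa [e]
    | one => simp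
    | mul x y _ _ hx hy =>
      have : t ^ k * (x * y) * (t ^ k)⁻¹ = (t ^ k * x * (t ^ k)⁻¹) * (t ^ k * y * (t ^ k)⁻¹) := by
        group
      rw [this]
      exact Subgroup.mul_mem _ hx hy
    | inv x _ hx =>
      have : t ^ k * x⁻¹ * (t ^ k)⁻¹ = (t ^ k * x * (t ^ k)⁻¹)⁻¹ := by group
      rw [this]
      exact Subgroup.inv_mem _ hx
  -- every element is in `M t ^ k`
  have hdec : ∀ x : K, ∃ k : ℤ, x * (t ^ k)⁻¹ ∈ M := by
    intro x
    have hx : x ∈ Subgroup.closure (S : Set K) := by rw [hS]; trivial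
    induction hx using Subgroup.closure_induction with
    | mem s hs =>
      refine ⟨Multiplicative.toAdd (φ s), ?_⟩
      have := hcj s hs 0
      rw [hes] at this
      simpa using this
    | one => exact ⟨0, by simp⟩
    | mul x y _ _ hx hy =>
      obtain ⟨k, hk⟩ := hx
      obtain ⟨l, hl⟩ := hy
      refine ⟨k + l, ?_⟩
      have e : x * y * (t ^ (k + l))⁻¹ = (x * (t ^ k)⁻¹) * (t ^ k * (y * (t ^ l)⁻¹) * (t ^ k)⁻¹) := by
        rw [zpow_add]; group
      rw [e]
      exact M.mul_mem hk (hMt k _ hl)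
    | inv x _ hx =>
      obtain ⟨k, hk⟩ := hx
      refine ⟨-k, ?_⟩
      have e : x⁻¹ * (t ^ (-k))⁻¹ = t ^ (-k) * (x * (t ^ k)⁻¹)⁻¹ * (t ^ (-k))⁻¹ := by
        rw [zpow_neg]; group
      rw [e]
      exact hMt (-k) _ (M.inv_mem hk)
  have hker : M = φ.ker := by
    refine le_antisymm hMk fun x hx => ?_
    obtain ⟨k, hk⟩ := hdec x
    have h1 := hMk hk
    rw [MonoidHom.mem_ker, map_mul, map_inv, htk, MonoidHom.mem_ker.1 hx, one_mul, inv_eq_one] at h1
    have h2 : k = 0 := h1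
    rw [h2] at hk
    simpa using hk
  refine (Group.fg_iff_subgroup_fg _).2 ⟨S.biUnion T, ?_⟩
  rw [← hM, hker]

theorem ker_growth {K : Type u} [Group K] {D : ℕ} (hG : GrowthLE K D)
    (φ : K →* Multiplicative ℤ) (t : K) (ht : φ t = Multiplicative.ofAdd 1) :
    ∃ D', D = D' + 1 ∧ GrowthLE φ.ker D' := by
  classical
  have htk : ∀ k : ℕ, φ (t ^ k) = Multiplicative.ofAdd (k : ℤ) := fun k => by
    rw [map_pow, ht, ← ofAdd_nsmul, nsmul_eq_mul, mul_one]
  have key : ∀ F : Set φ.ker, F.Finite → (1 : φ.ker) ∈ F → ∃ C : ℕ, ∀ n : ℕ,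
      (n + 1) * (F ^ n).ncard ≤ C * (n + 1) ^ D := by
    intro F hF hF1
    obtain ⟨C, hC⟩ := hG (insert t (Subtype.val '' F)) ((hF.image _).insert _)
    refine ⟨C * 2 ^ D, fun n => ?_⟩
    have h1 : ((Set.Iic n ×ˢ (F ^ n)).image fun p : ℕ × φ.ker => (p.2 : K) * t ^ p.1) ⊆
        (insert t (Subtype.val '' F)) ^ (2 * n) := by
      rintro _ ⟨⟨k, x⟩, ⟨hk, hx⟩, rfl⟩
      simp only [Set.mem_Iic] at hk
      have hx' : (x : K) ∈ (Subtype.val '' F) ^ n := by
        have : (x : K) ∈ (φ.ker.subtype '' F) ^ n := by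
          rw [← Set.image_pow]
          exact ⟨x, hx, rfl⟩
        exact this
      have h2 : (x : K) ∈ (insert t (Subtype.val '' F)) ^ n :=
        Set.pow_subset_pow_left (Set.subset_insert _ _) hx'
      have h3 : t ^ k ∈ (insert t (Subtype.val '' F)) ^ k :=
        Set.pow_mem_pow (Set.mem_insert _ _)
      have h4 : t ^ k ∈ (insert t (Subtype.val '' F)) ^ n :=
        Set.pow_subset_pow_right
          (Set.mem_insert_of_mem t (⟨1, hF1, rfl⟩ : (1 : K) ∈ Subtype.val '' F)) hk h3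
      rw [two_mul, pow_add]
      exact Set.mul_mem_mul h2 h4
    have hinj : Set.InjOn (fun p : ℕ × φ.ker => (p.2 : K) * t ^ p.1)
        (Set.Iic n ×ˢ (F ^ n)) := by
      rintro ⟨k, x⟩ - ⟨l, y⟩ - he
      simp only at he
      have h2 := congrArg φ he
      rw [map_mul, map_mul, htk, htk, MonoidHom.mem_ker.1 x.2, MonoidHom.mem_ker.1 y.2, one_mul,
        one_mul] at h2
      have h3 : (k : ℤ) = l := Multiplicative.ofAdd.injective h2
      have h4 : k = l := by exact_mod_cast h3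
      subst h4
      rw [mul_left_inj] at he
      rw [Subtype.ext he]
    have h2 := Set.ncard_le_ncard h1 (finite_pow ((hF.image _).insert _) _)
    rw [hinj.ncard_image, Set.ncard_prod] at h2
    have h3 : (Set.Iic n).ncard = n + 1 := by
      rw [Set.ncard_eq_toFinset_card']
      simp
    rw [h3] at h2
    refine (h2.trans (hC (2 * n))).trans ?_
    rw [mul_assoc, ← mul_pow]
    exact Nat.mul_le_mul_left _ (Nat.pow_le_pow_left (by omega) _)
  rcases D with _ | D
  · exfalso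
    obtain ⟨C, hC⟩ := key {1} (Set.finite_singleton _) rfl
    have h1 := hC (C + 1)
    simp at h1
  · refine ⟨D, rfl, fun F hF => ?_⟩
    obtain ⟨C, hC⟩ := key (insert 1 F) (hF.insert _) (Set.mem_insert _ _)
    refine ⟨C, fun n => ?_⟩
    have h1 := hC n
    have h2 : (F ^ n).ncard ≤ ((insert 1 F) ^ n).ncard :=
      Set.ncard_le_ncard (Set.pow_subset_pow_left (Set.subset_insert _ _))
        (finite_pow (hF.insert _) _)
    refine h2.trans ?_
    have h3 : (n + 1) * ((insert 1 F) ^ n).ncard ≤ (n + 1) * (C * (n + 1) ^ D) := by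
      refine h1.trans (le_of_eq ?_)
      ring
    exact Nat.le_of_mul_le_mul_left h3 (by omega)

theorem VPS.of_finiteIndex {H : Type u} [Group H] {K : Subgroup H} (hK : K.FiniteIndex)
    (h : VPS (⊤ : Subgroup K)) : VPS (⊤ : Subgroup H) := by
  obtain ⟨Q, -, hQ, hi⟩ := h
  refine ⟨Q.map K.subtype, le_top, hQ.map _, ?_⟩
  rw [Subgroup.relIndex_top_right] at hi ⊢
  have h1 : (Q.map K.subtype) ≤ K := Subgroup.map_subtype_le Q
  rw [← Subgroup.relIndex_mul_index h1]
  refine mul_ne_zero ?_ hK.index_ne_zero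
  have h2 : (Q.map K.subtype).subgroupOf K = Q :=
    Subgroup.comap_map_eq_self_of_injective K.subtype_injective Q
  rw [Subgroup.relIndex, h2]
  exact hi

theorem VPS.of_top {H : Type u} [Group H] {K : Subgroup H}
    (h : VPS (⊤ : Subgroup K)) : VPS K := by
  obtain ⟨Q, -, hQ, hi⟩ := h
  refine ⟨Q.map K.subtype, Subgroup.map_subtype_le Q, hQ.map _, ?_⟩
  rw [Subgroup.relIndex_top_right] at hi
  have h2 : (Q.map K.subtype).subgroupOf K = Q :=
    Subgroup.comap_map_eq_self_of_injective K.subtype_injective Q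
  rw [Subgroup.relIndex, h2]
  exact hi

theorem gromov_vps : ∀ (D : ℕ) (H : Type u) [Group H] [Group.FG H], GrowthLE H D →
    VPS (⊤ : Subgroup H) := by
  intro D
  induction D using Nat.strong_induction_on with
  | _ D ih =>
  intro H _ _ hG
  rcases finite_or_infinite H with hfin | hinf
  · refine ⟨⊥, bot_le, .bot, ?_⟩
    rw [Subgroup.relIndex_top_right]
    exact Subgroup.index_ne_zero_of_finite
  · obtain ⟨K, hK, φ, hφ⟩ := exists_onto hG
    have hKfg : Group.FG K := Subgroup.fg_of_index_ne_zero _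
    have hKG : GrowthLE K D := hG.subgroup K
    obtain ⟨t, ht⟩ := hφ (Multiplicative.ofAdd 1)
    obtain ⟨D', rfl, hD'⟩ := ker_growth hKG φ t ht
    have hLfg := ker_fg hKG φ t ht
    have h1 := (ih D' (Nat.lt_succ_self D') φ.ker hD').of_top
    refine VPS.of_finiteIndex hK (h1.step (t := t) ⟨le_top, trivial, ?_, ?_, ?_⟩ hLfg)
    · intro n hn
      exact φ.normal_ker.conj_mem n hn t
    · intro n hn
      have := φ.normal_ker.conj_mem n hn t⁻¹
      rwa [inv_inv] at this
    · intro g _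
      refine ⟨Multiplicative.toAdd (φ g), ?_⟩
      rw [MonoidHom.mem_ker, map_mul, map_inv, map_zpow, ht, ← ofAdd_zsmul, smul_eq_mul, mul_one]
      simp

/-- **Gromov-lite**: a finitely generated group of polynomial growth is virtually polycyclic. -/
theorem gromov_lite {H : Type u} [Group H] [Group.FG H] {D : ℕ} (hG : GrowthLE H D) :
    IsVirtuallyPolycyclic H := by
  obtain ⟨Q, -, hQ, hi⟩ := gromov_vps D H hG
  rw [Subgroup.relIndex_top_right] at hi
  exact isVirtuallyPolycyclic_iff.2 ⟨Q, ⟨hi⟩, hQ⟩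

/-- the same from the growth of the balls of one word metric -/
theorem gromov_lite' {H : Type u} [Group H] (S : Finset H)
    (hS : Subgroup.closure (S : Set H) = ⊤) {C D : ℕ}
    (hG : ∀ n : ℕ, {x : H | wordDist (S : Set H) 1 x ≤ n}.ncard ≤ C * (n + 1) ^ D) :
    IsVirtuallyPolycyclic H := by
  classical
  have hfg : Group.FG H := (Group.fg_def (G := H)).2 ⟨S, hS⟩
  refine gromov_lite (D := D) fun F hF => ?_
  obtain ⟨R, hR⟩ : ∃ R : ℕ, ∀ x ∈ F, SG.len S x ≤ R := by
    obtain ⟨R, hR⟩ := (hF.image (SG.len S)).bddAbove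
    exact ⟨R, fun x hx => hR ⟨x, hx, rfl⟩⟩
  refine ⟨C * (R + 1) ^ D, fun n => ?_⟩
  have h1 : ∀ n : ℕ, ∀ x ∈ F ^ n, SG.len S x ≤ R * n := by
    intro n
    induction n with
    | zero =>
      intro x hx
      rw [pow_zero, Set.mem_one] at hx
      rw [hx, SG.len_one]
      exact Nat.zero_le _
    | succ n ih =>
      intro x hx
      rw [pow_succ] at hx
      obtain ⟨y, hy, z, hz, rfl⟩ := hx
      have := SG.len_mul_le hS y z
      have h2 := ih y hy
      have h3 := hR z hz
      rw [Nat.mul_succ]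
      exact this.trans (Nat.add_le_add h2 h3)
  have h2 : (F ^ n).ncard ≤ {x : H | SG.len S x ≤ R * n}.ncard :=
    Set.ncard_le_ncard (h1 n) (SG.ncard_ball_le hS _).1
  refine h2.trans ((hG (R * n)).trans ?_)
  rw [mul_assoc, ← mul_pow]
  refine Nat.mul_le_mul_left _ (Nat.pow_le_pow_left ?_ _)
  nlinarith

end Vale.Agent.P188.H796
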