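import Vale.Agent.P188.Z1.RModel

/-!
Neutral words in the Cartan group are exponentials of vectors of polynomial size.
-/

open Finset Filter Topology
open scoped commutatorElement Pointwise

namespace Vale.Agent.P188.H796

open Vale.Agent.P188.Z1 (CBall)

section cball

variable {S V : Type} [Group S] {k : ℕ} {nm : V → ℝ} {h : Set V} {ex : V → S}
  {τ : (Fin k → ℤ) → S}

theorem one_mem_CBall (n : ℕ) : (1 : S) ∈ CBall nm h ex τ n :=
  ⟨[], Nat.zero_le _, rfl, by simp⟩

theorem CBall_mono {m n : ℕ} (hmn : m ≤ n) : CBall nm h ex τ m ⊆ CBall nm h ex τ n := by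
  rintro c ⟨L, h1, h2, h3⟩
  exact ⟨L, h1.trans hmn, h2, h3⟩

theorem mul_mem_CBall {m n : ℕ} {a b : S} (ha : a ∈ CBall nm h ex τ m)
    (hb : b ∈ CBall nm h ex τ n) : a * b ∈ CBall nm h ex τ (m + n) := by
  obtain ⟨L, h1, h2, h3⟩ := ha
  obtain ⟨L', h1', h2', h3'⟩ := hb
  refine ⟨L ++ L', by rw [List.length_append]; omega, by rw [List.prod_append, h2, h2'], ?_⟩
  intro x hx
  rcases List.mem_append.1 hx with hx | hx
  · exact h3 x hx
  · exact h3' x hx

theorem list_mem_CBall {L : List S} (hL : ∀ a ∈ L, a ∈ CBall nm h ex τ 1) :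
    L.prod ∈ CBall nm h ex τ L.length := by
  induction L with
  | nil => exact one_mem_CBall _
  | cons a L ih =>
    rw [List.prod_cons, List.length_cons, add_comm]
    exact mul_mem_CBall (hL a List.mem_cons_self) (ih fun b hb => hL b (List.mem_cons_of_mem _ hb))

theorem ex_mem_CBall {v : V} (hv : v ∈ h) (hn : nm v ≤ 1) : ex v ∈ CBall nm h ex τ 1 :=
  ⟨[ex v], le_rfl, by simp, by
    intro a ha
    rw [List.mem_singleton] at ha
    exact Or.inl ⟨v, hv, hn, ha.symm⟩⟩

theorem τ_mem_CBall {w : Fin k → ℤ} (hw : ∀ i, |w i| ≤ 1) : τ w ∈ CBall nm h ex τ 1 :=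
  ⟨[τ w], le_rfl, by simp, by
    intro a ha
    rw [List.mem_singleton] at ha
    exact Or.inr ⟨w, hw, Or.inl ha.symm⟩⟩

theorem τ_inv_mem_CBall {w : Fin k → ℤ} (hw : ∀ i, |w i| ≤ 1) : (τ w)⁻¹ ∈ CBall nm h ex τ 1 :=
  ⟨[(τ w)⁻¹], le_rfl, by simp, by
    intro a ha
    rw [List.mem_singleton] at ha
    exact Or.inr ⟨w, hw, Or.inr ha.symm⟩⟩

end cball

/-! ### sorted words -/

section sorted

variable {S : Type} [Group S] {k : ℕ} (t : Fin k → S)

/-- the word of an integer power -/
def zw (x : S) (z : ℤ) : List S := if 0 ≤ z then List.replicate z.natAbs x else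
  List.replicate z.natAbs x⁻¹

theorem zw_prod (x : S) (z : ℤ) : (zw x z).prod = x ^ z := by
  unfold zw
  split_ifs with h
  · rw [List.prod_replicate, ← zpow_natCast, Int.natAbs_of_nonneg h]
  · rw [List.prod_replicate, inv_pow, ← zpow_natCast, ← zpow_neg]
    congr 1
    omega

theorem zw_length (x : S) (z : ℤ) : (zw x z).length = z.natAbs := by
  unfold zw
  split_ifs <;> rw [List.length_replicate]

theorem zw_mem {x y : S} {z : ℤ} (hy : y ∈ zw x z) : x = y ∨ x⁻¹ = y := by
  unfold zw at hy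
  split_ifs at hy
  · exact Or.inl (List.eq_of_mem_replicate hy).symm
  · exact Or.inr (List.eq_of_mem_replicate hy).symm

/-- letters -/
def TL : Set S := {a | ∃ j, t j = a ∨ (t j)⁻¹ = a}

/-- sorted word over a list of indices -/
def sw (I : List (Fin k)) (w : Fin k → ℤ) : List S := (I.map fun i => zw (t i) (w i)).flatten

theorem sw_mem {I : List (Fin k)} {w : Fin k → ℤ} {y : S} (hy : y ∈ sw t I w) : y ∈ TL t := by
  unfold sw at hy
  rw [List.mem_flatten] at hy
  obtain ⟨l, hl, hy⟩ := hy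
  rw [List.mem_map] at hl
  obtain ⟨i, _, rfl⟩ := hl
  exact ⟨i, zw_mem hy⟩

theorem sw_length (I : List (Fin k)) (w : Fin k → ℤ) :
    (sw t I w).length = (I.map fun i => (w i).natAbs).sum := by
  unfold sw
  rw [List.length_flatten, List.map_map]
  congr 1
  refine List.map_congr_left fun i _ => ?_
  simp only [Function.comp_apply, zw_length]

theorem sw_append (I J : List (Fin k)) (w : Fin k → ℤ) :
    sw t (I ++ J) w = sw t I w ++ sw t J w := by
  unfold sw
  rw [List.map_append, List.flatten_append]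

theorem sw_cons (i : Fin k) (J : List (Fin k)) (w : Fin k → ℤ) :
    sw t (i :: J) w = zw (t i) (w i) ++ sw t J w := by
  unfold sw
  rw [List.map_cons, List.flatten_cons]

theorem sw_congr {I : List (Fin k)} {w w' : Fin k → ℤ} (h : ∀ i ∈ I, w i = w' i) :
    sw t I w = sw t I w' := by
  unfold sw
  congr 1
  exact List.map_congr_left fun i hi => by rw [h i hi]

theorem sw_prod_zero (I : List (Fin k)) : (sw t I 0).prod = 1 := by
  induction I with
  | nil => rfl
  | cons i I ih => rw [sw_cons, List.prod_append, ih, zw_prod, Pi.zero_apply, zpow_zero, mul_one]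

/-- the sorted word -/
def sg (w : Fin k → ℤ) : List S := sw t (List.finRange k) w

theorem sg_length (w : Fin k → ℤ) : (sg t w).length = ∑ i, (w i).natAbs := by
  rw [sg, sw_length, Fin.sum_univ_def]

/-- splitting the sorted word at an index -/
theorem sg_split (w : Fin k → ℤ) (j : Fin k) : ∃ P Q : List S, (∀ a ∈ P, a ∈ TL t) ∧
    (∀ a ∈ Q, a ∈ TL t) ∧ P.length + Q.length = (sg t w).length ∧
    (sg t w).prod = P.prod * Q.prod ∧
    ∀ z : ℤ, (sg t (Function.update w j (w j + z))).prod = P.prod * t j ^ z * Q.prod := by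
  obtain ⟨I, J, hIJ⟩ := List.append_of_mem (List.mem_finRange j)
  have hnd : (I ++ j :: J).Nodup := hIJ ▸ List.nodup_finRange k
  have hI : j ∉ I := by
    intro hj
    have := (List.nodup_append.1 hnd).2.2 j hj j List.mem_cons_self
    exact this rfl
  have hJ : j ∉ J := (List.nodup_cons.1 (List.nodup_append.1 hnd).2.1).1
  refine ⟨sw t I w ++ zw (t j) (w j), sw t J w, ?_, fun a ha => sw_mem t ha, ?_, ?_, ?_⟩
  · intro a ha
    rcases List.mem_append.1 ha with ha | ha
    · exact sw_mem t ha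
    · exact ⟨j, zw_mem ha⟩
  · rw [sg, hIJ, sw_append, sw_cons, List.length_append, List.length_append, List.length_append,
      add_assoc]
  · rw [sg, hIJ, sw_append, sw_cons, List.prod_append, List.prod_append, List.prod_append, mul_assoc]
  · intro z
    rw [sg, hIJ, sw_append, sw_cons, List.prod_append, List.prod_append, List.prod_append,
      zw_prod, zw_prod, Function.update_self]
    have e1 : sw t I (Function.update w j (w j + z)) = sw t I w :=
      sw_congr t fun i hi => Function.update_of_ne (by rintro rfl; exact hI hi) _ _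
    have e2 : sw t J (Function.update w j (w j + z)) = sw t J w :=
      sw_congr t fun i hi => Function.update_of_ne (by rintro rfl; exact hJ hi) _ _
    rw [e1, e2, zpow_add]
    simp only [mul_assoc]

theorem sg_length_update (w : Fin k → ℤ) (j : Fin k) {z : ℤ} (hz : z.natAbs ≤ 1) :
    (sg t (Function.update w j (w j + z))).length ≤ (sg t w).length + 1 := by
  rw [sg_length, sg_length, ← Finset.sum_erase_add _ _ (Finset.mem_univ j),
    ← Finset.sum_erase_add _ (fun i => (w i).natAbs) (Finset.mem_univ j)]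
  have e1 : ∑ x ∈ Finset.univ.erase j, (Function.update w j (w j + z) x).natAbs =
      ∑ x ∈ Finset.univ.erase j, (w x).natAbs :=
    Finset.sum_congr rfl fun i hi => by
      rw [Function.update_of_ne (Finset.ne_of_mem_erase hi)]
  rw [e1, Function.update_self, add_assoc]
  have := Int.natAbs_add_le (w j) z
  omega

end sorted

/-! ### polynomial size -/

section ker

variable {S V : Type} [Group S] [AddCommGroup V] [Module ℝ V] {k : ℕ}
  {nm : Seminorm ℝ V} {h : Submodule ℝ V} {ex : V → S} {Ad : S →* Module.End ℝ V}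
  {τ : (Fin k → ℤ) → S} {C M : ℝ} {deg : ℕ}

/-- conjugated commutators of words -/
theorem comm_list (ex_Ad : ∀ s v, ex (Ad s v) = s * ex v * s⁻¹)
    (hinv : ∀ n, ∀ c ∈ CBall nm h ex τ n, ∀ v ∈ h, Ad c v ∈ h)
    (hle : ∀ n, ∀ c ∈ CBall nm h ex τ n, ∀ v ∈ h, nm (Ad c v) ≤ C * (1 + n) ^ deg * nm v)
    (hC : 0 ≤ C) (hM : 0 ≤ M) {T : Set S} (hT : T ⊆ CBall nm h ex τ 1)
    (hx : ∀ q ∈ T, ∀ t ∈ T, ∃ x ∈ h, nm x ≤ M ∧ ex x = ⁅q, t⁆) {t : S} (ht : t ∈ T) :
    ∀ Q : List S, (∀ q ∈ Q, q ∈ T) → ∀ (r : ℕ), ∀ R ∈ CBall nm h ex τ r,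
      ∃ L : List V, L.length = Q.length ∧
        (∀ v ∈ L, v ∈ h ∧ nm v ≤ C * (1 + (r + Q.length : ℕ)) ^ deg * M) ∧
        (L.map ex).prod = R * ⁅Q.prod, t⁆ * R⁻¹ := by
  intro Q
  induction Q with
  | nil =>
    intro _ r R hR
    exact ⟨[], rfl, by simp, by simp⟩
  | cons q Q ih =>
    intro hQ r R hR
    have hq := hQ q List.mem_cons_self
    obtain ⟨L, h1, h2, h3⟩ := ih (fun a ha => hQ a (List.mem_cons_of_mem _ ha)) (r + 1) (R * q)
      (mul_mem_CBall hR (hT hq))
    obtain ⟨x, hxh, hxM, hxe⟩ := hx q hq t ht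
    refine ⟨L ++ [Ad R x], by simp [h1], ?_, ?_⟩
    · intro v hv
      rcases List.mem_append.1 hv with hv | hv
      · have := h2 v hv
        rw [List.length_cons, show r + (Q.length + 1) = r + 1 + Q.length by ring]
        exact this
      · rw [List.mem_singleton] at hv
        subst hv
        refine ⟨hinv r R hR x hxh, (hle r R hR x hxh).trans ?_⟩
        refine mul_le_mul ?_ hxM (apply_nonneg nm x) (by positivity)
        refine mul_le_mul_of_nonneg_left ?_ hC
        refine pow_le_pow_left₀ (by positivity) ?_ _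
        have : (r : ℝ) ≤ ((r + (q :: Q).length : ℕ) : ℝ) := by
          exact_mod_cast Nat.le_add_right _ _
        linarith
    · rw [List.map_append, List.prod_append, h3, List.map_singleton, List.prod_singleton, ex_Ad,
        hxe, List.prod_cons]
      simp only [commutatorElement_def]
      group

/-- every word is a product of few small exponentials and a sorted word -/
theorem word_list (ex_Ad : ∀ s v, ex (Ad s v) = s * ex v * s⁻¹)
    (hinv : ∀ n, ∀ c ∈ CBall nm h ex τ n, ∀ v ∈ h, Ad c v ∈ h)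
    (hle : ∀ n, ∀ c ∈ CBall nm h ex τ n, ∀ v ∈ h, nm (Ad c v) ≤ C * (1 + n) ^ deg * nm v)
    (hC : 0 ≤ C) (hM : 0 ≤ M) {t : Fin k → S} (hT : TL t ⊆ CBall nm h ex τ 1)
    (hx : ∀ q ∈ TL t, ∀ s ∈ TL t, ∃ x ∈ h, nm x ≤ M ∧ ex x = ⁅q, s⁆) (W : List S)
    (hW : ∀ a ∈ W, (∃ v ∈ h, nm v ≤ M ∧ ex v = a) ∨ a ∈ TL t) :
    ∃ (L : List V) (w : Fin k → ℤ), L.length ≤ W.length * W.length ∧
      (∀ v ∈ L, v ∈ h ∧ nm v ≤ C * (1 + (W.length : ℝ)) ^ deg * M) ∧
      (sg t w).length ≤ W.length ∧ W.prod = (L.map ex).prod * (sg t w).prod := by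
  induction W using List.reverseRecOn with
  | nil =>
    refine ⟨[], 0, le_rfl, by simp, ?_, ?_⟩
    · rw [sg_length]; simp
    · rw [sg, sw_prod_zero]; simp
  | append_singleton W a ih =>
    obtain ⟨L, w, h1, h2, h3, h4⟩ := ih fun b hb => hW b (List.mem_append_left _ hb)
    have hmono : C * (1 + (W.length : ℝ)) ^ deg * M ≤
        C * (1 + ((W ++ [a]).length : ℝ)) ^ deg * M := by
      refine mul_le_mul_of_nonneg_right (mul_le_mul_of_nonneg_left ?_ hC) hM
      refine pow_le_pow_left₀ (by positivity) ?_ _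
      rw [List.length_append]
      push_cast
      have : (0 : ℝ) ≤ ([a] : List S).length := Nat.cast_nonneg _
      linarith
    have hcb : ∀ P : List S, (∀ a ∈ P, a ∈ TL t) → P.prod ∈ CBall nm h ex τ P.length :=
      fun P hP => list_mem_CBall fun a ha => hT (hP a ha)
    have hlen : (W ++ [a]).length = W.length + 1 := by simp
    rcases hW a (List.mem_append_right _ (List.mem_singleton_self a)) with ⟨v, hv, hvM, rfl⟩ | ha
    · have hs : (sg t w).prod ∈ CBall nm h ex τ (sg t w).length := hcb _ fun a ha => sw_mem t ha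
      refine ⟨L ++ [Ad (sg t w).prod v], w, ?_, ?_, ?_, ?_⟩
      · rw [hlen, List.length_append, List.length_singleton]
        nlinarith
      · intro u hu
        rcases List.mem_append.1 hu with hu | hu
        · exact ⟨(h2 u hu).1, (h2 u hu).2.trans hmono⟩
        · rw [List.mem_singleton] at hu
          subst hu
          refine ⟨hinv _ _ hs v hv, ((hle _ _ hs v hv).trans ?_).trans hmono⟩
          refine mul_le_mul ?_ hvM (apply_nonneg nm v) (by positivity)
          refine mul_le_mul_of_nonneg_left ?_ hC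
          refine pow_le_pow_left₀ (by positivity) ?_ _
          have : ((sg t w).length : ℝ) ≤ W.length := by exact_mod_cast h3
          linarith
      · rw [hlen]; omega
      · rw [List.prod_append, List.prod_singleton, h4, List.map_append, List.prod_append,
          List.map_singleton, List.prod_singleton, ex_Ad]
        group
    · obtain ⟨j, hj⟩ := ha
      obtain ⟨z, hz, hza⟩ : ∃ z : ℤ, z.natAbs ≤ 1 ∧ t j ^ z = a := by
        rcases hj with h | h
        · exact ⟨1, by simp, by rw [zpow_one, h]⟩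
        · exact ⟨-1, by simp, by rw [zpow_neg_one, h]⟩
      obtain ⟨P, Q, hP, hQ, hlenPQ, hprod, hupd⟩ := sg_split t w j
      obtain ⟨L', k1, k2, k3⟩ := comm_list ex_Ad hinv hle hC hM hT hx (t := a) ⟨j, hj⟩ Q hQ
        P.length P.prod (hcb P hP)
      refine ⟨L ++ L', Function.update w j (w j + z), ?_, ?_, ?_, ?_⟩
      · rw [hlen, List.length_append, k1]
        have : Q.length ≤ W.length := by omega
        nlinarith
      · intro u hu
        rcases List.mem_append.1 hu with hu | hu
        · exact ⟨(h2 u hu).1, (h2 u hu).2.trans hmono⟩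
        · refine ⟨(k2 u hu).1, ((k2 u hu).2.trans ?_).trans hmono⟩
          refine mul_le_mul_of_nonneg_right (mul_le_mul_of_nonneg_left ?_ hC) hM
          refine pow_le_pow_left₀ (by positivity) ?_ _
          have : ((P.length + Q.length : ℕ) : ℝ) ≤ W.length := by
            exact_mod_cast (by omega : P.length + Q.length ≤ W.length)
          linarith
      · rw [hlen]
        exact (sg_length_update t w j hz).trans (by omega)
      · rw [List.prod_append, List.prod_singleton, h4, hprod, List.map_append, List.prod_append, k3,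
          hupd, hza]
        simp only [commutatorElement_def]
        group

/-- **neutral words in the Cartan group** are exponentials of neutral vectors of polynomial size -/
theorem ker_poly (ex_inj : Function.Injective ex) (ex_Ad : ∀ s v, ex (Ad s v) = s * ex v * s⁻¹)
    {η : S →* Multiplicative (Fin k → ℤ)} (η_ex : ∀ v, η (ex v) = 1)
    (η_τ : ∀ w, η (τ w) = Multiplicative.ofAdd w)
    {Ct : Subgroup S} (hτC : ∀ w, τ w ∈ Ct) (hker : ∀ c ∈ Ct, η c = 1 → ∃ v ∈ h, ex v = c)
    (hinv : ∀ n, ∀ c ∈ CBall nm h ex τ n, ∀ v ∈ h, Ad c v ∈ h)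
    (hC : 0 ≤ C)
    (hle : ∀ n, ∀ c ∈ CBall nm h ex τ n, ∀ v ∈ h, nm (Ad c v) ≤ C * (1 + n) ^ deg * nm v)
    {C' : ℝ} {e : ℕ} (hC' : 0 ≤ C')
    (hlist : ∀ A : ℝ, 0 ≤ A → ∀ L : List V, (∀ v ∈ L, nm v ≤ A) →
      ∃ u, ex u = (L.map ex).prod ∧ nm u ≤ C' * (1 + A + L.length) ^ e)
    (hexC : ∀ v ∈ h, ex v ∈ Ct) :
    ∃ (K : ℝ) (f : ℕ), 0 ≤ K ∧ ∀ n, ∀ c ∈ CBall nm h ex τ n, η c = 1 →
      ∃ v ∈ h, ex v = c ∧ nm v ≤ K * (1 + n) ^ f := by
  classical
  -- the letters
  set t : Fin k → S := fun j => τ (Pi.single j 1) with ht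
  have hsingle : ∀ j i : Fin k, |(Pi.single j (1 : ℤ) : Fin k → ℤ) i| ≤ 1 := by
    intro j i
    by_cases hij : i = j
    · subst hij; simp
    · rw [Pi.single_eq_of_ne hij]; simp
  have hT : TL t ⊆ CBall nm h ex τ 1 := by
    rintro a ⟨j, rfl | rfl⟩
    · exact τ_mem_CBall (hsingle j)
    · exact τ_inv_mem_CBall (hsingle j)
  have hTC : ∀ a ∈ TL t, a ∈ Ct := by
    rintro a ⟨j, rfl | rfl⟩
    · exact hτC _
    · exact Ct.inv_mem (hτC _)
  have hsgC : ∀ w, (sg t w).prod ∈ Ct := fun w => Ct.list_prod_mem fun a ha => hTC a (sw_mem t ha)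
  have hηsw : ∀ (I : List (Fin k)) (w : Fin k → ℤ), Multiplicative.toAdd (η (sw t I w).prod) =
      (I.map fun i => (w i) • (Pi.single i (1 : ℤ) : Fin k → ℤ)).sum := by
    intro I w
    induction I with
    | nil => simp [sw]
    | cons i I ih =>
      rw [sw_cons, List.prod_append, map_mul, toAdd_mul, ih, List.map_cons, List.sum_cons, zw_prod,
        map_zpow, toAdd_zpow, ht, η_τ]
      rfl
  have hηsg : ∀ w, η (sg t w).prod = Multiplicative.ofAdd w := by
    intro w
    apply Multiplicative.toAdd.injective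
    rw [sg, hηsw, ← Fin.sum_univ_def, toAdd_ofAdd]
    funext j
    rw [Finset.sum_apply, Finset.sum_eq_single j]
    · simp
    · intro i _ hij
      rw [Pi.smul_apply, Pi.single_eq_of_ne (Ne.symm hij), smul_zero]
    · intro hj
      exact absurd (Finset.mem_univ j) hj
  -- finitely many constants
  have hcomm : ∀ p : (Fin k × Bool) × (Fin k × Bool), ∃ x ∈ h, ex x =
      ⁅(if p.1.2 then t p.1.1 else (t p.1.1)⁻¹), (if p.2.2 then t p.2.1 else (t p.2.1)⁻¹)⁆ := by
    intro p
    apply hker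
    · have h1 : ∀ q : Fin k × Bool, (if q.2 then t q.1 else (t q.1)⁻¹) ∈ Ct := by
        intro q
        split_ifs
        · exact hτC _
        · exact Ct.inv_mem (hτC _)
      rw [commutatorElement_def]
      exact Ct.mul_mem (Ct.mul_mem (Ct.mul_mem (h1 _) (h1 _)) (Ct.inv_mem (h1 _)))
        (Ct.inv_mem (h1 _))
    · rw [map_commutatorElement, commutatorElement_eq_one_iff_mul_comm, mul_comm]
  choose xc hxc hxce using hcomm
  obtain ⟨M1, hM1⟩ := (Set.finite_range fun p => nm (xc p)).bddAbove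
  have hlet : ∀ p : (Fin k → ℤ) × Bool, ∃ x ∈ h, ex x =
      (if p.2 then τ p.1 else (τ p.1)⁻¹) * (sg t (if p.2 then p.1 else -p.1)).prod⁻¹ := by
    intro p
    apply hker
    · refine Ct.mul_mem ?_ (Ct.inv_mem (hsgC _))
      split_ifs
      · exact hτC _
      · exact Ct.inv_mem (hτC _)
    · rw [map_mul, map_inv, hηsg]
      split_ifs
      · rw [η_τ, mul_inv_cancel]
      · rw [map_inv, η_τ, ofAdd_neg, mul_inv_cancel]
  choose xl hxl hxle using hlet
  obtain ⟨M2, hM2⟩ := (((Set.finite_Icc (-1 : Fin k → ℤ) 1).prod (Set.finite_univ (α := Bool))).image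
    fun p => nm (xl p)).bddAbove
  set M : ℝ := max (max M1 M2) 1 with hM
  have hM0 : 0 ≤ M := zero_le_one.trans (le_max_right _ _)
  have hx : ∀ q ∈ TL t, ∀ s ∈ TL t, ∃ x ∈ h, nm x ≤ M ∧ ex x = ⁅q, s⁆ := by
    have h1 : ∀ q ∈ TL t, ∃ b : Fin k × Bool, (if b.2 then t b.1 else (t b.1)⁻¹) = q := by
      rintro q ⟨j, rfl | rfl⟩
      · exact ⟨(j, true), by simp⟩
      · exact ⟨(j, false), by simp⟩
    intro q hq s hs
    obtain ⟨b, rfl⟩ := h1 q hq
    obtain ⟨b', rfl⟩ := h1 s hs
    refine ⟨xc (b, b'), hxc _, ?_, hxce (b, b')⟩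
    exact (hM1 ⟨(b, b'), rfl⟩).trans ((le_max_left _ _).trans (le_max_left _ _))
  -- conversion of words
  have hconv : ∀ L : List S, (∀ a ∈ L, (∃ v ∈ (h : Set V), nm v ≤ 1 ∧ ex v = a) ∨
      (∃ w : Fin k → ℤ, (∀ i, |w i| ≤ 1) ∧ (τ w = a ∨ (τ w)⁻¹ = a))) →
      ∃ W : List S, W.length ≤ (k + 1) * L.length ∧ W.prod = L.prod ∧
        ∀ a ∈ W, (∃ v ∈ h, nm v ≤ M ∧ ex v = a) ∨ a ∈ TL t := by
    intro L
    induction L with
    | nil => intro _; exact ⟨[], by simp, rfl, by simp⟩
    | cons a L ih =>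
      intro hL
      obtain ⟨W, h1, h2, h3⟩ := ih fun b hb => hL b (List.mem_cons_of_mem _ hb)
      rcases hL a List.mem_cons_self with ⟨v, hv, hv1, rfl⟩ | ⟨w, hw, hwa⟩
      · refine ⟨ex v :: W, ?_, by rw [List.prod_cons, List.prod_cons, h2], ?_⟩
        · rw [List.length_cons, List.length_cons, mul_add]; omega
        · intro b hb
          rcases List.mem_cons.1 hb with rfl | hb
          · exact Or.inl ⟨v, hv, hv1.trans (le_max_right _ _), rfl⟩
          · exact h3 b hb
      · obtain ⟨bb, hbb⟩ : ∃ bb : Bool, (if bb then τ w else (τ w)⁻¹) = a := by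
          rcases hwa with h | h
          · exact ⟨true, by simpa using h⟩
          · exact ⟨false, by simpa using h⟩
        set w' : Fin k → ℤ := if bb then w else -w with hw'
        have hlw : (sg t w').length ≤ k := by
          rw [sg_length]
          have : ∀ i, (w' i).natAbs ≤ 1 := by
            intro i
            have h4 := hw i
            rw [hw']
            split_ifs
            · rw [Int.abs_eq_natAbs] at h4; exact_mod_cast h4
            · rw [Int.abs_eq_natAbs] at h4
              rw [Pi.neg_apply, Int.natAbs_neg]; exact_mod_cast h4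
          calc ∑ i, (w' i).natAbs ≤ ∑ _i : Fin k, 1 := Finset.sum_le_sum fun i _ => this i
            _ = k := by simp
        refine ⟨ex (xl (w, bb)) :: (sg t w' ++ W), ?_, ?_, ?_⟩
        · rw [List.length_cons, List.length_append, List.length_cons, mul_add]; omega
        · rw [List.prod_cons, List.prod_append, h2, List.prod_cons, hxle (w, bb)]
          simp only
          rw [hbb, ← hw']
          group
        · intro b hb
          rcases List.mem_cons.1 hb with rfl | hb
          · refine Or.inl ⟨_, hxl (w, bb), ?_, rfl⟩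
            refine le_trans (hM2 ⟨(w, bb), ⟨?_, Set.mem_univ _⟩, rfl⟩)
              ((le_max_right _ _).trans (le_max_left _ _))
            rw [Set.mem_Icc]
            exact ⟨fun i => (abs_le.1 (hw i)).1, fun i => (abs_le.1 (hw i)).2⟩
          · rcases List.mem_append.1 hb with hb | hb
            · exact Or.inr (sw_mem t hb)
            · exact h3 b hb
  -- conclusion
  refine ⟨C' * (1 + C * (k + 2) ^ deg * M + (k + 2) ^ 2) ^ e, (deg + 2) * e, by positivity, ?_⟩
  rintro n c ⟨L₀, hL₀, hLp, hLm⟩ hη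
  obtain ⟨W, w1, w2, w3⟩ := hconv L₀ hLm
  obtain ⟨L, w, h1, h2, h3, h4⟩ := word_list ex_Ad hinv hle hC hM0 hT hx W w3
  have hW : W.length ≤ (k + 1) * n := w1.trans (Nat.mul_le_mul_left _ hL₀)
  have hw0 : w = 0 := by
    have h5 : η W.prod = Multiplicative.ofAdd w := by
      rw [h4, map_mul, hηsg]
      have : η (L.map ex).prod = 1 := by
        rw [map_list_prod, List.map_map]
        have : (List.map (η ∘ ex) L) = List.map (fun _ => 1) L :=
          List.map_congr_left fun v _ => η_ex v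
        rw [this, List.map_const', List.prod_replicate, one_pow]
      rw [this, one_mul]
    rw [w2, hLp, hη] at h5
    exact (Multiplicative.ofAdd.injective h5).symm
  have hWp : c = (L.map ex).prod := by
    rw [← hLp, ← w2, h4, hw0, sg, sw_prod_zero, mul_one]
  obtain ⟨u, hu1, hu2⟩ := hlist (C * (1 + (W.length : ℝ)) ^ deg * M) (by positivity) L
    fun v hv => (h2 v hv).2
  have hcC : c ∈ Ct := by
    rw [hWp]
    refine Ct.list_prod_mem fun a ha => ?_
    rw [List.mem_map] at ha
    obtain ⟨v, hv, rfl⟩ := ha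
    exact hexC v (h2 v hv).1
  obtain ⟨v, hv, hvc⟩ := hker c hcC hη
  have huv : u = v := ex_inj (by rw [hu1, hvc, hWp])
  subst huv
  refine ⟨u, hv, hvc, hu2.trans ?_⟩
  have hn0 : (0 : ℝ) ≤ n := Nat.cast_nonneg _
  have hk0 : (0 : ℝ) ≤ k := Nat.cast_nonneg _
  have hWr : (W.length : ℝ) ≤ (k + 1) * n := by exact_mod_cast hW
  have e1 : 1 + (W.length : ℝ) ≤ (k + 2) * (1 + n) := by nlinarith
  have e2 : (1 + (W.length : ℝ)) ^ deg ≤ (k + 2) ^ deg * (1 + n) ^ deg := by
    rw [← mul_pow]
    exact pow_le_pow_left₀ (by positivity) e1 _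
  have e3 : (L.length : ℝ) ≤ (k + 2) ^ 2 * (1 + n) ^ 2 := by
    have : (L.length : ℝ) ≤ W.length * W.length := by exact_mod_cast h1
    have h5 : (0 : ℝ) ≤ W.length := Nat.cast_nonneg _
    nlinarith
  have hp : ∀ j : ℕ, j ≤ deg + 2 → ((1 : ℝ) + n) ^ j ≤ (1 + n) ^ (deg + 2) := fun j hj =>
    pow_le_pow_right₀ (by linarith) hj
  have e4 : 1 + C * (1 + (W.length : ℝ)) ^ deg * M + L.length ≤
      (1 + C * (k + 2) ^ deg * M + (k + 2) ^ 2) * (1 + n) ^ (deg + 2) := by
    have g1 : C * (1 + (W.length : ℝ)) ^ deg * M ≤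
        C * (k + 2) ^ deg * M * (1 + n) ^ (deg + 2) := by
      calc C * (1 + (W.length : ℝ)) ^ deg * M ≤ C * ((k + 2) ^ deg * (1 + n) ^ deg) * M := by
            gcongr
        _ = C * (k + 2) ^ deg * M * (1 + n) ^ deg := by ring
        _ ≤ C * (k + 2) ^ deg * M * (1 + n) ^ (deg + 2) :=
            mul_le_mul_of_nonneg_left (hp deg (by omega)) (by positivity)
    have g2 : (L.length : ℝ) ≤ (k + 2) ^ 2 * (1 + n) ^ (deg + 2) :=
      e3.trans (mul_le_mul_of_nonneg_left (hp 2 (by omega)) (by positivity))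
    have g3 : (1 : ℝ) ≤ (1 + n) ^ (deg + 2) := one_le_pow₀ (by linarith)
    linarith
  calc C' * (1 + C * (1 + (W.length : ℝ)) ^ deg * M + L.length) ^ e
      ≤ C' * ((1 + C * (k + 2) ^ deg * M + (k + 2) ^ 2) * (1 + n) ^ (deg + 2)) ^ e := by
        gcongr
    _ = _ := by rw [mul_pow, ← pow_mul]; ring

end ker

end Vale.Agent.P188.H796
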