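import Mathlib

/-!
P188, Gromov-lite: growth of finite sets and the deviation from the identity in an isometric
representation on a finite-dimensional complex inner product space.
-/

open Pointwise

namespace Vale.Agent.P188.H796

universe u v

/-- All finite subsets have polynomial growth of degree at most `D`. -/
def GrowthLE (G : Type u) [Group G] (D : ℕ) : Prop :=
  ∀ F : Set G, F.Finite → ∃ C : ℕ, ∀ n : ℕ, (F ^ n).ncard ≤ C * (n + 1) ^ D

theorem finite_pow {G : Type u} [Group G] {F : Set G} (hF : F.Finite) (n : ℕ) :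
    (F ^ n).Finite := by
  induction n with
  | zero => simp
  | succ n ih => rw [pow_succ]; exact ih.mul hF

theorem GrowthLE.of_injective {G K : Type*} [Group G] [Group K] {D : ℕ} (h : GrowthLE G D)
    (f : K →* G) (hf : Function.Injective f) : GrowthLE K D := by
  intro F hF
  obtain ⟨C, hC⟩ := h (f '' F) (hF.image f)
  refine ⟨C, fun n => ?_⟩
  rw [← Set.ncard_image_of_injective (F ^ n) hf, Set.image_pow]
  exact hC n

theorem GrowthLE.subgroup {G : Type u} [Group G] {D : ℕ} (h : GrowthLE G D) (K : Subgroup G) :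
    GrowthLE K D := h.of_injective K.subtype K.subtype_injective

section Rep

variable {G : Type u} [Group G] {V : Type v} [NormedAddCommGroup V] [InnerProductSpace ℂ V]

/-- isometric representations -/
def IsoRep (ρ : G →* (V →L[ℂ] V)) : Prop := ∀ g v, ‖ρ g v‖ = ‖v‖

/-- distance to the identity -/
noncomputable def dev (ρ : G →* (V →L[ℂ] V)) (g : G) : ℝ := ‖ρ g - 1‖

variable {ρ : G →* (V →L[ℂ] V)}

theorem IsoRep.norm_le (hρ : IsoRep ρ) (g : G) : ‖ρ g‖ ≤ 1 :=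
  ContinuousLinearMap.opNorm_le_bound _ zero_le_one fun v => by rw [hρ, one_mul]

theorem dev_nonneg (g : G) : 0 ≤ dev ρ g := norm_nonneg _

theorem dev_one : dev ρ 1 = 0 := by simp [dev]

theorem eq_one_of_dev {g : G} (h : dev ρ g ≤ 0) : ρ g = 1 := by
  have := norm_le_zero_iff.1 h
  exact sub_eq_zero.1 this

theorem dev_mul_le (hρ : IsoRep ρ) (g h : G) : dev ρ (g * h) ≤ dev ρ g + dev ρ h := by
  have e : ρ (g * h) - 1 = (ρ g - 1) * ρ h + (ρ h - 1) := by
    rw [map_mul]; noncomm_ring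
  unfold dev
  rw [e]
  refine (norm_add_le _ _).trans (add_le_add_left ?_ _)
  refine (norm_mul_le _ _).trans ?_
  exact mul_le_of_le_one_right (norm_nonneg _) (hρ.norm_le h)

theorem dev_inv_le (hρ : IsoRep ρ) (g : G) : dev ρ g⁻¹ ≤ dev ρ g := by
  have e : ρ g⁻¹ - 1 = -(ρ g⁻¹ * (ρ g - 1)) := by
    rw [mul_sub, ← map_mul, inv_mul_cancel, map_one]; noncomm_ring
  unfold dev
  rw [e, norm_neg]
  refine (norm_mul_le _ _).trans ?_
  exact mul_le_of_le_one_left (norm_nonneg _) (hρ.norm_le _)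

theorem dev_comm_le (hρ : IsoRep ρ) (g h : G) :
    dev ρ (g * h * g⁻¹ * h⁻¹) ≤ 2 * dev ρ g * dev ρ h := by
  have e : ρ (g * h * g⁻¹ * h⁻¹) - 1 =
      ((ρ g - 1) * (ρ h - 1) - (ρ h - 1) * (ρ g - 1)) * ρ (g⁻¹ * h⁻¹) := by
    have h1 : ρ (g * h * g⁻¹ * h⁻¹) = ρ (g * h) * ρ (g⁻¹ * h⁻¹) := by
      rw [← map_mul]; congr 1; group
    have h2 : (1 : V →L[ℂ] V) = ρ (h * g) * ρ (g⁻¹ * h⁻¹) := by
      rw [← map_mul]
      have : h * g * (g⁻¹ * h⁻¹) = 1 := by group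
      rw [this, map_one]
    have h3 : (ρ g - 1) * (ρ h - 1) - (ρ h - 1) * (ρ g - 1) = ρ (g * h) - ρ (h * g) := by
      rw [map_mul, map_mul]; noncomm_ring
    rw [h3, sub_mul, ← h2, h1]
  unfold dev
  rw [e]
  refine (norm_mul_le _ _).trans ?_
  refine (mul_le_of_le_one_right (norm_nonneg _) (hρ.norm_le _)).trans ?_
  refine (norm_sub_le _ _).trans ?_
  have h1 := norm_mul_le (ρ g - 1) (ρ h - 1)
  have h2 := norm_mul_le (ρ h - 1) (ρ g - 1)
  linarith [mul_comm ‖ρ h - 1‖ ‖ρ g - 1‖]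

theorem dev_pow_aux (hρ : IsoRep ρ) (g : G) (b : ℕ) :
    ‖ρ (g ^ b) - 1 - (b : ℂ) • (ρ g - 1)‖ ≤ (b : ℝ) ^ 2 * dev ρ g ^ 2 := by
  induction b with
  | zero => simp
  | succ b ih =>
    have e : ρ (g ^ (b + 1)) - 1 - ((b + 1 : ℕ) : ℂ) • (ρ g - 1) =
        ρ g * (ρ (g ^ b) - 1 - (b : ℂ) • (ρ g - 1)) + (b : ℂ) • ((ρ g - 1) * (ρ g - 1)) := by
      rw [pow_succ', map_mul]
      push_cast
      simp only [mul_sub, sub_mul, add_smul, smul_sub, mul_smul_comm, one_smul, mul_one, one_mul]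
      abel
    rw [e]
    refine (norm_add_le _ _).trans ?_
    have h1 : ‖ρ g * (ρ (g ^ b) - 1 - (b : ℂ) • (ρ g - 1))‖ ≤ (b : ℝ) ^ 2 * dev ρ g ^ 2 := by
      refine (norm_mul_le _ _).trans ?_
      exact (mul_le_of_le_one_left (norm_nonneg _) (hρ.norm_le _)).trans ih
    have h2 : ‖(b : ℂ) • ((ρ g - 1) * (ρ g - 1))‖ ≤ b * dev ρ g ^ 2 := by
      rw [norm_smul, Complex.norm_natCast, sq]
      exact mul_le_mul_of_nonneg_left (norm_mul_le _ _) (Nat.cast_nonneg _)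
    have h3 : (0 : ℝ) ≤ b * dev ρ g ^ 2 := by positivity
    have h4 : (0 : ℝ) ≤ dev ρ g ^ 2 := by positivity
    push_cast
    nlinarith

theorem dev_pow_ge (hρ : IsoRep ρ) (g : G) (b : ℕ) :
    (b : ℝ) * dev ρ g - (b : ℝ) ^ 2 * dev ρ g ^ 2 ≤ dev ρ (g ^ b) := by
  have h := dev_pow_aux hρ g b
  have h2 : ‖(b : ℂ) • (ρ g - 1)‖ = b * dev ρ g := by
    rw [norm_smul, Complex.norm_natCast]; rfl
  have h3 : ‖(b : ℂ) • (ρ g - 1)‖ ≤ ‖ρ (g ^ b) - 1‖ +
      ‖ρ (g ^ b) - 1 - (b : ℂ) • (ρ g - 1)‖ := by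
    have := norm_sub_le (ρ (g ^ b) - 1) (ρ (g ^ b) - 1 - (b : ℂ) • (ρ g - 1))
    rwa [sub_sub_cancel] at this
  unfold dev at *
  linarith

theorem dev_pow_le (hρ : IsoRep ρ) (g : G) (b : ℕ) : dev ρ (g ^ b) ≤ b * dev ρ g := by
  induction b with
  | zero => simp [dev_one]
  | succ b ih =>
    rw [pow_succ]
    refine (dev_mul_le hρ _ _).trans ?_
    push_cast
    linarith

end Rep

end Vale.Agent.P188.H796
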