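import Vale.Agent.P188.Poly3
import Vale.Agent.P188.H796.Dev

/-!
P188, Gromov-lite: virtually polycyclic by cyclic is virtually polycyclic; Milnor's lemma.
-/

universe u v

open Pointwise

namespace Vale.Agent.P188.H796

variable {G : Type u} [Group G]

/-- `M` contains a polycyclic subgroup of finite index -/
def VPS (M : Subgroup G) : Prop := ∃ Q : Subgroup G, Q ≤ M ∧ PCS Q ∧ Q.relIndex M ≠ 0

theorem VPS.step {N M : Subgroup G} {t : G} (h : VPS N) (hs : CycStep N M t)
    (hN : Group.FG N) : VPS M := by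
  obtain ⟨Q, hQN, hQ, hind⟩ := h
  obtain ⟨E, hE, hEN, hcov⟩ := exists_cover_of_relIndex_ne_zero hind
  let α : N ≃* N :=
    { toFun := fun n => ⟨t⁻¹ * n * t, hs.conj' n n.2⟩
      invFun := fun n => ⟨t * n * t⁻¹, hs.conj n n.2⟩
      left_inv := fun n => Subtype.ext (by simp [mul_assoc])
      right_inv := fun n => Subtype.ext (by simp [mul_assoc])
      map_mul' := fun n n' => Subtype.ext (by simp [mul_assoc]) }
  have hQfi : (Q.subgroupOf N).FiniteIndex := ⟨hind⟩
  obtain ⟨k, hk0, hkp⟩ := exists_pow_preserves hN (Q.subgroupOf N) hQfi α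
  have hα : ∀ (k : ℕ) (x : N), (((α ^ k) x : N) : G) = (t ^ k)⁻¹ * x * t ^ k := by
    intro k
    induction k with
    | zero => intro x; simp
    | succ k ihk =>
      intro x
      rw [pow_succ, MulAut.mul_apply, ihk]
      show (t ^ k)⁻¹ * (t⁻¹ * x * t) * t ^ k = _
      have : t ^ (k + 1) = t * t ^ k := pow_succ' t k
      rw [this]; group
  have c2 : ∀ n ∈ Q, (t ^ k)⁻¹ * n * t ^ k ∈ Q := by
    intro n hn
    have := (hkp ⟨n, hQN hn⟩).2 hn
    rw [Subgroup.mem_subgroupOf, hα] at this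
    exact this
  have c1 : ∀ n ∈ Q, t ^ k * n * (t ^ k)⁻¹ ∈ Q := by
    intro n hn
    have hmem : t ^ k * n * (t ^ k)⁻¹ ∈ N := by
      have := conj_zpow hs.conj hs.conj' (k : ℤ) n (hQN hn)
      simpa using this
    have := (hkp ⟨_, hmem⟩).1 (by
      rw [Subgroup.mem_subgroupOf, hα]
      simpa [mul_assoc] using hn)
    exact this
  have hst := adjoinCyc_step Q (t ^ k) c1 c2
  refine ⟨adjoinCyc Q (t ^ k) c1 c2, ?_, .step hQ hst, ?_⟩
  · rintro x ⟨b, hb⟩
    have : x = (t ^ k) ^ b * (((t ^ k) ^ b)⁻¹ * x) := by group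
    rw [this]
    exact M.mul_mem (M.zpow_mem (M.pow_mem hs.mem _) _) (hs.le (hQN hb))
  · refine relIndex_ne_zero_of_cover
      (E := Set.image2 (fun (r : ℤ) (e : G) => t ^ r * e) (Set.Ico 0 |(k : ℤ)|) E)
      (Set.Finite.image2 _ (Set.finite_Ico _ _) hE) ?_
    intro g hg
    obtain ⟨b, hb⟩ := hs.dec g hg
    have hk0' : (k : ℤ) ≠ 0 := by omega
    have e1 : t ^ b = t ^ (b % (k : ℤ)) * (t ^ k) ^ (b / (k : ℤ)) := by
      rw [← zpow_natCast t k, ← zpow_mul, ← zpow_add, Int.emod_add_mul_ediv]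
    have hn : (t ^ k) ^ (b / (k : ℤ)) * ((t ^ b)⁻¹ * g) * ((t ^ k) ^ (b / (k : ℤ)))⁻¹ ∈ N := by
      have := conj_zpow hs.conj hs.conj' ((k : ℤ) * (b / (k : ℤ))) _ hb
      rwa [zpow_mul, zpow_natCast] at this
    obtain ⟨e, he, heq⟩ := hcov _ hn
    refine ⟨t ^ (b % (k : ℤ)) * e, Set.mem_image2_of_mem ⟨Int.emod_nonneg _ hk0',
      Int.emod_lt_abs _ hk0'⟩ he, ?_⟩
    have e2 : (t ^ (b % (k : ℤ)) * e)⁻¹ * g
        = (e⁻¹ * ((t ^ k) ^ (b / (k : ℤ)) * ((t ^ b)⁻¹ * g) *
          ((t ^ k) ^ (b / (k : ℤ)))⁻¹)) * (t ^ k) ^ (b / (k : ℤ)) := by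
      rw [e1]; group
    rw [e2]
    exact Subgroup.mul_mem _ (hst.le heq) (Subgroup.zpow_mem _ hst.mem _)

/-- conjugates of `e` by the powers of `t` -/
def cjE (t e : G) (i : ℕ) : G := t ^ i * e * (t ^ i)⁻¹

theorem cjE_succ (t e : G) (i : ℕ) : cjE t e (i + 1) = t * cjE t e i * t⁻¹ := by
  unfold cjE
  rw [pow_succ']
  group

/-- `e_0 ^ ε_0 ⋯ e_(m-1) ^ ε_(m-1)` -/
def cw (t e : G) (ε : ℕ → Bool) : ℕ → G
  | 0 => 1
  | m + 1 => cw t e ε m * (if ε m then cjE t e m else 1)

theorem cw_mem (t e : G) (ε : ℕ → Bool) (m : ℕ) :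
    cw t e ε m ∈ Subgroup.closure (cjE t e '' Set.Iio m) := by
  induction m with
  | zero => exact Subgroup.one_mem _
  | succ m ih =>
    rw [cw]
    refine Subgroup.mul_mem _ (Subgroup.closure_mono (Set.image_mono
      (Set.Iio_subset_Iio (Nat.le_succ m))) ih) ?_
    split_ifs
    · exact Subgroup.subset_closure ⟨m, Set.mem_Iio.2 (Nat.lt_succ_self m), rfl⟩
    · exact Subgroup.one_mem _

theorem cw_word (t e : G) (ε : ℕ → Bool) (m : ℕ) :
    cw t e ε m * t ^ m ∈ ({1, t, e * t, t⁻¹} : Set G) ^ m := by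
  induction m with
  | zero => simp [cw]
  | succ m ih =>
    have e1 : cw t e ε (m + 1) * t ^ (m + 1) =
        (cw t e ε m * t ^ m) * (if ε m then e * t else t) := by
      rw [cw]
      split_ifs
      · unfold cjE
        rw [pow_succ]
        group
      · rw [pow_succ]
        group
    rw [e1, pow_succ]
    refine Set.mul_mem_mul ih ?_
    split_ifs <;> simp

theorem cw_congr (t e : G) {ε ε' : ℕ → Bool} {m : ℕ} (h : ∀ i < m, ε i = ε' i) :
    cw t e ε m = cw t e ε' m := by
  induction m with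
  | zero => rfl
  | succ m ih =>
    rw [cw, cw, ih fun i hi => h i (by omega), h m (by omega)]

theorem cw_extract (t e : G) {ε ε' : ℕ → Bool} {m : ℕ} (hne : ∃ i < m, ε i ≠ ε' i)
    (heq : cw t e ε m = cw t e ε' m) :
    ∃ j < m, cjE t e j ∈ Subgroup.closure (cjE t e '' Set.Iio j) := by
  induction m with
  | zero =>
    obtain ⟨i, hi, -⟩ := hne
    omega
  | succ m ih =>
    rw [cw, cw] at heq
    by_cases hm : ε m = ε' m
    · rw [hm, mul_left_inj] at heq
      obtain ⟨i, hi, hi'⟩ := hne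
      have him : i ≠ m := by
        rintro rfl
        exact hi' hm
      obtain ⟨j, hj, hj'⟩ := ih ⟨i, by omega, hi'⟩ heq
      exact ⟨j, by omega, hj'⟩
    · refine ⟨m, by omega, ?_⟩
      have h1 := cw_mem t e ε m
      have h2 := cw_mem t e ε' m
      cases h3 : ε m <;> cases h4 : ε' m
      · exact absurd (h3.trans h4.symm) hm
      · rw [h3, h4] at heq
        simp only [Bool.false_eq_true, if_false, mul_one, if_true] at heq
        have : cjE t e m = (cw t e ε' m)⁻¹ * cw t e ε m := by rw [heq]; group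
        rw [this]
        exact Subgroup.mul_mem _ (Subgroup.inv_mem _ h2) h1
      · rw [h3, h4] at heq
        simp only [Bool.false_eq_true, if_false, mul_one, if_true] at heq
        have : cjE t e m = (cw t e ε m)⁻¹ * cw t e ε' m := by rw [← heq]; group
        rw [this]
        exact Subgroup.mul_mem _ (Subgroup.inv_mem _ h1) h2
      · exact absurd (h3.trans h4.symm) hm

theorem milnor_one {D : ℕ} (hG : GrowthLE G D) (t e : G) :
    ∃ j, ∀ k, cjE t e k ∈ Subgroup.closure (cjE t e '' Set.Iio j) := by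
  obtain ⟨C, hC⟩ := hG {1, t, e * t, t⁻¹} (by simp)
  have hex : ∃ m : ℕ, C * (m + 1) ^ D < 2 ^ m := by
    by_contra hcon
    push Not at hcon
    have h1 : Filter.Tendsto (fun m : ℕ => ((m : ℝ) ^ D * (1 / 2 : ℝ) ^ m)) Filter.atTop
        (nhds 0) := tendsto_pow_const_mul_const_pow_of_lt_one D (by norm_num) (by norm_num)
    have h2 := h1.const_mul (C * 2 ^ D : ℝ)
    rw [mul_zero] at h2
    have h3 : ∀ᶠ m : ℕ in Filter.atTop, (1 : ℝ) ≤ C * 2 ^ D * ((m : ℝ) ^ D * (1 / 2) ^ m) := by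
      filter_upwards [Filter.eventually_ge_atTop 1] with m hm
      have h4 : (2 : ℝ) ^ m ≤ C * ((m : ℝ) + 1) ^ D := by exact_mod_cast hcon m
      have hm' : (1 : ℝ) ≤ m := by exact_mod_cast hm
      have h5 : ((m : ℝ) + 1) ^ D ≤ 2 ^ D * (m : ℝ) ^ D := by
        rw [← mul_pow]
        exact pow_le_pow_left₀ (by positivity) (by linarith) _
      have h6 : (2 : ℝ) ^ m ≤ C * (2 ^ D * (m : ℝ) ^ D) :=
        h4.trans (mul_le_mul_of_nonneg_left h5 (by positivity))
      have h7 : (2 : ℝ) ^ m * (1 / 2) ^ m = 1 := by rw [← mul_pow]; norm_num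
      calc (1 : ℝ) = (2 : ℝ) ^ m * (1 / 2) ^ m := h7.symm
        _ ≤ C * (2 ^ D * (m : ℝ) ^ D) * (1 / 2) ^ m :=
          mul_le_mul_of_nonneg_right h6 (by positivity)
        _ = _ := by ring
    have h4 := ge_of_tendsto h2 h3
    linarith
  obtain ⟨m, hm⟩ := hex
  -- two different words with the same value
  obtain ⟨F, hF⟩ : ∃ F : (Fin m → Bool) → G,
      F = fun v => cw t e (fun i => if h : i < m then v ⟨i, h⟩ else false) m * t ^ m := ⟨_, rfl⟩
  have hnot : ¬ Function.Injective F := by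
    intro hinj
    have h1 : (Set.range F).ncard = 2 ^ m := by
      rw [← Set.image_univ, Set.ncard_image_of_injective _ hinj, Set.ncard_univ,
        Nat.card_eq_fintype_card]
      simp
    have h2 : (Set.range F).ncard ≤ (({1, t, e * t, t⁻¹} : Set G) ^ m).ncard := by
      refine Set.ncard_le_ncard ?_ (finite_pow (by simp) m)
      rintro _ ⟨v, rfl⟩
      rw [hF]
      exact cw_word t e _ m
    have h3 := h2.trans (hC m)
    omega
  unfold Function.Injective at hnot
  push Not at hnot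
  obtain ⟨v, v', hvv, hne⟩ := hnot
  rw [hF] at hvv
  simp only [mul_left_inj] at hvv
  obtain ⟨j, hj, hmem⟩ := cw_extract t e (by
    by_contra hcon
    push Not at hcon
    refine hne (funext fun i => ?_)
    have := hcon i i.2
    simpa using this) hvv
  refine ⟨j, fun k => ?_⟩
  rcases lt_or_ge k j with hk | hk
  · exact Subgroup.subset_closure ⟨k, hk, rfl⟩
  · induction k, hk using Nat.le_induction with
    | base => exact hmem
    | succ k hk ih =>
      rw [cjE_succ]
      have h1 : ∀ x ∈ Subgroup.closure (cjE t e '' Set.Iio j),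
          t * x * t⁻¹ ∈ Subgroup.closure (cjE t e '' Set.Iio j) := by
        intro x hx
        induction hx using Subgroup.closure_induction with
        | mem x hx =>
          obtain ⟨i, hi, rfl⟩ := hx
          rw [← cjE_succ]
          rcases (Nat.succ_le_of_lt (Set.mem_Iio.1 hi)).eq_or_lt with h | h
          · have : i + 1 = j := h
            rw [this]
            exact hmem
          · exact Subgroup.subset_closure ⟨i + 1, h, rfl⟩
        | one => simp
        | mul x y _ _ hx hy =>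
          have : t * (x * y) * t⁻¹ = (t * x * t⁻¹) * (t * y * t⁻¹) := by group
          rw [this]
          exact Subgroup.mul_mem _ hx hy
        | inv x _ hx =>
          have : t * x⁻¹ * t⁻¹ = (t * x * t⁻¹)⁻¹ := by group
          rw [this]
          exact Subgroup.inv_mem _ hx
      exact h1 _ ih

/-- all conjugates by powers of `t` lie in a finitely generated subgroup -/
theorem milnor_two {D : ℕ} (hG : GrowthLE G D) (t e : G) :
    ∃ T : Finset G, (∀ x ∈ T, ∃ k : ℤ, x = t ^ k * e * (t ^ k)⁻¹) ∧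
      ∀ k : ℤ, t ^ k * e * (t ^ k)⁻¹ ∈ Subgroup.closure (T : Set G) := by
  classical
  obtain ⟨j, hj⟩ := milnor_one hG t e
  obtain ⟨j', hj'⟩ := milnor_one hG t⁻¹ e
  refine ⟨(Finset.range j).image (cjE t e) ∪ (Finset.range j').image (cjE t⁻¹ e), ?_, ?_⟩
  · intro x hx
    rw [Finset.mem_union, Finset.mem_image, Finset.mem_image] at hx
    rcases hx with ⟨i, -, rfl⟩ | ⟨i, -, rfl⟩
    · exact ⟨i, by rw [zpow_natCast]; rfl⟩
    · refine ⟨-i, ?_⟩
      unfold cjE
      rw [zpow_neg, zpow_natCast, inv_pow]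
  · intro k
    rcases Int.eq_nat_or_neg k with ⟨n, rfl | rfl⟩
    · have h1 := hj n
      rw [zpow_natCast]
      refine Subgroup.closure_mono ?_ h1
      rintro _ ⟨i, hi, rfl⟩
      refine Finset.mem_coe.2 (Finset.mem_union_left _ (Finset.mem_image_of_mem _ ?_))
      exact Finset.mem_range.2 hi
    · have h1 := hj' n
      have e1 : t ^ (-(n : ℤ)) * e * (t ^ (-(n : ℤ)))⁻¹ = cjE t⁻¹ e n := by
        unfold cjE
        rw [zpow_neg, zpow_natCast, inv_pow]
      rw [e1]
      refine Subgroup.closure_mono ?_ h1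
      rintro _ ⟨i, hi, rfl⟩
      refine Finset.mem_coe.2 (Finset.mem_union_right _ (Finset.mem_image_of_mem _ ?_))
      exact Finset.mem_range.2 hi

end Vale.Agent.P188.H796
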