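import Vale.Agent.P188.H796.UBase

/-!
P188, Gromov-lite: a finitely generated group of polynomial growth has virtually abelian image in
every finite-dimensional isometric (unitary) representation.
-/

open Pointwise

namespace Vale.Agent.P188.H796

universe u v

section Rep

variable {G : Type u} [Group G] {V : Type v} [NormedAddCommGroup V] [InnerProductSpace ℂ V]
variable {ρ : G →* (V →L[ℂ] V)}

/-- the trace of an operator of distance less than one from the identity does not vanish -/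
theorem trace_ne_zero [FiniteDimensional ℂ V] [Nontrivial V] {A : V →L[ℂ] V}
    (hA : ‖A - 1‖ < 1) : LinearMap.trace ℂ V A ≠ 0 := by
  intro h0
  have hb := stdOrthonormalBasis ℂ V
  have e := LinearMap.trace_eq_sum_inner ((A - 1 : V →L[ℂ] V) : V →ₗ[ℂ] V) (stdOrthonormalBasis ℂ V)
  have e1 : LinearMap.trace ℂ V ((A - 1 : V →L[ℂ] V) : V →ₗ[ℂ] V) =
      -(Module.finrank ℂ V : ℂ) := by
    have : ((A - 1 : V →L[ℂ] V) : V →ₗ[ℂ] V) = (A : V →ₗ[ℂ] V) - 1 := rfl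
    rw [this, map_sub, h0, LinearMap.trace_one, zero_sub]
  rw [e1] at e
  have hn : 0 < Module.finrank ℂ V := Module.finrank_pos
  have h1 : (Module.finrank ℂ V : ℝ) = ‖∑ i, inner ℂ ((stdOrthonormalBasis ℂ V) i)
      (((A - 1 : V →L[ℂ] V) : V →ₗ[ℂ] V) ((stdOrthonormalBasis ℂ V) i))‖ := by
    rw [← e, norm_neg, Complex.norm_natCast]
  have h2 : ∀ i, ‖inner ℂ ((stdOrthonormalBasis ℂ V) i)
      (((A - 1 : V →L[ℂ] V) : V →ₗ[ℂ] V) ((stdOrthonormalBasis ℂ V) i))‖ ≤ ‖A - 1‖ := by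
    intro i
    refine (norm_inner_le_norm _ _).trans ?_
    rw [(stdOrthonormalBasis ℂ V).norm_eq_one, one_mul]
    refine ((A - 1).le_opNorm _).trans ?_
    rw [(stdOrthonormalBasis ℂ V).norm_eq_one, mul_one]
  have h3 : (Module.finrank ℂ V : ℝ) ≤ Module.finrank ℂ V * ‖A - 1‖ := by
    rw [h1]
    refine (norm_sum_le _ _).trans ?_
    refine (Finset.sum_le_sum fun i _ => h2 i).trans ?_
    rw [Finset.sum_const, nsmul_eq_mul, ← h1, Finset.card_univ, Fintype.card_fin]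
  have h4 : (0 : ℝ) < Module.finrank ℂ V := by exact_mod_cast hn
  nlinarith

theorem noncentral_gen {S : Set G} {h : G} {y : G} (hy : y ∈ Subgroup.closure S)
    (hne : ρ h * ρ y ≠ ρ y * ρ h) : ∃ s ∈ S, ρ h * ρ s ≠ ρ s * ρ h := by
  by_contra hcon
  push Not at hcon
  refine hne ?_
  induction hy using Subgroup.closure_induction with
  | mem s hs => exact hcon s hs
  | one => simp
  | mul a b _ _ ha hb =>
    by_cases h1 : ρ h * ρ a = ρ a * ρ h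
    · by_cases h2 : ρ h * ρ b = ρ b * ρ h
      · rw [map_mul, ← mul_assoc, h1, mul_assoc, h2, mul_assoc]
      · exact absurd (hb h2) h2
    · exact absurd (ha h1) h1
  | inv a _ ha =>
    by_cases h1 : ρ h * ρ a = ρ a * ρ h
    · have e1 : ρ a * ρ a⁻¹ = 1 := by rw [← map_mul, mul_inv_cancel, map_one]
      have e2 : ρ a⁻¹ * ρ a = 1 := by rw [← map_mul, inv_mul_cancel, map_one]
      calc ρ h * ρ a⁻¹ = ρ a⁻¹ * ρ a * ρ h * ρ a⁻¹ := by rw [e2, one_mul]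
        _ = ρ a⁻¹ * (ρ h * ρ a) * ρ a⁻¹ := by rw [h1]; noncomm_ring
        _ = ρ a⁻¹ * ρ h * (ρ a * ρ a⁻¹) := by noncomm_ring
        _ = ρ a⁻¹ * ρ h := by rw [e1, mul_one]
    · exact absurd (ha h1) h1

/-- the commutator step -/
theorem comm_step [FiniteDimensional ℂ V] (hρ : IsoRep ρ) {K : Subgroup G}
    (hC : ∀ z ∈ K, (∀ y ∈ K, ρ z * ρ y = ρ y * ρ z) → ∃ c : ℂ, ρ z = c • 1) {h s : G}
    (hs : s ∈ K) (hh : h ∈ K) (hds : dev ρ s < 1) (hne : ρ h * ρ s ≠ ρ s * ρ h) :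
    ∃ y ∈ K, ρ (h * s * h⁻¹ * s⁻¹) * ρ y ≠ ρ y * ρ (h * s * h⁻¹ * s⁻¹) := by
  by_contra hcon
  push Not at hcon
  have hK : h * s * h⁻¹ * s⁻¹ ∈ K :=
    K.mul_mem (K.mul_mem (K.mul_mem hh hs) (K.inv_mem hh)) (K.inv_mem hs)
  obtain ⟨c, hc⟩ := hC _ hK hcon
  have hV : Nontrivial V := by
    by_contra hV
    rw [not_nontrivial_iff_subsingleton] at hV
    exact hne (by ext v; exact Subsingleton.elim _ _)
  have e1 : ρ h * ρ s * ρ h⁻¹ = c • ρ s := by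
    have : h * s * h⁻¹ = h * s * h⁻¹ * s⁻¹ * s := by group
    rw [← map_mul, ← map_mul, this, map_mul, hc, smul_mul_assoc, one_mul]
  have e2 : LinearMap.trace ℂ V (ρ h * ρ s * ρ h⁻¹ : V →L[ℂ] V) = LinearMap.trace ℂ V (ρ s) := by
    have a1 : ((ρ h * ρ s * ρ h⁻¹ : V →L[ℂ] V) : V →ₗ[ℂ] V) =
        ((ρ h : V →L[ℂ] V) : V →ₗ[ℂ] V) * ((ρ s * ρ h⁻¹ : V →L[ℂ] V) : V →ₗ[ℂ] V) := by
      rw [mul_assoc]; rfl
    have a2 : ((ρ s * ρ h⁻¹ : V →L[ℂ] V) : V →ₗ[ℂ] V) * ((ρ h : V →L[ℂ] V) : V →ₗ[ℂ] V) =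
        ((ρ s * (ρ h⁻¹ * ρ h) : V →L[ℂ] V) : V →ₗ[ℂ] V) := rfl
    rw [a1, LinearMap.trace_mul_comm, a2, ← map_mul ρ h⁻¹ h, inv_mul_cancel, map_one, mul_one]
  have e3 : LinearMap.trace ℂ V ((c • ρ s : V →L[ℂ] V) : V →ₗ[ℂ] V) =
      c * LinearMap.trace ℂ V (ρ s) := by
    have : ((c • ρ s : V →L[ℂ] V) : V →ₗ[ℂ] V) = c • ((ρ s : V →L[ℂ] V) : V →ₗ[ℂ] V) := rfl
    rw [this, map_smul, smul_eq_mul]
  rw [e1, e3] at e2
  have h0 := trace_ne_zero hds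
  have hc1 : c = 1 := by
    have : c * LinearMap.trace ℂ V (ρ s) = 1 * LinearMap.trace ℂ V (ρ s) := by rw [e2, one_mul]
    exact mul_right_cancel₀ h0 this
  refine hne ?_
  have e4 : ρ h⁻¹ * ρ h = 1 := by rw [← map_mul, inv_mul_cancel, map_one]
  calc ρ h * ρ s = ρ h * ρ s * (ρ h⁻¹ * ρ h) := by rw [e4, mul_one]
    _ = (ρ h * ρ s * ρ h⁻¹) * ρ h := by noncomm_ring
    _ = ρ s * ρ h := by rw [e1, hc1, one_smul]

end Rep

/-- the case where the central elements of the group generated near the identity are scalars -/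
theorem comm_of_scalar {G : Type u} [Group G] {D : ℕ} (hG : GrowthLE G D)
    {V : Type v} [NormedAddCommGroup V] [InnerProductSpace ℂ V] [FiniteDimensional ℂ V]
    {ρ : G →* (V →L[ℂ] V)} (hρ : IsoRep ρ) {S : Set G} (hS : S.Finite) {K : Subgroup G}
    (hSK : Subgroup.closure S = K) (hSd : ∀ s ∈ S, 16 * (2 * 4 ^ D : ℕ) * dev ρ s < 1)
    (hC : ∀ z ∈ K, (∀ y ∈ K, ρ z * ρ y = ρ y * ρ z) → ∃ c : ℂ, ρ z = c • 1) :
    ∀ x ∈ K, ∀ y ∈ K, ρ x * ρ y = ρ y * ρ x := by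
  classical
  by_contra hcon
  push Not at hcon
  obtain ⟨x, hx, y, hy, hxy⟩ := hcon
  obtain ⟨M, hM⟩ : ∃ M : ℝ, M = (2 * 4 ^ D : ℕ) := ⟨_, rfl⟩
  have hM1 : 1 ≤ M := by
    rw [hM]
    have : 1 ≤ 2 * 4 ^ D := by
      have : 0 < 4 ^ D := by positivity
      omega
    exact_mod_cast this
  rw [← hM] at hSd
  have hSK' : ∀ s ∈ S, s ∈ K := fun s hs => hSK ▸ Subgroup.subset_closure hs
  have hd1 : ∀ s ∈ S, dev ρ s < 1 := fun s hs => by
    have h1 := hSd s hs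
    have h2 := dev_nonneg (ρ := ρ) s
    nlinarith
  -- a noncentral generator
  obtain ⟨s₀, hs₀, hne₀⟩ : ∃ s ∈ S, ρ x * ρ s ≠ ρ s * ρ x :=
    noncentral_gen (hSK ▸ hy) hxy
  let X := {h : G // h ∈ K ∧ (∃ y ∈ K, ρ h * ρ y ≠ ρ y * ρ h) ∧ 16 * M * dev ρ h ≤ 1}
  have hnext : ∀ h : X, ∃ h' : X, ∃ s ∈ S, (h' : G) = h * s * (h : G)⁻¹ * s⁻¹ := by
    rintro ⟨h, hh, ⟨y, hy, hne⟩, hd⟩
    obtain ⟨s, hs, hns⟩ := noncentral_gen (hSK ▸ hy) hne
    have h1 := dev_comm_le hρ h s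
    have h2 := hSd s hs
    have h3 := dev_nonneg (ρ := ρ) h
    have h4 := dev_nonneg (ρ := ρ) s
    refine ⟨⟨h * s * h⁻¹ * s⁻¹, K.mul_mem (K.mul_mem (K.mul_mem hh (hSK' s hs)) (K.inv_mem hh))
      (K.inv_mem (hSK' s hs)), comm_step hρ hC (hSK' s hs) hh (hd1 s hs) hns, ?_⟩, s, hs, rfl⟩
    have h5 : 2 * dev ρ h * dev ρ s ≤ dev ρ h := by
      have : 2 * dev ρ s ≤ 1 := by nlinarith
      nlinarith
    have h6 : dev ρ (h * s * h⁻¹ * s⁻¹) ≤ dev ρ h := h1.trans h5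
    refine le_trans ?_ hd
    exact mul_le_mul_of_nonneg_left h6 (by linarith)
  choose nx hnx using hnext
  have hx₀ : 16 * M * dev ρ s₀ ≤ 1 := (hSd s₀ hs₀).le
  let x₀ : X := ⟨s₀, hSK' s₀ hs₀, ⟨x, hx, fun h => hne₀ h.symm⟩, hx₀⟩
  let h : ℕ → G := fun k => (nx^[k] x₀ : X)
  have hsucc : ∀ k, ∃ s ∈ S, h (k + 1) = h k * s * (h k)⁻¹ * s⁻¹ := by
    intro k
    have := hnx (nx^[k] x₀)
    show ∃ s ∈ S, ((nx^[k + 1] x₀ : X) : G) = _
    rw [Function.iterate_succ_apply']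
    exact this
  let U : Set G := insert 1 (S ∪ S⁻¹)
  have hU : U.Finite := (hS.union hS.inv).insert 1
  have h1U : (1 : G) ∈ U := Set.mem_insert _ _
  have hUinv : U⁻¹ = U := by
    ext g
    simp only [U, Set.mem_inv, Set.mem_insert_iff, Set.mem_union, inv_eq_one, inv_inv]
    tauto
  have hL : ∀ k, h k ∈ U ^ 4 ^ k := by
    intro k
    induction k with
    | zero =>
      rw [pow_zero, pow_one]
      exact Set.mem_insert_of_mem _ (Or.inl hs₀)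
    | succ k ih =>
      obtain ⟨s, hs, e⟩ := hsucc k
      rw [e]
      have a1 : (h k)⁻¹ ∈ U ^ 4 ^ k := by
        have : (h k)⁻¹ ∈ (U ^ 4 ^ k)⁻¹ := Set.inv_mem_inv.2 ih
        rwa [← inv_pow, hUinv] at this
      have a2 : s ∈ U ^ 1 := by rw [pow_one]; exact Set.mem_insert_of_mem _ (Or.inl hs)
      have a3 : s⁻¹ ∈ U ^ 1 := by
        rw [pow_one]; exact Set.mem_insert_of_mem _ (Or.inr (Set.inv_mem_inv.2 hs))
      have a4 : h k * s * (h k)⁻¹ * s⁻¹ ∈ U ^ (4 ^ k + 1 + 4 ^ k + 1) := by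
        rw [pow_add, pow_add, pow_add]
        exact Set.mul_mem_mul (Set.mul_mem_mul (Set.mul_mem_mul ih a2) a1) a3
      refine Set.pow_subset_pow_right h1U ?_ a4
      have : 0 < 4 ^ k := by positivity
      rw [pow_succ]
      omega
  refine no_seq hG hρ hU h1U hL (fun k => ?_) (fun k => ?_) (fun k => ?_)
  · by_contra hle
    have h1 := eq_one_of_dev (not_lt.1 hle)
    obtain ⟨y, _, hne⟩ := (nx^[k] x₀).2.2.1
    refine hne ?_
    have h2 : ρ ((nx^[k] x₀ : X) : G) = 1 := h1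
    rw [h2, one_mul, mul_one]
  · rw [← hM]
    exact (nx^[k] x₀).2.2.2
  · rw [← hM]
    obtain ⟨s, hs, e⟩ := hsucc k
    rw [e]
    have h1 := dev_comm_le hρ (h k) s
    have h2 := hSd s hs
    have h3 := dev_nonneg (ρ := ρ) (h k)
    calc 8 * M * dev ρ (h k * s * (h k)⁻¹ * s⁻¹) ≤ 8 * M * (2 * dev ρ (h k) * dev ρ s) :=
          mul_le_mul_of_nonneg_left h1 (by linarith)
      _ = (16 * M * dev ρ s) * dev ρ (h k) := by ring
      _ ≤ 1 * dev ρ (h k) := mul_le_mul_of_nonneg_right h2.le h3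
      _ = dev ρ (h k) := one_mul _

/-- A finitely generated group of polynomial growth has virtually abelian image in every
finite-dimensional isometric representation. -/
theorem virtAbelian (D : ℕ) : ∀ (n : ℕ) (G : Type u) [Group G] [Group.FG G], GrowthLE G D →
    ∀ (V : Type v) [NormedAddCommGroup V] [InnerProductSpace ℂ V] [FiniteDimensional ℂ V],
      Module.finrank ℂ V = n → ∀ ρ : G →* (V →L[ℂ] V), IsoRep ρ →
      ∃ N : Subgroup G, N.FiniteIndex ∧ ∀ x ∈ N, ∀ y ∈ N, ρ x * ρ y = ρ y * ρ x := by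
  intro n
  induction n using Nat.strong_induction_on with
  | _ n ih =>
  intro G _ _ hG V _ _ _ hn ρ hρ
  obtain ⟨ε, hε⟩ : ∃ ε : ℝ, ε = 1 / (16 * (2 * 4 ^ D : ℕ)) := ⟨_, rfl⟩
  have hM1 : (0 : ℝ) < (2 * 4 ^ D : ℕ) := by
    have : 0 < 2 * 4 ^ D := by positivity
    exact_mod_cast this
  have hε0 : 0 < ε := by rw [hε]; positivity
  obtain ⟨K, hK⟩ : ∃ K, K = Subgroup.closure {g | dev ρ g < ε} := ⟨_, rfl⟩
  have hKi : K.FiniteIndex := hK ▸ finiteIndex_near hρ hε0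
  have hKfg : Group.FG K := Subgroup.fg_of_index_ne_zero K
  have hKfg' : (Subgroup.closure {g | dev ρ g < ε}).FG := by
    rw [← hK]
    exact (Group.fg_iff_subgroup_fg K).1 hKfg
  obtain ⟨S, hSf, hST, hSK⟩ := exists_finite_closure hKfg'
  rw [← hK] at hSK
  have hSd : ∀ s ∈ S, 16 * (2 * 4 ^ D : ℕ) * dev ρ s < 1 := fun s hs => by
    have h1 : dev ρ s < ε := hST hs
    rw [hε, lt_div_iff₀ (by positivity)] at h1
    linarith
  by_cases hC : ∀ z ∈ K, (∀ y ∈ K, ρ z * ρ y = ρ y * ρ z) → ∃ c : ℂ, ρ z = c • 1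
  · exact ⟨K, hKi, comm_of_scalar hG hρ hSf hSK hSd hC⟩
  · push Not at hC
    obtain ⟨z, hz, hzc, hzs⟩ := hC
    have hV : Nontrivial V := by
      by_contra hV
      rw [not_nontrivial_iff_subsingleton] at hV
      exact hzs 0 (by ext v; exact Subsingleton.elim _ _)
    obtain ⟨μ, hμ⟩ := Module.End.exists_eigenvalue ((ρ z : V →L[ℂ] V) : Module.End ℂ V)
    obtain ⟨E, hE⟩ : ∃ E, E = Module.End.eigenspace ((ρ z : V →L[ℂ] V) : Module.End ℂ V) μ :=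
      ⟨_, rfl⟩
    have hmem : ∀ v, v ∈ E ↔ ρ z v = μ • v := fun v => by
      rw [hE, Module.End.mem_eigenspace_iff]; rfl
    have hEbot : E ≠ ⊥ := hE ▸ hμ
    have hEtop : E ≠ ⊤ := by
      intro htop
      refine hzs μ ?_
      ext v
      have : v ∈ E := by rw [htop]; trivial
      exact (hmem v).1 this
    have hEi : ∀ y ∈ K, ∀ w ∈ E, ρ y w ∈ E := by
      intro y hy w hw
      rw [hmem] at hw ⊢
      have h1 : (ρ z * ρ y) w = (ρ y * ρ z) w := by rw [hzc y hy]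
      have h2 : ρ z (ρ y w) = ρ y (ρ z w) := h1
      rw [h2, hw, map_smul]
    have hEo := hρ.orth K E hEi
    have hr1 : Module.finrank ℂ E < n := by
      rw [← hn]
      exact Submodule.finrank_lt hEtop
    have hr2 : Module.finrank ℂ Eᗮ < n := by
      rw [← hn]
      refine Submodule.finrank_lt fun htop => hEbot ?_
      rwa [Submodule.orthogonal_eq_top_iff] at htop
    obtain ⟨N₁, hN₁, hc₁⟩ := ih _ hr1 K (hG.subgroup K) E rfl (subRep ρ K E hEi)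
      (subRep_isoRep hρ K E hEi)
    obtain ⟨N₂, hN₂, hc₂⟩ := ih _ hr2 K (hG.subgroup K) Eᗮ rfl (subRep ρ K Eᗮ hEo)
      (subRep_isoRep hρ K Eᗮ hEo)
    refine ⟨(N₁ ⊓ N₂).map K.subtype, ⟨?_⟩, ?_⟩
    · rw [Subgroup.index_map_subtype]
      exact mul_ne_zero (Subgroup.FiniteIndex.index_ne_zero (H := N₁ ⊓ N₂)) hKi.index_ne_zero
    · rintro _ ⟨x, hx, rfl⟩ _ ⟨y, hy, rfl⟩
      ext v
      obtain ⟨a, ha, b, hb, rfl⟩ := E.exists_add_mem_mem_orthogonal v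
      have h1 := congrArg (fun A : E →L[ℂ] E => ((A ⟨a, ha⟩ : E) : V)) (hc₁ x hx.1 y hy.1)
      have h2 := congrArg (fun A : Eᗮ →L[ℂ] Eᗮ => ((A ⟨b, hb⟩ : Eᗮ) : V)) (hc₂ x hx.2 y hy.2)
      have h3 : ρ x (ρ y a) = ρ y (ρ x a) := h1
      have h4 : ρ x (ρ y b) = ρ y (ρ x b) := h2
      show ρ x (ρ y (a + b)) = ρ y (ρ x (a + b))
      rw [map_add, map_add, map_add, map_add, h3, h4]

end Vale.Agent.P188.H796
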