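import Vale.Agent.P188.H796.HarmEx
import Vale.Agent.P188.H796.Unitary
import Vale.Agent.P188.SG.FD

/-!
P188, Gromov-lite: real representations; from a harmonic cocycle to a finite-dimensional one.
-/

universe u v

open Filter Topology Pointwise

namespace Vale.Agent.P188.H796

open Vale.Agent.P188.SG

theorem real_virtAbelian {D : ℕ} {G : Type u} [Group G] [Group.FG G] (hG : GrowthLE G D)
    {W : Type v} [NormedAddCommGroup W] [InnerProductSpace ℝ W] [FiniteDimensional ℝ W]
    (σ : G →* (W ≃ₗᵢ[ℝ] W)) :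
    ∃ N : Subgroup G, N.FiniteIndex ∧ ∀ x ∈ N, ∀ y ∈ N, σ x * σ y = σ y * σ x := by
  classical
  let bs := stdOrthonormalBasis ℝ W
  let L : G →* (W →ₗ[ℝ] W) :=
    { toFun := fun g => (σ g).toLinearEquiv.toLinearMap
      map_one' := by rw [map_one]; rfl
      map_mul' := fun g h => by rw [map_mul]; rfl }
  let A : G →* Matrix (Fin (Module.finrank ℝ W)) (Fin (Module.finrank ℝ W)) ℝ :=
    ((LinearMap.toMatrixOrthonormal bs : (W →ₗ[ℝ] W) ≃⋆ₐ[ℝ] _) : (W →ₗ[ℝ] W) →* _).comp L
  let B : G →* Matrix (Fin (Module.finrank ℝ W)) (Fin (Module.finrank ℝ W)) ℂ :=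
    (RingHom.mapMatrix (m := Fin (Module.finrank ℝ W)) (algebraMap ℝ ℂ)).toMonoidHom.comp A
  let ρ : G →* (EuclideanSpace ℂ (Fin (Module.finrank ℝ W)) →L[ℂ]
      EuclideanSpace ℂ (Fin (Module.finrank ℝ W))) :=
    { toFun := fun g => Matrix.toEuclideanCLM (𝕜 := ℂ) (B g)
      map_one' := by rw [map_one, map_one]
      map_mul' := fun g h => by rw [map_mul, map_mul] }
  have hA : ∀ g, A g = LinearMap.toMatrixOrthonormal bs (σ g).toLinearEquiv.toLinearMap :=
    fun g => rfl
  have hB : ∀ g, B g = (A g).map (algebraMap ℝ ℂ) := fun g => rfl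
  have hρd : ∀ g, ρ g = Matrix.toEuclideanCLM (𝕜 := ℂ) (B g) := fun g => rfl
  have h1 : ∀ g, star (A g) * A g = 1 := by
    intro g
    rw [hA, ← map_star, ← map_mul]
    have : star (σ g).toLinearEquiv.toLinearMap * (σ g).toLinearEquiv.toLinearMap = 1 := by
      refine LinearMap.ext fun x => ext_inner_left ℝ fun y => ?_
      show inner ℝ y (LinearMap.adjoint (σ g).toLinearEquiv.toLinearMap
        ((σ g).toLinearEquiv.toLinearMap x)) = inner ℝ y x
      rw [LinearMap.adjoint_inner_right]
      exact (σ g).inner_map_map y x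
    rw [this, map_one]
  have h2 : ∀ g, star (B g) * B g = 1 := by
    intro g
    have h3 : star (B g) = (star (A g)).map (algebraMap ℝ ℂ) := by
      rw [hB]
      ext i j
      simp [Matrix.star_apply]
    rw [h3, hB, ← Matrix.map_mul, h1]
    simp
  have hρ : IsoRep ρ := by
    intro g
    rw [ContinuousLinearMap.norm_map_iff_adjoint_comp_self]
    show star (ρ g) * ρ g = 1
    rw [hρd, ← map_star, ← map_mul, h2, map_one]
  obtain ⟨N, hN, hc⟩ := virtAbelian D _ G hG _ rfl ρ hρ
  refine ⟨N, hN, fun x hx y hy => ?_⟩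
  have h3 := hc x hx y hy
  rw [← map_mul, ← map_mul, hρd, hρd] at h3
  have h4 := (Matrix.toEuclideanCLM (𝕜 := ℂ)).injective h3
  rw [hB, hB] at h4
  have h5 : A (x * y) = A (y * x) := by
    ext i j
    have := congrFun (congrFun h4 i) j
    simpa using this
  rw [hA, hA] at h5
  have h6 := (LinearMap.toMatrixOrthonormal bs).injective h5
  rw [← map_mul, ← map_mul]
  exact LinearIsometryEquiv.ext fun v => LinearMap.congr_fun h6 v

/-- a nonzero finite-dimensional harmonic cocycle -/
theorem exists_fd_harmonic {H : Type u} [Group H] [Infinite H] {S : Finset H} (hS : SymGen S)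
    (h1 : (1 : H) ∈ S) {D : ℕ} (hG : GrowthLE H D) :
    ∃ (W : Type u) (_ : NormedAddCommGroup W) (_ : InnerProductSpace ℝ W)
      (_ : FiniteDimensional ℝ W) (σ : H →* (W ≃ₗᵢ[ℝ] W)) (c : H → W), IsCocycle σ c ∧
      ∑ s ∈ S, c s = 0 ∧ ∃ s ∈ S, c s ≠ 0 := by
  obtain ⟨V, i1, i2, i3, π, b, hb, hh, s₀, hs₀, hbs₀⟩ := exists_harmonic hS h1 hG
  have hcau := cautious_of_growth hS hG
  have h2 : ¬ ∀ s ∈ S, FDOrth π (b s) := fun ho =>
    hbs₀ (harmonic_eq_zero hS hcau π b hb hh ho s₀)
  push Not at h2
  obtain ⟨s, hs, ho⟩ := h2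
  unfold FDOrth at ho
  push Not at ho
  obtain ⟨W, hWf, hWi, w, hw, hin⟩ := ho
  let σ : H →* (W ≃ₗᵢ[ℝ] W) :=
    { toFun := fun g =>
        { toLinearEquiv := LinearEquiv.ofLinearMap
            ((π g).toLinearEquiv.toLinearMap.restrict (hWi g))
            ((π g⁻¹).toLinearEquiv.toLinearMap.restrict (hWi g⁻¹))
            (LinearMap.ext fun x => Subtype.ext (by
              show (π g * π g⁻¹) (x : V) = x
              rw [← map_mul, mul_inv_cancel, map_one]
              rfl))
            (LinearMap.ext fun x => Subtype.ext (by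
              show (π g⁻¹ * π g) (x : V) = x
              rw [← map_mul, inv_mul_cancel, map_one]
              rfl))
          norm_map' := fun x => (π g).norm_map (x : V) }
      map_one' := by
        refine LinearIsometryEquiv.ext fun x => Subtype.ext ?_
        show π 1 (x : V) = x
        rw [map_one]; rfl
      map_mul' := fun g h => by
        refine LinearIsometryEquiv.ext fun x => Subtype.ext ?_
        show π (g * h) (x : V) = π g (π h (x : V))
        rw [map_mul]; rfl }
  have hpc : ∀ g v, W.starProjection (π g v) = π g (W.starProjection v) :=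
    fun g v => fd_proj_comm π W hWi g v
  let c : H → W := fun g => ⟨W.starProjection (b g), W.starProjection_apply_mem _⟩
  refine ⟨W, inferInstance, inferInstance, hWf, σ, c, fun g h => Subtype.ext ?_,
    Subtype.ext ?_, s, hs, fun h0 => hin ?_⟩
  · show W.starProjection (b (g * h)) = W.starProjection (b g) + π g (W.starProjection (b h))
    rw [hb g h, map_add, hpc]
  · rw [Submodule.coe_sum]
    show ∑ s ∈ S, W.starProjection (b s) = 0
    rw [← map_sum, hh, map_zero]
  · have h3 : W.starProjection (b s) = 0 := congrArg Subtype.val h0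
    rw [real_inner_comm, ← Submodule.starProjection_inner_eq_zero (K := W) (b s) w hw, h3,
      sub_zero]

end Vale.Agent.P188.H796
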