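import Vale.Agent.P188.Z1.Flat
import Vale.Agent.P188.Z1.Extra
import Vale.Agent.P188.H8.Pack
import Vale.Agent.P188.H131.GeoNu

/-!
# P188, route B: crossed homomorphisms on natural boxes (D-part of the Geo instance)

* `CrossS.box_le` : `‖D u‖ ≤ K T` on the box `Bx R` if the letters of weight `b` have size `≤ T`;
* `CrossS.vol` : `μ {u ∈ Bx R, ‖D u - d‖ ≤ s} ≤ C s / R i * μ (Bx R)`;
* `CrossS.grow` : packing numbers grow.
-/

set_option linter.all false

open MeasureTheory Set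
open Agent.P188.H428 (IsLen)
open Vale.Agent.P188.H8

namespace Vale.Agent.P188.Z1

namespace RModel

variable {S : Type} [Group S] [MeasurableSpace S] {Γ : Type} [Group Γ]
  {V : Type} [AddCommGroup V] [Module ℝ V] {k : ℕ} {M : RModel S Γ V k}

namespace CrossS

variable {b : Ht k →L[ℝ] ℝ} (c : M.CrossS b)

include c

theorem dv_one : c.D 1 = 0 := by
  have h1 := c.D_mul 1 1
  have h2 : c.ρ 1 = 1 := c.ρ_ker 1 (map_one _)
  rw [mul_one, h2, one_mul] at h1
  simpa using h1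

theorem dv_mul {x y : S} (hx : M.η x = 1) : c.D (x * y) = c.D x + c.D y := by
  rw [c.D_mul, c.ρ_ker x hx, one_mul]

theorem dv_list {q : ℝ} (hq : 0 ≤ q) : ∀ l : List S, (∀ a ∈ l, M.η a = 1 ∧ ‖c.D a‖ ≤ q) →
    M.η l.prod = 1 ∧ ‖c.D l.prod‖ ≤ l.length * q := by
  intro l
  induction l with
  | nil => intro _; simp [c.dv_one]
  | cons a l ih =>
    intro h
    obtain ⟨h1, h2⟩ := ih fun x hx => h x (List.mem_cons_of_mem _ hx)
    obtain ⟨h3, h4⟩ := h a List.mem_cons_self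
    refine ⟨by rw [List.prod_cons, map_mul, h3, h1, one_mul], ?_⟩
    rw [List.prod_cons, c.dv_mul h3, List.length_cons]
    refine (norm_add_le _ _).trans ?_
    push_cast
    linarith

theorem dv_pow {y : S} (hy : M.η y = 1) (n : ℕ) : c.D (y ^ n) = (n : ℝ) • c.D y := by
  induction n with
  | zero => rw [pow_zero, c.dv_one]; simp
  | succ n ih =>
    rw [pow_succ, c.dv_mul (by rw [map_pow, hy, one_pow]), ih]
    push_cast
    rw [add_smul, one_smul]

theorem ex_pow' (v : V) (n : ℕ) : M.ex v ^ n = M.ex ((n : ℝ) • v) := by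
  induction n with
  | zero => rw [pow_zero, Nat.cast_zero, zero_smul, M.ex_zero]
  | succ n ih =>
    rw [pow_succ, ih]
    push_cast
    rw [M.ex_add, one_smul]

/-- linear bound on the letters -/
theorem letter_le : ∃ K : ℝ, 0 ≤ K ∧ ∀ (j : M.ι) (x : ℝ),
    ‖c.D (M.ex (x • M.X j))‖ ≤ K * (|x| + 1) := by
  set K : ℝ := Real.exp (|c.C| * (M.C0 * 2 + 1)) with hK
  have hK1 : 1 ≤ K := by
    rw [hK]
    refine Real.one_le_exp ?_
    have := M.one_le_C0
    positivity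
  have h1 : ∀ (j : M.ι) (x : ℝ), |x| ≤ 1 → ‖c.D (M.ex (x • M.X j))‖ ≤ K := by
    intro j x hx
    refine (c.D_le _).trans (Real.exp_le_exp.2 ?_)
    have h2 := M.met_V (x • M.X j)
    have h3 : M.nm (x • M.X j) ≤ 1 := by
      rw [map_smul_eq_mul, Real.norm_eq_abs]
      have := M.X_le j
      have := apply_nonneg M.nm (M.X j)
      calc |x| * M.nm (M.X j) ≤ 1 * 1 := by gcongr
        _ = 1 := one_mul 1
    have h4 : (M.l (M.ex (x • M.X j)) : ℝ) ≤ M.C0 * 2 := by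
      have := M.one_le_C0
      nlinarith
    have h5 : 0 ≤ (M.l (M.ex (x • M.X j)) : ℝ) + 1 := by positivity
    calc c.C * ((M.l (M.ex (x • M.X j)) : ℝ) + 1)
        ≤ |c.C| * ((M.l (M.ex (x • M.X j)) : ℝ) + 1) :=
          mul_le_mul_of_nonneg_right (le_abs_self _) h5
      _ ≤ |c.C| * (M.C0 * 2 + 1) := by
          refine mul_le_mul_of_nonneg_left (by linarith) (abs_nonneg _)
  refine ⟨K, by linarith, fun j x => ?_⟩
  obtain ⟨n, hn0, hn⟩ : ∃ n : ℕ, 0 < n ∧ |x| ≤ n ∧ (n : ℝ) ≤ |x| + 1 := by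
    refine ⟨⌈|x|⌉₊ + (if |x| = 0 then 1 else 0), ?_, ?_, ?_⟩
    · split_ifs with h
      · omega
      · have : 0 < |x| := lt_of_le_of_ne (abs_nonneg _) (Ne.symm h)
        have := Nat.ceil_pos.2 this
        omega
    · push_cast
      have := Nat.le_ceil |x|
      split_ifs <;> simp <;> linarith
    · split_ifs with h
      · rw [h]; simp
      · have := (Nat.ceil_lt_add_one (abs_nonneg x)).le
        push_cast
        linarith
  have hn1 : (0 : ℝ) < n := by exact_mod_cast hn0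
  have h2 : M.ex (x • M.X j) = M.ex ((x / n) • M.X j) ^ n := by
    rw [ex_pow' c, smul_smul]
    congr 2
    field_simp
  rw [h2, c.dv_pow (M.η_ex _), norm_smul, Real.norm_eq_abs, Nat.abs_cast, mul_comm]
  refine mul_le_mul (h1 j _ ?_) hn.2 (Nat.cast_nonneg n) (by linarith)
  rw [abs_div, Nat.abs_cast, div_le_one hn1]
  exact hn.1

/-- `D` on natural boxes -/
theorem box_le (B : M.NatBox) : ∃ K : ℝ, 0 ≤ K ∧ ∀ R : M.ι → ℝ, (∀ i, 0 ≤ R i) → ∀ T : ℝ, 1 ≤ T →
    (∀ j, M.wt j = b → R j ≤ T) → ∀ u ∈ B.Bx R, ‖c.D u‖ ≤ K * T := by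
  obtain ⟨K0, hK0, hK⟩ := c.letter_le
  have hC := B.one_le
  refine ⟨B.m * (K0 * (B.C + 1)), by positivity, fun R hR T hT hRT u hu => ?_⟩
  obtain ⟨x, hx, rfl⟩ := B.gen R hR u hu
  have hq : 0 ≤ K0 * (B.C + 1) * T := by positivity
  have h1 := c.dv_list hq (List.ofFn fun t => M.ex (x t • M.X (B.J t))) (by
    intro a ha
    obtain ⟨t, rfl⟩ := List.mem_ofFn.1 ha
    refine ⟨M.η_ex _, ?_⟩
    by_cases hw : M.wt (B.J t) = b
    · refine (hK _ _).trans ?_
      have h2 := hx t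
      have h3 := hRT _ hw
      have h4 : B.C * R (B.J t) ≤ B.C * T := mul_le_mul_of_nonneg_left h3 (by linarith)
      calc K0 * (|x t| + 1) ≤ K0 * (B.C * T + T) :=
            mul_le_mul_of_nonneg_left (by linarith) hK0
        _ = _ := by ring
    · rw [c.D_other _ hw, norm_zero]
      exact hq)
  rw [List.length_ofFn] at h1
  calc ‖c.D (List.ofFn fun t => M.ex (x t • M.X (B.J t))).prod‖ ≤ B.m * (K0 * (B.C + 1) * T) := h1.2
    _ = _ := by ring

/-- the letter of the crossed homomorphism -/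
theorem dv_X (x : ℝ) (n : ℕ) : c.D (M.ex (x • M.X c.i) ^ n) = ((n : ℝ) * x) * c.d := by
  rw [ex_pow' c, smul_smul, c.D_ex]
  push_cast
  ring

theorem pow_mem (B : M.NatBox) {R : M.ι → ℝ} (hR : ∀ i, 0 ≤ R i) {x : ℝ} {n : ℕ}
    (h : n * |x| ≤ R c.i) : M.ex (x • M.X c.i) ^ n ∈ B.Bx R := by
  rw [ex_pow' c, smul_smul]
  refine B.letter R hR c.i _ ?_
  rwa [abs_mul, Nat.abs_cast]

/-- **volume of slices** -/
theorem vol (B : M.NatBox) : ∃ C : ℝ, 1 ≤ C ∧ ∀ R : M.ι → ℝ, (∀ i, 0 < R i) → ∀ (d : ℂ) (s : ℝ),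
    0 < s → M.μ {u | u ∈ B.Bx R ∧ ‖c.D u - d‖ ≤ s} ≤
      ENNReal.ofReal (C * s / R c.i) * M.μ (B.Bx R) := by
  obtain ⟨C1, hC1⟩ := B.dbl B.C B.one_le
  have hd : 0 < ‖c.d‖ := norm_pos_iff.2 c.d_ne
  refine ⟨1 + |C1| * 3 / ‖c.d‖, by
    have : 0 ≤ |C1| * 3 / ‖c.d‖ := by positivity
    linarith, fun R hR d s hs => ?_⟩
  have hR0 : ∀ i, 0 ≤ R i := fun i => (hR i).le
  set x0 : ℝ := 3 * s / ‖c.d‖ with hx0
  have hx00 : 0 < x0 := by positivity
  set m : ℕ := ⌊R c.i / x0⌋₊ with hm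
  set A : Set S := {u | u ∈ B.Bx R ∧ ‖c.D u - d‖ ≤ s} with hA
  have hAm : MeasurableSet A := by
    have h1 : MeasurableSet {u | ‖c.D u - d‖ ≤ s} := by
      have : Measurable fun u => ‖c.D u - d‖ := (c.D_meas.sub_const d).norm
      exact measurableSet_le this measurable_const
    exact (B.meas R).inter h1
  have h := vol_ratio M.mp (A := A) (A' := B.Bx fun i => B.C * R i) hAm c.D
    (M.ex (x0 • M.X c.i)) ((x0 : ℂ) * c.d) d (L := s) (m + 1) ?_ (fun a ha => ha.2) ?_ ?_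
  · have h2 : R c.i / x0 ≤ ((m + 1 : ℕ) : ℝ) := by
      push_cast
      exact (Nat.lt_floor_add_one _).le
    have h3 : ENNReal.ofReal (R c.i / x0) * M.μ A ≤ ENNReal.ofReal |C1| * M.μ (B.Bx R) := by
      calc ENNReal.ofReal (R c.i / x0) * M.μ A ≤ ((m + 1 : ℕ) : ENNReal) * M.μ A := by
            gcongr
            rw [← ENNReal.ofReal_natCast]
            exact ENNReal.ofReal_le_ofReal h2
        _ ≤ M.μ (B.Bx fun i => B.C * R i) := h
        _ ≤ ENNReal.ofReal C1 * M.μ (B.Bx R) := hC1 R hR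
        _ ≤ _ := by
            gcongr
            exact le_abs_self _
    have h4 : 0 < R c.i / x0 := div_pos (hR _) hx00
    have h5 : M.μ A = ENNReal.ofReal (x0 / R c.i) * (ENNReal.ofReal (R c.i / x0) * M.μ A) := by
      rw [← mul_assoc, ← ENNReal.ofReal_mul (by have := hR c.i; positivity)]
      have : x0 / R c.i * (R c.i / x0) = 1 := by
        have := (hR c.i).ne'
        field_simp
      rw [this, ENNReal.ofReal_one, one_mul]
    rw [h5]
    calc ENNReal.ofReal (x0 / R c.i) * (ENNReal.ofReal (R c.i / x0) * M.μ A)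
        ≤ ENNReal.ofReal (x0 / R c.i) * (ENNReal.ofReal |C1| * M.μ (B.Bx R)) := by gcongr
      _ = ENNReal.ofReal (x0 / R c.i * |C1|) * M.μ (B.Bx R) := by
          rw [← mul_assoc, ← ENNReal.ofReal_mul (by have := hR c.i; positivity)]
      _ ≤ _ := by
          gcongr
          have := hR c.i
          rw [hx0]
          have e : 3 * s / ‖c.d‖ / R c.i * |C1| = (|C1| * 3 / ‖c.d‖) * s / R c.i := by ring
          rw [e]
          gcongr
          linarith
  · intro a ha n _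
    have h1 : M.η a = 1 := B.sub R a ha.1
    rw [c.dv_mul h1, c.dv_X, Complex.real_smul]
    push_cast
    ring
  · rw [norm_mul, Complex.norm_real, Real.norm_eq_abs, abs_of_pos hx00, hx0,
      div_mul_cancel₀ _ hd.ne']
    linarith
  · intro n hn a ha
    refine B.mul R hR0 a ha.1 _ (c.pow_mem B hR0 ?_)
    rw [abs_of_pos hx00]
    have h1 : (n : ℝ) ≤ m := by exact_mod_cast Nat.lt_succ_iff.1 hn
    have h2 : (m : ℝ) ≤ R c.i / x0 := Nat.floor_le (div_pos (hR _) hx00).le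
    calc (n : ℝ) * x0 ≤ R c.i / x0 * x0 := mul_le_mul_of_nonneg_right (h1.trans h2) hx00.le
      _ = R c.i := div_mul_cancel₀ _ hx00.ne'

end CrossS

/-- boxes as subsets of `N_R` -/
def NatBox.bE (B : M.NatBox) (R : M.ι → ℝ) : Set M.NR := {e | (e : S) ∈ B.Bx R}

theorem NatBox.nu_bE (B : M.NatBox) (R : M.ι → ℝ) : M.nu (B.bE R) = M.μ (B.Bx R) :=
  M.nu_preimage (B.sub R)

theorem NatBox.meas_bE (B : M.NatBox) (R : M.ι → ℝ) : MeasurableSet (B.bE R) :=
  measurable_subtype_coe (B.meas R)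

theorem nu_mpr (g : M.NR) : MeasurePreserving (fun x => x * g) M.nu M.nu := by
  haveI := M.nu_mm
  haveI := M.nu_right
  exact measurePreserving_mul_right M.nu g

theorem nu_mpl (g : M.NR) : MeasurePreserving (fun x => g * x) M.nu M.nu := by
  haveI := M.nu_mm
  haveI := M.nu_left
  exact measurePreserving_mul_left M.nu g

namespace CrossS

variable {b : Ht k →L[ℝ] ℝ} (c : M.CrossS b)

/-- **D_vol** -/
theorem D_vol (B : M.NatBox) : ∃ C0 : ℝ, 1 ≤ C0 ∧ ∀ C : ℝ, C0 ≤ C → ∀ R : M.ι → ℝ, (∀ i, 0 < R i) →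
    ∀ ρ : ℝ, R c.i = Real.exp ρ → ∀ (r : ℝ) (d : ℂ),
    M.nu {n | n ∈ B.bE R ∧ ‖c.D (n : S) - d‖ ≤ Real.exp r} ≤
      ENNReal.ofReal (Real.exp (C - (ρ - r) / C)) * M.nu (B.bE R) := by
  obtain ⟨C1, hC1, H⟩ := c.vol B
  refine ⟨1 + Real.log C1, by linarith [Real.log_nonneg hC1], fun C hC R hR ρ hρ r d => ?_⟩
  have hC' : 1 ≤ C := by linarith [Real.log_nonneg hC1]
  rcases le_or_gt ρ r with h | h
  · have h1 : (1 : ℝ) ≤ Real.exp (C - (ρ - r) / C) := by
      refine Real.one_le_exp ?_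
      have : (ρ - r) / C ≤ 0 := div_nonpos_of_nonpos_of_nonneg (by linarith) (by linarith)
      linarith
    calc M.nu {n | n ∈ B.bE R ∧ ‖c.D (n : S) - d‖ ≤ Real.exp r} ≤ M.nu (B.bE R) :=
          measure_mono fun n hn => hn.1
      _ = ENNReal.ofReal 1 * M.nu (B.bE R) := by rw [ENNReal.ofReal_one, one_mul]
      _ ≤ _ := by gcongr
  · have h1 : M.nu {n | n ∈ B.bE R ∧ ‖c.D (n : S) - d‖ ≤ Real.exp r} =
        M.μ {u | u ∈ B.Bx R ∧ ‖c.D u - d‖ ≤ Real.exp r} := by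
      have := M.nu_preimage (B := {u | u ∈ B.Bx R ∧ ‖c.D u - d‖ ≤ Real.exp r})
        (fun x hx => B.sub R x hx.1)
      exact this
    rw [h1, B.nu_bE]
    refine (H R hR d _ (Real.exp_pos r)).trans ?_
    gcongr
    rw [hρ, mul_div_assoc, ← Real.exp_sub]
    have h2 : C1 = Real.exp (Real.log C1) := (Real.exp_log (by linarith)).symm
    rw [h2, ← Real.exp_add]
    refine Real.exp_le_exp.2 ?_
    have h3 : (ρ - r) / C ≤ ρ - r := div_le_self (by linarith) hC'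
    linarith

/-- **growth of packing numbers** -/
theorem grow (B : M.NatBox) : ∃ C : ℝ, 1 ≤ C ∧ ∀ R R' R'' : M.ι → ℝ, (∀ i, 0 ≤ R i) →
    (∀ i, 0 ≤ R' i) → (∀ i, R' i ≤ R'' i) → ∀ T : ℝ, 1 ≤ T → (∀ j, M.wt j = b → R j ≤ T) →
    (∀ j, M.wt j = b → R' j ≤ T) → BddAbove (PK (B.bE R) (B.bE R')) →
    BddAbove (PK (B.bE R) (B.bE fun i => B.C * R'' i)) →
    (R'' c.i / (C * T)) * pkn (B.bE R) (B.bE R') ≤
      pkn (B.bE R) (B.bE fun i => B.C * R'' i) := by
  obtain ⟨K, hK0, hK⟩ := c.box_le B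
  have hd : 0 < ‖c.d‖ := norm_pos_iff.2 c.d_ne
  refine ⟨1 + 5 * (K + 1) / ‖c.d‖, by
    have : 0 ≤ 5 * (K + 1) / ‖c.d‖ := by positivity
    linarith, fun R R' R'' hR hR' hRR T hT h1 h2 hb hb'' => ?_⟩
  have hR'' : ∀ i, 0 ≤ R'' i := fun i => (hR' i).trans (hRR i)
  set L : ℝ := (K + 1) * T with hL
  have hLp : 0 < L := by positivity
  set x0 : ℝ := 5 * L / ‖c.d‖ with hx0
  have hx00 : 0 < x0 := by positivity
  set m : ℕ := ⌊R'' c.i / x0⌋₊ with hm
  set Y : M.NR := ⟨M.ex (x0 • M.X c.i), M.mem_NR.2 (M.η_ex _)⟩ with hY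
  have h := pkn_grow (D := fun e : M.NR => c.D (e : S)) (fun x y => by
      show c.D ((x * y : M.NR) : S) = _
      rw [Subgroup.coe_mul, c.dv_mul (M.mem_NR.1 x.2)])
    (K := B.bE R) (U' := B.bE R') (U'' := B.bE fun i => B.C * R'' i)
    ⟨1, B.one R hR⟩ (L := L)
    (fun e he => (hK R hR T hT h1 _ he).trans (by nlinarith))
    (fun e he => (hK R' hR' T hT h2 _ he).trans (by nlinarith))
    (Y := Y) ?_ m ?_ hb hb''
  · have h3 : R'' c.i / x0 ≤ (m : ℝ) + 1 := (Nat.lt_floor_add_one _).le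
    have h4 : R'' c.i / ((1 + 5 * (K + 1) / ‖c.d‖) * T) ≤ R'' c.i / x0 := by
      refine div_le_div_of_nonneg_left (hR'' _) hx00 ?_
      rw [hx0, hL]
      have e : 5 * ((K + 1) * T) / ‖c.d‖ = (5 * (K + 1) / ‖c.d‖) * T := by ring
      rw [e]
      exact mul_le_mul_of_nonneg_right (by linarith) (by linarith)
    have h5 : (((m + 1) * pkn (B.bE R) (B.bE R') : ℕ) : ℝ) ≤
        pkn (B.bE R) (B.bE fun i => B.C * R'' i) := by exact_mod_cast h
    push_cast at h5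
    refine le_trans (mul_le_mul_of_nonneg_right (h4.trans h3) (Nat.cast_nonneg _)) h5
  · show 4 * L < ‖c.D (M.ex (x0 • M.X c.i))‖
    rw [c.D_ex, norm_mul, Complex.norm_real, Real.norm_eq_abs, abs_of_pos hx00, hx0,
      div_mul_cancel₀ _ hd.ne']
    linarith
  · intro u hu n hn
    show ((u * Y ^ n : M.NR) : S) ∈ B.Bx fun i => B.C * R'' i
    rw [Subgroup.coe_mul, Subgroup.coe_pow]
    refine B.mul R'' hR'' _ (B.mono R' R'' hR' hRR hu) _ (c.pow_mem B hR'' ?_)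
    rw [abs_of_pos hx00]
    have h1 : (n : ℝ) ≤ m := by exact_mod_cast hn
    have h2 : (m : ℝ) ≤ R'' c.i / x0 := Nat.floor_le (div_nonneg (hR'' _) hx00.le)
    calc (n : ℝ) * x0 ≤ R'' c.i / x0 * x0 := mul_le_mul_of_nonneg_right (h1.trans h2) hx00.le
      _ = R'' c.i := div_mul_cancel₀ _ hx00.ne'

end CrossS

end RModel

end Vale.Agent.P188.Z1
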