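import Vale.Agent.P188.H796.GeoDv
import Vale.Agent.P188.H615.GeoN
import Vale.Agent.P188.H8.Cover
import Vale.Agent.P188.H532.Geo

/-!
# P188, route B: the packing function `H` of the Geo instance, fields `H_sh`, `H_grow`, `D_vol`
-/

set_option linter.all false

open MeasureTheory Set
open Vale.Agent.P188.H8 Vale.Agent.P188.H615 Vale.Agent.P188.H131 Vale.Agent.P188.H796
open Vale.P188.H532 (exto)

namespace Vale.Agent.P188.Z1

/-! ### the pure boxes -/

section pure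

variable {S : Type} [Group S] [MeasurableSpace S] {Γ : Type} [Group Γ]
  {V : Type} [AddCommGroup V] [Module ℝ V] {k : ℕ} {M : RModel S Γ V k} {J : Type} [DecidableEq J]
  (Rd : RayD M J) (B : M.NatBox)

/-- letters of the ray `o` and neutral letters -/
def pp (o : Option J) (a : M.ι) : Prop := Rd.ray a = o ∨ Rd.ray a = none

/-- sizes of the pure box -/
noncomputable def uz (o : Option J) (μ r : ℝ) : M.ι → ℝ := on (pp Rd o) (Rd.sz (exto o μ r))

/-- the box `N ρ` in `N_R` -/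
noncomputable def nE (ρ : Option J → ℝ) : Set M.NR := B.bE (Rd.sz ρ)

/-- the box `UB o μ r` in `N_R` -/
noncomputable def UB (o : Option J) (μ r : ℝ) : Set M.NR := B.bE (uz Rd o μ r)

/-- the packing function -/
noncomputable def Hf (o : Option J) (ρ : Option J → ℝ) (l : ℝ) : ℝ :=
  Real.log (pkn (nE Rd B ρ) (UB Rd B o (ρ o + l) (ρ none)))

theorem uz_nonneg (o : Option J) (μ r : ℝ) (a : M.ι) : 0 ≤ uz Rd o μ r a :=
  on_nonneg (fun i => (Rd.sz_pos _ i).le) a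

theorem exto_none_le {o : Option J} {μ r μ' r' : ℝ} (h : μ ≤ μ') (h' : r ≤ r') :
    exto o μ r none ≤ exto o μ' r' none := by
  unfold exto; split_ifs <;> assumption

theorem exto_self (o : Option J) (μ r : ℝ) : exto o μ r o = μ := by
  cases o <;> simp [exto]

theorem exto_pp {o : Option J} {μ r : ℝ} {a : M.ι} (ha : pp Rd o a) :
    exto o μ r (Rd.ray a) = if Rd.ray a = o then μ else r := by
  rcases ha with h | h
  · rw [h, exto_self, if_pos rfl]
  · rw [h]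
    cases o <;> simp [exto]

theorem uz_le {o : Option J} {μ r μ' r' : ℝ} (h : μ ≤ μ') (h' : r ≤ r') (a : M.ι) :
    uz Rd o μ r a ≤ uz Rd o μ' r' a := by
  unfold uz on
  split_ifs with ha
  · unfold RayD.sz
    rw [Real.exp_le_exp, exto_pp Rd ha, exto_pp Rd ha]
    refine mul_le_mul_of_nonneg_left ?_ (Rd.τ_pos a).le
    split_ifs <;> assumption
  · exact le_rfl

theorem UB_mono {o : Option J} {μ r μ' r' : ℝ} (h : μ ≤ μ') (h' : r ≤ r') :
    UB Rd B o μ r ⊆ UB Rd B o μ' r' :=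
  fun _ he => B.mono _ _ (uz_nonneg Rd _ _ _) (uz_le Rd h h') he

theorem one_mem_UB (o : Option J) (μ r : ℝ) : (1 : M.NR) ∈ UB Rd B o μ r :=
  B.one _ (uz_nonneg Rd _ _ _)

theorem one_mem_nE (ρ : Option J → ℝ) : (1 : M.NR) ∈ nE Rd B ρ :=
  B.one _ fun a => (Rd.sz_pos ρ a).le

theorem NatBox.bE_mono {B : M.NatBox} {R R' : M.ι → ℝ} (h0 : ∀ i, 0 ≤ R i) (h : ∀ i, R i ≤ R' i) :
    B.bE R ⊆ B.bE R' := fun _ he => B.mono _ _ h0 h he

/-- packing numbers are finite -/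
theorem bdd_PK {R R' : M.ι → ℝ} (hR : ∀ i, 0 < R i) (hR' : ∀ i, 0 ≤ R' i) :
    BddAbove (PK (B.bE R) (B.bE R')) := by
  refine PK_bdd M.nu_mpr (W := B.bE fun i => B.C * (R i + R' i)) (B.meas_bE R) ?_ ?_ ?_
  · intro x hx y hy
    exact B.mul (fun i => R i + R' i) (fun i => add_nonneg (hR i).le (hR' i)) _
      (B.mono _ _ (fun i => (hR i).le) (fun i => by have := hR' i; linarith) hx) _
      (B.mono _ _ hR' (fun i => by have := hR i; linarith) hy)
  · rw [B.nu_bE]; exact B.pos R hR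
  · rw [B.nu_bE]; exact B.fin _

theorem one_le_pkn {R R' : M.ι → ℝ} (hR : ∀ i, 0 < R i) (hR' : ∀ i, 0 ≤ R' i) :
    1 ≤ pkn (B.bE R) (B.bE R') := by
  have h := le_pkn (bdd_PK B hR hR') (X := {1}) (by
    intro x hx
    rw [Finset.mem_singleton] at hx
    subst hx
    exact B.one _ hR') (by
    intro x hx y hy hxy
    rw [Finset.mem_singleton] at hx hy
    exact absurd (hx.trans hy.symm) hxy)
  simpa using h

theorem Hf_nonneg (o : Option J) (ρ : Option J → ℝ) (l : ℝ) : 0 ≤ Hf Rd B o ρ l := by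
  refine Real.log_nonneg ?_
  exact_mod_cast one_le_pkn B (Rd.sz_pos ρ) (uz_nonneg Rd _ _ _)

theorem exp_Hf (o : Option J) (ρ : Option J → ℝ) (l : ℝ) :
    Real.exp (Hf Rd B o ρ l) = pkn (nE Rd B ρ) (UB Rd B o (ρ o + l) (ρ none)) := by
  unfold Hf
  rw [Real.exp_log]
  exact_mod_cast one_le_pkn B (Rd.sz_pos ρ) (uz_nonneg Rd _ _ _)

end pure

theorem card_ratio {a b : ℕ} {q : ℝ} (hq : 0 ≤ q) {x W : ENNReal} (h : (a : ENNReal) * x ≤ b * W)
    (hW : W ≤ ENNReal.ofReal q * x) (h0 : x ≠ 0) (h1 : x ≠ ⊤) : (a : ℝ) ≤ q * b := by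
  have h2 : (a : ENNReal) * x ≤ ENNReal.ofReal (q * b) * x := by
    refine h.trans ((mul_le_mul_right hW _).trans (le_of_eq ?_))
    rw [← mul_assoc, ENNReal.ofReal_mul hq, ENNReal.ofReal_natCast, mul_comm (b : ENNReal)]
  have h3 := (ENNReal.mul_le_mul_iff_left h0 h1).1 h2
  rwa [← ENNReal.ofReal_natCast, ENNReal.ofReal_le_ofReal_iff (by positivity)] at h3

/-! ### change of the pure box -/

section concrete

variable {Γ : Type} [Group Γ] {k : ℕ} {η : Γ →* Multiplicative (Fin k → ℤ)} {d n : ℕ}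
  {D : MB η.ker d n} {M : RModel D.S Γ D.R.V k}

theorem pkn_U {B : M.NatBox} (h : NatHyp M) (hB : B.Bx = NBx D M.X) (p : M.ι → Prop) (C' : ℝ)
    (hC' : 1 ≤ C') : ∃ n : ℕ, 1 ≤ n ∧ ∀ r : M.ι → ℝ, (∀ i, 0 < r i) → ∀ R : M.ι → ℝ,
      (∀ i, 0 < R i) →
      pkn (B.bE R) (B.bE (on p fun i => C' * r i)) ≤ n * pkn (B.bE R) (B.bE (on p r)) := by
  classical
  obtain ⟨n, hn⟩ := exists_cover D.R M.X p C' hC'
  refine ⟨n + 1, by omega, fun r hr R hR => ?_⟩
  obtain ⟨F, hF1, -, hF3⟩ := hn r (fun i => (hr i).le) fun i _ => hr i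
  have hη : ∀ x : D.R.NR, M.η (D.inN x) = 1 := by
    intro x
    rw [h.hη, ← D.R.Ex_Lo x]
    exact D.θ_ex _
  let j : PG M.X p → M.NR := fun f => ⟨D.inN (f : D.R.NR), M.mem_NR.2 (hη _)⟩
  have h1 := pkn_cover (K := B.bE R) (U := B.bE (on p r)) (U' := B.bE (on p fun i => C' * r i))
    (F.image j) (by
      intro u hu
      have hu' : (u : D.S) ∈ NBx D M.X (on p fun i => C' * r i) := by rw [← hB]; exact hu
      obtain ⟨v, hv, hvu⟩ := hu'
      rw [Gb_eq_LB] at hv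
      let x : PG M.X p := ⟨D.R.Ex v, by rw [mem_ExS, D.R.Lo_Ex]; exact nb_on_le M.X p _ hv⟩
      obtain ⟨f, hf, hfx⟩ := hF3 x (by
        show D.R.Lo (D.R.Ex v) ∈ nb (LB M.X (on p fun i => C' * r i))
        rw [D.R.Lo_Ex]; exact hv)
      refine ⟨j f, Finset.mem_image_of_mem _ hf, ?_⟩
      show ((u * (j f)⁻¹ : M.NR) : D.S) ∈ B.Bx (on p r)
      rw [hB]
      have e : ((u * (j f)⁻¹ : M.NR) : D.S) = D.inN ((x * f⁻¹ : PG M.X p) : D.R.NR) := by
        rw [Subgroup.coe_mul, Subgroup.coe_inv, ← hvu, Subgroup.coe_mul, Subgroup.coe_inv, map_mul,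
          map_inv]
        rfl
      rw [e, mem_NBx_Ex, Gb_eq_LB]
      exact hfx) (bdd_PK B hR (on_nonneg fun i => (hr i).le))
  refine h1.trans (Nat.mul_le_mul_right _ ?_)
  exact (Finset.card_image_le.trans hF1).trans (Nat.le_succ n)

variable {J : Type} [Fintype J] [DecidableEq J] (Rd : RayD M J)

/-- change of the extents of the pure box -/
theorem pkn_UB {B : M.NatBox} (h : NatHyp M) (hB : B.Bx = NBx D M.X) : ∃ K : ℝ, 0 ≤ K ∧
    ∀ (o : Option J) (μ r s : ℝ), 0 ≤ s → ∀ R : M.ι → ℝ, (∀ i, 0 < R i) →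
      (pkn (B.bE R) (UB Rd B o (μ + s) (r + s)) : ℝ) ≤
        Real.exp (K * (1 + s)) * pkn (B.bE R) (UB Rd B o μ r) := by
  classical
  obtain ⟨t0, T0, ht0, hT0, hτ⟩ := Rd.exists_τ
  have hC' : 1 ≤ Real.exp T0 := Real.one_le_exp (by linarith)
  choose N hN1 hN using fun o : Option J => pkn_U h hB (pp Rd o) (Real.exp T0) hC'
  set n : ℕ := ∑ o, N o with hn
  have hNn : ∀ o, N o ≤ n := fun o => Finset.single_le_sum (f := N) (fun _ _ => Nat.zero_le _)
    (Finset.mem_univ o)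
  have hn1 : 1 ≤ n := (hN1 none).trans (hNn none)
  have hn1' : (1 : ℝ) ≤ n := by exact_mod_cast hn1
  -- one step
  have step : ∀ (o : Option J) (μ r : ℝ) (R : M.ι → ℝ), (∀ i, 0 < R i) →
      pkn (B.bE R) (UB Rd B o (μ + 1) (r + 1)) ≤ n * pkn (B.bE R) (UB Rd B o μ r) := by
    intro o μ r R hR
    have h1 := hN o (Rd.sz (exto o μ r)) (Rd.sz_pos _) R hR
    refine le_trans ?_ (h1.trans (Nat.mul_le_mul_right _ (hNn o)))
    refine pkn_mono (Subset.refl _) ?_ (bdd_PK B hR (on_nonneg fun i =>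
      mul_nonneg (Real.exp_pos _).le (Rd.sz_pos _ i).le))
    refine NatBox.bE_mono (uz_nonneg Rd _ _ _) fun a => ?_
    unfold uz on
    split_ifs with ha
    · show Rd.sz _ a ≤ Real.exp T0 * Rd.sz _ a
      unfold RayD.sz
      rw [← Real.exp_add, Real.exp_le_exp, exto_pp Rd ha, exto_pp Rd ha]
      have h2 := (hτ a).2
      split_ifs <;> rw [mul_add, mul_one] <;> linarith
    · exact le_rfl
  have iter : ∀ (q : ℕ) (o : Option J) (μ r : ℝ) (R : M.ι → ℝ), (∀ i, 0 < R i) →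
      pkn (B.bE R) (UB Rd B o (μ + q) (r + q)) ≤ n ^ q * pkn (B.bE R) (UB Rd B o μ r) := by
    intro q
    induction q with
    | zero => intro o μ r R hR; simp
    | succ q ih =>
      intro o μ r R hR
      have h1 := step o (μ + q) (r + q) R hR
      push_cast
      rw [← add_assoc, ← add_assoc]
      refine h1.trans ?_
      rw [pow_succ']
      rw [mul_assoc]
      exact Nat.mul_le_mul_left _ (ih o μ r R hR)
  refine ⟨Real.log n, Real.log_nonneg hn1', fun o μ r s hs R hR => ?_⟩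
  have h1 : s ≤ (⌈s⌉₊ : ℝ) := Nat.le_ceil s
  have h2 : (⌈s⌉₊ : ℝ) ≤ s + 1 := (Nat.ceil_lt_add_one hs).le
  have h3 : pkn (B.bE R) (UB Rd B o (μ + s) (r + s)) ≤ n ^ ⌈s⌉₊ * pkn (B.bE R) (UB Rd B o μ r) :=
    (pkn_mono (Subset.refl _) (UB_mono Rd B (by linarith) (by linarith))
      (bdd_PK B hR (uz_nonneg Rd _ _ _))).trans (iter _ o μ r R hR)
  have h4 : (pkn (B.bE R) (UB Rd B o (μ + s) (r + s)) : ℝ) ≤
      (n : ℝ) ^ ⌈s⌉₊ * pkn (B.bE R) (UB Rd B o μ r) := by exact_mod_cast h3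
  refine h4.trans (mul_le_mul_of_nonneg_right ?_ (Nat.cast_nonneg _))
  rw [← Real.rpow_natCast, Real.rpow_def_of_pos (by linarith), Real.exp_le_exp]
  refine mul_le_mul_of_nonneg_left (by linarith) (Real.log_nonneg hn1')

/-- field `H_sh` -/
theorem Hf_sh {B : M.NatBox} (h : NatHyp M) (hB : B.Bx = NBx D M.X) : ∃ C0 : ℝ, 0 ≤ C0 ∧
    ∀ C : ℝ, C0 ≤ C → ∀ (o : Option J) (ρ ρ' : Option J → ℝ) (l r : ℝ), 0 ≤ r →
      (∀ j, |ρ' j - ρ j| ≤ r) → Hf Rd B o ρ' l ≤ Hf Rd B o ρ l + C * (1 + r) := by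
  obtain ⟨t0, T0, ht0, hT0, hτ⟩ := Rd.exists_τ
  obtain ⟨K, hK0, hK⟩ := pkn_UB Rd h hB
  obtain ⟨C1, hC1, hd⟩ := RayD.dbl_exp B
  have hBC := B.one_le
  have hCC : 1 ≤ B.C * B.C := one_le_mul_of_one_le_of_one_le hBC hBC
  have hlog : 0 ≤ Real.log (B.C * B.C) := Real.log_nonneg hCC
  set A : ℝ := C1 * (1 + (Real.log (B.C * B.C) + T0)) with hA
  have hA0 : 0 ≤ A := by positivity
  refine ⟨K + A, by linarith, fun C hC o ρ ρ' l r hr hρ => ?_⟩
  have hle : ∀ j, ρ' j ≤ ρ j + r := fun j => by have := abs_le.1 (hρ j); linarith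
  have hle' : ∀ j, ρ j ≤ ρ' j + r := fun j => by have := abs_le.1 (hρ j); linarith
  -- change of U
  have h1 : pkn (nE Rd B ρ') (UB Rd B o (ρ' o + l) (ρ' none)) ≤
      pkn (nE Rd B ρ') (UB Rd B o ((ρ o + l) + r) (ρ none + r)) := by
    refine pkn_mono (Subset.refl _) (UB_mono Rd B ?_ (hle none)) (bdd_PK B (Rd.sz_pos _)
      (uz_nonneg Rd _ _ _))
    have := hle o
    linarith
  have h2 := hK o (ρ o + l) (ρ none) r hr (Rd.sz ρ') (Rd.sz_pos ρ')
  have h3 : (pkn (nE Rd B ρ') (UB Rd B o (ρ' o + l) (ρ' none)) : ℝ) ≤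
      Real.exp (K * (1 + r)) * pkn (nE Rd B ρ') (UB Rd B o (ρ o + l) (ρ none)) := by
    refine le_trans ?_ h2
    exact_mod_cast h1
  -- change of K
  set W : Set M.NR := B.bE fun a => Real.exp (Real.log (B.C * B.C) + T0 * r) * Rd.sz ρ' a with hW
  have hsz : ∀ a, Rd.sz ρ a ≤ Real.exp (T0 * r) * Rd.sz ρ' a := by
    intro a
    unfold RayD.sz
    rw [← Real.exp_add, Real.exp_le_exp]
    have h4 := hle' (Rd.ray a)
    have h5 := (hτ a).2
    have h6 := (Rd.τ_pos a).le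
    have h7 := mul_le_mul_of_nonneg_left h4 h6
    have h8 := mul_le_mul_of_nonneg_right h5 hr
    rw [mul_add] at h7
    linarith
  have hexp : Real.exp (Real.log (B.C * B.C) + T0 * r) = B.C * (B.C * Real.exp (T0 * r)) := by
    rw [Real.exp_add, Real.exp_log (by linarith), mul_assoc]
  have h4 := pkn_change (ν := M.nu) M.nu_mpr (K := nE Rd B ρ') (K' := nE Rd B ρ)
    (U := UB Rd B o (ρ o + l) (ρ none)) (W := W) (B.meas_bE _) ⟨1, one_mem_nE Rd B ρ⟩ (by
      intro x hx y hy z hz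
      have hy1 : (y⁻¹ : M.NR) ∈ B.bE (fun a => Real.exp (T0 * r) * Rd.sz ρ' a) :=
        NatBox.bE_mono (fun a => (Rd.sz_pos ρ a).le) hsz (B.inv _ _ hy)
      have hz1 : z ∈ B.bE (fun a => Real.exp (T0 * r) * Rd.sz ρ' a) :=
        NatBox.bE_mono (fun a => (Rd.sz_pos ρ a).le) hsz hz
      have h5 := B.mul _ (fun a => mul_nonneg (Real.exp_pos _).le (Rd.sz_pos ρ' a).le) _ hy1 _ hz1
      have hx1 : (x : D.S) ∈ B.Bx (fun a => B.C * (Real.exp (T0 * r) * Rd.sz ρ' a)) := by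
        refine B.mono _ _ (fun a => (Rd.sz_pos ρ' a).le) (fun a => ?_) hx
        have h6 := Rd.sz_pos ρ' a
        have h7 : 1 ≤ Real.exp (T0 * r) := Real.one_le_exp (by positivity)
        have h8 : Rd.sz ρ' a ≤ Real.exp (T0 * r) * Rd.sz ρ' a := le_mul_of_one_le_left h6.le h7
        exact h8.trans (le_mul_of_one_le_left (mul_nonneg (Real.exp_pos _).le h6.le) hBC)
      have h9 := B.mul _ (fun a => mul_nonneg (by linarith)
        (mul_nonneg (Real.exp_pos _).le (Rd.sz_pos ρ' a).le)) _ hx1 _ h5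
      have e : W = B.bE (fun a => B.C * (B.C * (Real.exp (T0 * r) * Rd.sz ρ' a))) := by
        rw [hW]
        congr 1
        funext a
        rw [hexp]
        ring
      rw [e]
      exact h9) (bdd_PK B (Rd.sz_pos _) (uz_nonneg Rd _ _ _))
    (bdd_PK B (Rd.sz_pos _) (uz_nonneg Rd _ _ _)) (B.meas_bE _)
  have h5 : M.nu W ≤ ENNReal.ofReal (Real.exp (A * (1 + r))) * M.nu (nE Rd B ρ') := by
    have h6 := hd (Real.log (B.C * B.C) + T0 * r) (by positivity) (Rd.sz ρ') (Rd.sz_pos ρ')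
    rw [hW, B.nu_bE, nE, B.nu_bE]
    refine h6.trans (mul_le_mul_left (ENNReal.ofReal_le_ofReal (Real.exp_le_exp.2 ?_)) _)
    have h8 : 1 + (Real.log (B.C * B.C) + T0 * r) ≤
        (1 + (Real.log (B.C * B.C) + T0)) * (1 + r) := by
      have h9 := mul_nonneg hlog hr
      have h10 : (1 + (Real.log (B.C * B.C) + T0)) * (1 + r) = 1 + (Real.log (B.C * B.C) + T0 * r)
        + (r + Real.log (B.C * B.C) * r + T0) := by ring
      linarith
    calc C1 * (1 + (Real.log (B.C * B.C) + T0 * r))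
        ≤ C1 * ((1 + (Real.log (B.C * B.C) + T0)) * (1 + r)) := mul_le_mul_of_nonneg_left h8 hC1
      _ = A * (1 + r) := by rw [hA]; ring
  have h6 : (pkn (nE Rd B ρ') (UB Rd B o (ρ o + l) (ρ none)) : ℝ) ≤
      Real.exp (A * (1 + r)) * pkn (nE Rd B ρ) (UB Rd B o (ρ o + l) (ρ none)) :=
    card_ratio (Real.exp_pos _).le h4 h5 (by rw [nE, B.nu_bE]; exact B.pos _ (Rd.sz_pos ρ'))
      (by rw [nE, B.nu_bE]; exact B.fin _)
  have h7 : Real.exp (Hf Rd B o ρ' l) ≤ Real.exp (Hf Rd B o ρ l + (K + A) * (1 + r)) := by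
    rw [exp_Hf]
    refine h3.trans ((mul_le_mul_of_nonneg_left h6 (Real.exp_pos _).le).trans (le_of_eq ?_))
    rw [← exp_Hf, ← mul_assoc, ← Real.exp_add, ← Real.exp_add]
    congr 1
    ring
  rw [Real.exp_le_exp] at h7
  have h8 : (K + A) * (1 + r) ≤ C * (1 + r) := mul_le_mul_of_nonneg_right hC (by linarith)
  linarith

theorem ray_of_cross {j : J} (c : M.CrossS (Rd.b j)) {a : M.ι} (ha : M.wt a = Rd.b j) :
    Rd.ray a = some j ∧ Rd.τ a = 1 := by
  have hb := Rd.b_ne j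
  rcases hr : Rd.ray a with _ | i
  · exfalso
    have := Rd.wt_none a hr
    exact hb (ha.symm.trans this)
  · have h1 := Rd.wt_some a i hr
    rw [ha] at h1
    have h2 := Rd.uniq _ _ _ (Rd.τ_pos a) h1
    subst h2
    refine ⟨rfl, ?_⟩
    have h3 : (Rd.τ a) • Rd.b j = (1 : ℝ) • Rd.b j := by rw [one_smul]; exact h1.symm
    exact smul_left_injective ℝ hb h3

/-- field `H_grow` -/
theorem Hf_grow {B : M.NatBox} (h : NatHyp M) (hB : B.Bx = NBx D M.X)
    (c : ∀ j, M.CrossS (Rd.b j)) : ∃ C0 : ℝ, 1 ≤ C0 ∧ ∀ C : ℝ, C0 ≤ C →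
    ∀ (i : J) (ρ : Option J → ℝ) (l l' : ℝ), (∀ j, 0 ≤ ρ j) → 0 ≤ l' → l' ≤ l →
      Hf Rd B (some i) ρ l' + (l - l') / C - C ≤ Hf Rd B (some i) ρ l := by
  classical
  choose C1 hC1 hg using fun j => (c j).grow B
  choose N hN1 hN using fun o : Option J => pkn_U h hB (pp Rd o) B.C B.one_le
  have hlogN : ∀ i, 0 ≤ Real.log (N (some i)) := fun i =>
    Real.log_nonneg (by exact_mod_cast hN1 (some i))
  have hlogC : ∀ i, 0 ≤ Real.log (C1 i) := fun i => Real.log_nonneg (hC1 i)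
  refine ⟨1 + ∑ i, (Real.log (C1 i) + Real.log (N (some i))), ?_, fun C hC i ρ l l' hρ hl' hl => ?_⟩
  · have : 0 ≤ ∑ i, (Real.log (C1 i) + Real.log (N (some i))) :=
      Finset.sum_nonneg fun i _ => add_nonneg (hlogC i) (hlogN i)
    linarith
  have hsum : Real.log (C1 i) + Real.log (N (some i)) ≤
      ∑ i, (Real.log (C1 i) + Real.log (N (some i))) :=
    Finset.single_le_sum (f := fun i => Real.log (C1 i) + Real.log (N (some i)))
      (fun i _ => add_nonneg (hlogC i) (hlogN i)) (Finset.mem_univ i)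
  have hsum0 : 0 ≤ Real.log (C1 i) + Real.log (N (some i)) := add_nonneg (hlogC i) (hlogN i)
  have hC1' : 1 ≤ C := by linarith
  set T : ℝ := Real.exp (ρ (some i) + l') with hT
  have hT1 : 1 ≤ T := Real.one_le_exp (add_nonneg (hρ _) hl')
  have hsz : ∀ (ρ' : Option J → ℝ) a, M.wt a = Rd.b i → Rd.sz ρ' a = Real.exp (ρ' (some i)) := by
    intro ρ' a ha
    obtain ⟨h1, h2⟩ := ray_of_cross Rd (c i) ha
    rw [RayD.sz, h1, h2, one_mul]
  have huz : ∀ (μ r : ℝ) a, M.wt a = Rd.b i → uz Rd (some i) μ r a = Real.exp μ := by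
    intro μ r a ha
    have h1 : pp Rd (some i) a := Or.inl (ray_of_cross Rd (c i) ha).1
    unfold uz on
    rw [if_pos h1, hsz _ a ha, exto_self]
  have h1 := hg i (Rd.sz ρ) (uz Rd (some i) (ρ (some i) + l') (ρ none))
    (uz Rd (some i) (ρ (some i) + l) (ρ none)) (fun a => (Rd.sz_pos ρ a).le) (uz_nonneg Rd _ _ _)
    (uz_le Rd (by linarith) le_rfl) T hT1 (fun a ha => by
      rw [hsz ρ a ha, hT, Real.exp_le_exp]; linarith) (fun a ha => by rw [huz _ _ a ha])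
    (bdd_PK B (Rd.sz_pos ρ) (uz_nonneg Rd _ _ _))
    (bdd_PK B (Rd.sz_pos ρ) fun a => mul_nonneg (by linarith [B.one_le]) (uz_nonneg Rd _ _ _ a))
  rw [huz _ _ _ (c i).wt_i] at h1
  have h2 : pkn (B.bE (Rd.sz ρ)) (B.bE fun a => B.C * uz Rd (some i) (ρ (some i) + l) (ρ none) a) ≤
      N (some i) * pkn (B.bE (Rd.sz ρ)) (B.bE (uz Rd (some i) (ρ (some i) + l) (ρ none))) := by
    have h3 := hN (some i) (Rd.sz (exto (some i) (ρ (some i) + l) (ρ none))) (Rd.sz_pos _)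
      (Rd.sz ρ) (Rd.sz_pos ρ)
    have h4 : (fun a => B.C * uz Rd (some i) (ρ (some i) + l) (ρ none) a) =
        on (pp Rd (some i)) fun a => B.C * Rd.sz (exto (some i) (ρ (some i) + l) (ρ none)) a :=
      on_mul _
    rw [h4]
    exact h3
  have h3 : Real.exp (ρ (some i) + l) / (C1 i * T) * Real.exp (Hf Rd B (some i) ρ l') ≤
      N (some i) * Real.exp (Hf Rd B (some i) ρ l) := by
    rw [exp_Hf, exp_Hf]
    refine h1.trans ?_
    exact_mod_cast h2
  have hC1p : 0 < C1 i := by linarith [hC1 i]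
  have hNp : (0 : ℝ) < N (some i) := by exact_mod_cast hN1 (some i)
  have h4 : Real.exp ((l - l') - Real.log (C1 i) + Hf Rd B (some i) ρ l') ≤
      Real.exp (Real.log (N (some i)) + Hf Rd B (some i) ρ l) := by
    have e1 : Real.exp ((l - l') - Real.log (C1 i) + Hf Rd B (some i) ρ l') =
        Real.exp (ρ (some i) + l) / (C1 i * T) * Real.exp (Hf Rd B (some i) ρ l') := by
      rw [Real.exp_add, Real.exp_sub, Real.exp_log hC1p, hT, div_mul_eq_div_div,
        div_right_comm, ← Real.exp_sub]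
      congr 3
      ring
    have e2 : Real.exp (Real.log (N (some i)) + Hf Rd B (some i) ρ l) =
        N (some i) * Real.exp (Hf Rd B (some i) ρ l) := by
      rw [Real.exp_add, Real.exp_log hNp]
    rw [e1, e2]
    exact h3
  rw [Real.exp_le_exp] at h4
  have h5 : (l - l') / C ≤ l - l' := div_le_self (by linarith) hC1'
  linarith

/-- field `D_vol` -/
theorem D_volE {B : M.NatBox} (c : ∀ j, M.CrossS (Rd.b j)) : ∃ C0 : ℝ, 1 ≤ C0 ∧ ∀ C : ℝ, C0 ≤ C →
    ∀ (j : J) (ρ : Option J → ℝ) (r : ℝ) (d : ℂ),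
    M.nu {n | n ∈ nE Rd B ρ ∧ ‖(c j).D (n : D.S) - d‖ ≤ Real.exp r} ≤
      ENNReal.ofReal (Real.exp (C - (ρ (some j) - r) / C)) * M.nu (nE Rd B ρ) := by
  classical
  choose C1 hC1 hg using fun j => (c j).D_vol B
  refine ⟨1 + ∑ i, C1 i, ?_, fun C hC j ρ r d => ?_⟩
  · have : 0 ≤ ∑ i, C1 i := Finset.sum_nonneg fun i _ => by linarith [hC1 i]
    linarith
  · have h1 : C1 j ≤ ∑ i, C1 i := Finset.single_le_sum (f := C1) (fun i _ => by linarith [hC1 i])
      (Finset.mem_univ j)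
    refine hg j C (by linarith) (Rd.sz ρ) (Rd.sz_pos ρ) (ρ (some j)) ?_ r d
    obtain ⟨h1, h2⟩ := ray_of_cross Rd (c j) (c j).wt_i
    rw [RayD.sz, h1, h2, one_mul]

end concrete

end Vale.Agent.P188.Z1
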