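import Vale.Agent.P188.H796.Spec

/-!
P188, Gromov-lite: an infinite group of polynomial growth has a nonzero harmonic cocycle.
-/

universe u v

open Filter Topology Pointwise

namespace Vale.Agent.P188.H796

open Vale.Agent.P188.SG

section Completion

variable {H : Type u} [Group H] {X₀ : Type v}

/-- An isometric representation with a cocycle on a semi-inner product space extends to the
completion. -/
theorem hx_completion [SeminormedAddCommGroup X₀] [InnerProductSpace ℝ X₀]
    (ρ : H → X₀ →ₗᵢ[ℝ] X₀) (h1 : ∀ x, ρ 1 x = x)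
    (hmul : ∀ g h x, ρ (g * h) x = ρ g (ρ h x)) (b₀ : H → X₀)
    (hb : ∀ g h, b₀ (g * h) = b₀ g + ρ g (b₀ h)) :
    ∃ (V : Type v) (_ : NormedAddCommGroup V) (_ : InnerProductSpace ℝ V)
      (_ : CompleteSpace V) (π : H →* (V ≃ₗᵢ[ℝ] V)) (b : H → V) (j : X₀ → V), IsCocycle π b ∧
      (∀ h, b h = j (b₀ h)) ∧ (∀ x y, j (x + y) = j x + j y) ∧ (∀ x, ‖j x‖ = ‖x‖) := by
  let C : H → UniformSpace.Completion X₀ →L[ℝ] UniformSpace.Completion X₀ :=
    fun h => (ρ h).toContinuousLinearMap.completion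
  have hC : ∀ h (x : X₀), C h (x : UniformSpace.Completion X₀) = ((ρ h x : X₀) : _) := fun h x =>
    ContinuousLinearMap.completion_apply_coe _ _
  have hC1 : ∀ x, C 1 x = x := fun x => by
    induction x using UniformSpace.Completion.induction_on with
    | hp => exact isClosed_eq (C 1).continuous continuous_id
    | ih x => rw [hC, h1]
  have hCmul : ∀ g h x, C (g * h) x = C g (C h x) := fun g h x => by
    induction x using UniformSpace.Completion.induction_on with
    | hp => exact isClosed_eq (C _).continuous ((C g).continuous.comp (C h).continuous)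
    | ih x => rw [hC, hC, hC, hmul]
  have hCn : ∀ h x, ‖C h x‖ = ‖x‖ := fun h x => by
    induction x using UniformSpace.Completion.induction_on with
    | hp => exact isClosed_eq (C h).continuous.norm continuous_norm
    | ih x => rw [hC, UniformSpace.Completion.norm_coe, UniformSpace.Completion.norm_coe,
        LinearIsometry.norm_map]
  have hinv1 : ∀ h x, C h (C h⁻¹ x) = x := fun h x => by
    rw [← hCmul, mul_inv_cancel, hC1]
  have hinv2 : ∀ h x, C h⁻¹ (C h x) = x := fun h x => by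
    rw [← hCmul, inv_mul_cancel, hC1]
  let E : H → UniformSpace.Completion X₀ ≃ₗᵢ[ℝ] UniformSpace.Completion X₀ := fun h =>
    { toLinearEquiv := LinearEquiv.ofLinearMap (C h).toLinearMap (C h⁻¹).toLinearMap
        (LinearMap.ext fun x => hinv1 h x) (LinearMap.ext fun x => hinv2 h x)
      norm_map' := fun x => hCn h x }
  have hE : ∀ h x, E h x = C h x := fun h x => rfl
  let π : H →* (UniformSpace.Completion X₀ ≃ₗᵢ[ℝ] UniformSpace.Completion X₀) :=
    { toFun := E
      map_one' := LinearIsometryEquiv.ext fun x => by rw [hE, hC1]; rfl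
      map_mul' := fun g h => LinearIsometryEquiv.ext fun x => by
        rw [hE, hCmul]; rfl }
  refine ⟨UniformSpace.Completion X₀, inferInstance, inferInstance, inferInstance, π,
    fun h => ((b₀ h : X₀) : _), fun x => (x : _), fun g h => ?_, fun h => rfl,
    fun x y => UniformSpace.Completion.coe_add _ _,
    fun x => UniformSpace.Completion.norm_coe _⟩
  show ((b₀ (g * h) : X₀) : UniformSpace.Completion X₀) = (b₀ g : _) + C g (b₀ h : _)
  rw [hC, hb, UniformSpace.Completion.coe_add]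

/-- The same for a positive semidefinite form. -/
theorem hx_core [AddCommGroup X₀] [Module ℝ X₀] (c : PreInnerProductSpace.Core ℝ X₀)
    (ρ : H → X₀ →ₗ[ℝ] X₀) (h1 : ∀ x, ρ 1 x = x)
    (hmul : ∀ g h x, ρ (g * h) x = ρ g (ρ h x))
    (hρ : ∀ h x, c.inner (ρ h x) (ρ h x) = c.inner x x) (b₀ : H → X₀)
    (hb : ∀ g h, b₀ (g * h) = b₀ g + ρ g (b₀ h)) :
    ∃ (V : Type v) (_ : NormedAddCommGroup V) (_ : InnerProductSpace ℝ V)
      (_ : CompleteSpace V) (π : H →* (V ≃ₗᵢ[ℝ] V)) (b : H → V) (j : X₀ → V), IsCocycle π b ∧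
      (∀ h, b h = j (b₀ h)) ∧ (∀ x y, j (x + y) = j x + j y) ∧
      (∀ x, ‖j x‖ ^ 2 = c.inner x x) := by
  let i1 : SeminormedAddCommGroup X₀ :=
    @InnerProductSpace.Core.toSeminormedAddCommGroup ℝ X₀ _ _ _ c
  let i2 : InnerProductSpace ℝ X₀ := InnerProductSpace.ofCore c
  have hnorm : ∀ x : X₀, ‖x‖ ^ 2 = c.inner x x := fun x => by
    rw [← real_inner_self_eq_norm_sq]
  obtain ⟨V, j1, j2, j3, π, b, j, hc, hbj, hadd, hn⟩ := hx_completion (X₀ := X₀)
    (fun h => { toLinearMap := ρ h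
                norm_map' := fun x => by
                  have h2 : ‖ρ h x‖ ^ 2 = ‖x‖ ^ 2 := by rw [hnorm, hnorm, hρ]
                  exact (pow_left_inj₀ (norm_nonneg _) (norm_nonneg _) two_ne_zero).1 h2 })
    h1 hmul b₀ hb
  exact ⟨V, j1, j2, j3, π, b, j, hc, hbj, hadd, fun x => by rw [hn, hnorm]⟩

end Completion

variable {H : Type u} [Group H] {S : Finset H}

/-- bounded sequences of finitely supported functions -/
def hxX (H : Type u) : Submodule ℝ (ℕ → H → ℝ) where
  carrier := {x | (∀ k, fol1_fs (x k)) ∧ Bdd (fun k => nrm (x k))}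
  add_mem' := by
    rintro x y ⟨h1, M, hM⟩ ⟨h2, N, hN⟩
    refine ⟨fun k => fs_add (h1 k) (h2 k), M + N, fun k => ?_⟩
    rw [abs_of_nonneg (nrm_nonneg _)]
    have h3 := nrm_add_le (h1 k) (h2 k)
    have h4 := (le_abs_self _).trans (hM k)
    have h5 := (le_abs_self _).trans (hN k)
    exact h3.trans (add_le_add h4 h5)
  zero_mem' := ⟨fun k => ⟨∅, fun x _ => rfl⟩, 0, fun k => by
    have : nrm ((0 : ℕ → H → ℝ) k) = 0 := by
      unfold nrm fol1_ip
      simp
    show |nrm ((0 : ℕ → H → ℝ) k)| ≤ 0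
    rw [this, abs_zero]⟩
  smul_mem' := by
    rintro a x ⟨h1, M, hM⟩
    refine ⟨fun k => fs_smul (h1 k) a, |a| * M, fun k => ?_⟩
    have : nrm ((a • x) k) = |a| * nrm (x k) := by
      unfold nrm
      rw [Pi.smul_apply, ip_smul_left _ _ (h1 k), ip_smul_right _ _ (h1 k), ← mul_assoc,
        Real.sqrt_mul (mul_self_nonneg a), Real.sqrt_mul_self_eq_abs]
    show |nrm ((a • x) k)| ≤ |a| * M
    rw [this, abs_mul, abs_abs]
    exact mul_le_mul_of_nonneg_left (hM k) (abs_nonneg _)

omit [Group H] in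
theorem hx_bdd {x y : ℕ → H → ℝ} (hx : x ∈ hxX H) (hy : y ∈ hxX H) :
    Bdd (fun k => fol1_ip (x k) (y k)) := by
  obtain ⟨h1, M, hM⟩ := hx
  obtain ⟨h2, N, hN⟩ := hy
  refine ⟨M * N, fun k => ?_⟩
  have h3 := fol1_cs (h1 k) (h2 k)
  have h4 := (le_abs_self _).trans (hM k)
  have h5 := (le_abs_self _).trans (hN k)
  have h6 : |fol1_ip (x k) (y k)| ≤ nrm (x k) * nrm (y k) := by
    refine abs_le_of_sq_le_sq ?_ (mul_nonneg (nrm_nonneg _) (nrm_nonneg _))
    rw [mul_pow, nrm_sq, nrm_sq]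
    exact h3
  exact h6.trans (mul_le_mul h4 h5 (nrm_nonneg _) ((nrm_nonneg _).trans h4))

theorem ulim_add {a b : ℕ → ℝ} (ha : Bdd a) (hb : Bdd b) :
    ulim (fun k => a k + b k) = ulim a + ulim b :=
  ulim_eq ((tendsto_ulim ha).add (tendsto_ulim hb))

theorem ulim_smul {a : ℕ → ℝ} (r : ℝ) (ha : Bdd a) : ulim (fun k => r * a k) = r * ulim a :=
  ulim_eq ((tendsto_ulim ha).const_mul r)

theorem ulim_nonneg {a : ℕ → ℝ} (ha : Bdd a) (h : ∀ k, 0 ≤ a k) : 0 ≤ ulim a :=
  ge_of_tendsto (tendsto_ulim ha) (Eventually.of_forall h)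

theorem exists_harmonic [Infinite H] (hS : SymGen S) (h1 : (1 : H) ∈ S) {D : ℕ}
    (hG : GrowthLE H D) :
    ∃ (V : Type u) (_ : NormedAddCommGroup V) (_ : InnerProductSpace ℝ V)
      (_ : CompleteSpace V) (π : H →* (V ≃ₗᵢ[ℝ] V)) (b : H → V), IsCocycle π b ∧
      ∑ s ∈ S, b s = 0 ∧ ∃ s ∈ S, b s ≠ 0 := by
  let c : PreInnerProductSpace.Core ℝ (hxX H) :=
    { inner := fun x y => ulim (fun k => fol1_ip ((x : ℕ → H → ℝ) k) ((y : ℕ → H → ℝ) k))
      conj_inner_symm := fun x y => by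
        show ulim _ = ulim _
        congr 1
        funext k
        exact fol1_ip_comm _ _
      re_inner_nonneg := fun x => ulim_nonneg (hx_bdd x.2 x.2) fun k => fol1_ip_nonneg _
      add_left := fun x y z => by
        rw [← ulim_add (hx_bdd x.2 z.2) (hx_bdd y.2 z.2)]
        congr 1
        funext k
        exact ip_add_left _ (x.2.1 k) (y.2.1 k)
      smul_left := fun x y r => by
        show ulim _ = r * ulim _
        rw [← ulim_smul r (hx_bdd x.2 y.2)]
        congr 1
        funext k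
        exact ip_smul_left r _ (x.2.1 k) }
  let ρ : H → hxX H →ₗ[ℝ] hxX H := fun g =>
    { toFun := fun x => ⟨fun k => sh g ((x : ℕ → H → ℝ) k), fun k => fs_sh (x.2.1 k) g, by
        obtain ⟨M, hM⟩ := x.2.2
        exact ⟨M, fun k => by
          show |nrm (sh g ((x : ℕ → H → ℝ) k))| ≤ M
          rw [nrm_sh]
          exact hM k⟩⟩
      map_add' := fun x y => rfl
      map_smul' := fun r x => rfl }
  have hApos : ∀ k, 0 < Ak S k := fun k => Ak_pos hS k
  obtain ⟨w, hw⟩ : ∃ w : ℕ → ℝ, w = fun k => (Real.sqrt (Ak S k))⁻¹ := ⟨_, rfl⟩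
  have hw2 : ∀ k, w k * (w k * Ak S k) = 1 := by
    intro k
    rw [hw, ← mul_assoc, ← mul_inv, Real.mul_self_sqrt (hApos k).le, inv_mul_cancel₀ (hApos k).ne']
  have hw0 : ∀ k, 0 < w k := fun k => by
    rw [hw]
    exact inv_pos.2 (Real.sqrt_pos.2 (hApos k))
  have hbfs : ∀ g k, fol1_fs (w k • (sh g (fk S k) - fk S k)) := fun g k =>
    fs_smul (fs_sub (fs_sh (fk_fs k) g) (fk_fs k)) _
  have hnrmsm : ∀ (a : ℝ) (f : H → ℝ), fol1_fs f → nrm (a • f) = |a| * nrm f := by
    intro a f hf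
    unfold nrm
    rw [ip_smul_left _ _ hf, ip_smul_right _ _ hf, ← mul_assoc,
      Real.sqrt_mul (mul_self_nonneg a), Real.sqrt_mul_self_eq_abs]
  have hsum : ∀ k, ∑ s ∈ S, fol1_ip (w k • (sh s (fk S k) - fk S k))
      (w k • (sh s (fk S k) - fk S k)) = 2 * S.card := by
    intro k
    have h2 : ∀ s ∈ S, fol1_ip (w k • (sh s (fk S k) - fk S k))
        (w k • (sh s (fk S k) - fk S k)) =
        w k * w k * fol1_ip (sh s (fk S k) - fk S k) (sh s (fk S k) - fk S k) := by
      intro s _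
      have hfs := fs_sub (fs_sh (fk_fs (S := S) k) s) (fk_fs (S := S) k)
      rw [ip_smul_left _ _ hfs, ip_smul_right _ _ hfs]
      ring
    rw [Finset.sum_congr rfl h2, ← Finset.mul_sum, En_self hS.ne (fk_fs k)]
    have := hw2 k
    unfold Ak at this
    linear_combination (2 * (S.card : ℝ)) * this
  have hbb : ∀ g, Bdd (fun k => nrm (w k • (sh g (fk S k) - fk S k))) := by
    intro g
    refine ⟨len S g * Real.sqrt (2 * S.card), fun k => ?_⟩
    rw [abs_of_nonneg (nrm_nonneg _)]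
    have e : w k • (sh g (fk S k) - fk S k) = sh g (w k • fk S k) - w k • fk S k := by
      rw [smul_sub]; rfl
    rw [e]
    refine nrm_path hS (fs_smul (fk_fs k) _) (Real.sqrt_nonneg _) (fun s hs => ?_) g
    have e2 : sh s (w k • fk S k) - w k • fk S k = w k • (sh s (fk S k) - fk S k) := by
      rw [smul_sub]; rfl
    rw [e2]
    refine Real.sqrt_le_sqrt ?_
    rw [← hsum k]
    exact Finset.single_le_sum (f := fun s => fol1_ip (w k • (sh s (fk S k) - fk S k))
      (w k • (sh s (fk S k) - fk S k))) (fun s _ => fol1_ip_nonneg _) hs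
  let b₀ : H → hxX H := fun g => ⟨fun k => w k • (sh g (fk S k) - fk S k),
    fun k => hbfs g k, hbb g⟩
  obtain ⟨V, j1, j2, j3, π, b, j, hc, hbj, hadd, hn⟩ := hx_core c ρ
    (fun x => Subtype.ext (funext fun k => sh_one _))
    (fun g h x => Subtype.ext (funext fun k => sh_mul g h _))
    (fun g x => by
      show ulim _ = ulim _
      congr 1
      funext k
      exact ip_sh g _ _)
    b₀
    (fun g h => Subtype.ext (funext fun k => by
      show w k • (sh (g * h) (fk S k) - fk S k) =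
        w k • (sh g (fk S k) - fk S k) + sh g (w k • (sh h (fk S k) - fk S k))
      rw [sh_mul]
      funext x
      simp only [sh, Pi.smul_apply, Pi.sub_apply, Pi.add_apply, smul_eq_mul]
      ring))
  have hj0 : j 0 = 0 := by
    have := hadd 0 0
    rw [add_zero] at this
    simpa using this
  have hjsum : ∀ T : Finset H, ∑ s ∈ T, b s = j (∑ s ∈ T, b₀ s) := by
    intro T
    classical
    induction T using Finset.induction_on with
    | empty => simp [hj0]
    | insert a T ha ih => rw [Finset.sum_insert ha, Finset.sum_insert ha, hadd, ih, hbj]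
  refine ⟨V, j1, j2, j3, π, b, hc, ?_, ?_⟩
  · rw [hjsum S, ← norm_eq_zero, ← sq_eq_zero_iff, hn]
    show ulim _ = 0
    refine ulim_eq ?_
    have e : ∀ k, ((∑ s ∈ S, b₀ s : hxX H) : ℕ → H → ℝ) k =
        (-(w k * S.card)) • gk S k := by
      intro k
      have hc0 : (S.card : ℝ) ≠ 0 := by exact_mod_cast hS.ne.card_pos.ne'
      rw [Submodule.coe_sum, Finset.sum_apply]
      show ∑ s ∈ S, w k • (sh s (fk S k) - fk S k) = _
      rw [← Finset.smul_sum, Finset.sum_sub_distrib, Finset.sum_const]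
      unfold gk
      rw [avg_eq_sum]
      funext x
      simp only [Pi.smul_apply, Pi.sub_apply, Finset.sum_apply, smul_eq_mul, nsmul_eq_mul,
        Pi.mul_apply, Pi.natCast_apply]
      field_simp
      ring
    have e2 : ∀ k, fol1_ip (((∑ s ∈ S, b₀ s : hxX H) : ℕ → H → ℝ) k)
        (((∑ s ∈ S, b₀ s : hxX H) : ℕ → H → ℝ) k) =
        (S.card : ℝ) ^ 2 * (w k ^ 2 * fol1_ip (gk S k) (gk S k)) := by
      intro k
      have hg : fol1_fs (gk S k) := fs_sub (fk_fs k) (fol1_fs_avg (fk_fs k))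
      rw [e k, ip_smul_left _ _ hg, ip_smul_right _ _ hg]
      ring
    have h3 : Tendsto (fun k => (S.card : ℝ) ^ 2 * (w k ^ 2 * fol1_ip (gk S k) (gk S k)))
        atTop (𝓝 0) := by
      have hc0 : (0 : ℝ) < S.card := by exact_mod_cast hS.ne.card_pos
      rw [Metric.tendsto_atTop]
      intro ε hε
      obtain ⟨η, hη⟩ : ∃ η : ℝ, η = ε / (S.card : ℝ) ^ 3 := ⟨_, rfl⟩
      have hη0 : 0 < η := by rw [hη]; positivity
      obtain ⟨k0, hk0⟩ := eventually_atTop.1 (Ak_ratio (S := S) hS hG hη0)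
      refine ⟨k0, fun k hk => ?_⟩
      have h4 := hk0 k hk
      have h5 := gk_le (S := S) hS h1 k
      have h6 : 0 ≤ fol1_ip (gk S k) (gk S k) := fol1_ip_nonneg _
      rw [Real.dist_0_eq_abs, abs_of_nonneg (by positivity)]
      have h7 : 2 * (S.card : ℝ)⁻¹ * fol1_ip (gk S k) (gk S k) ≤ η * Ak S k := by linarith
      have h8 : fol1_ip (gk S k) (gk S k) ≤ S.card / 2 * (η * Ak S k) := by
        have := mul_le_mul_of_nonneg_left h7 (by positivity : (0 : ℝ) ≤ S.card / 2)
        refine le_trans (le_of_eq ?_) this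
        field_simp
      have h9 : w k ^ 2 * fol1_ip (gk S k) (gk S k) ≤ S.card / 2 * η := by
        calc w k ^ 2 * fol1_ip (gk S k) (gk S k) ≤ w k ^ 2 * (S.card / 2 * (η * Ak S k)) :=
              mul_le_mul_of_nonneg_left h8 (by positivity)
          _ = S.card / 2 * η * (w k * (w k * Ak S k)) := by ring
          _ = S.card / 2 * η := by rw [hw2 k, mul_one]
      calc (S.card : ℝ) ^ 2 * (w k ^ 2 * fol1_ip (gk S k) (gk S k)) ≤
          (S.card : ℝ) ^ 2 * (S.card / 2 * η) := mul_le_mul_of_nonneg_left h9 (by positivity)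
        _ = ε / 2 := by rw [hη]; field_simp
        _ < ε := by linarith
    have h4 : (fun k => fol1_ip (((∑ s ∈ S, b₀ s : hxX H) : ℕ → H → ℝ) k)
        (((∑ s ∈ S, b₀ s : hxX H) : ℕ → H → ℝ) k)) =
        fun k => (S.card : ℝ) ^ 2 * (w k ^ 2 * fol1_ip (gk S k) (gk S k)) := funext e2
    rw [h4]
    exact h3.mono_left Nat.hyperfilter_le_atTop
  · by_contra hcon
    push Not at hcon
    have h2 : ∀ s ∈ S, Tendsto (fun k => fol1_ip (w k • (sh s (fk S k) - fk S k))
        (w k • (sh s (fk S k) - fk S k))) (hyperfilter ℕ : Filter ℕ) (𝓝 0) := by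
      intro s hs
      have h3 := hn (b₀ s)
      rw [← hbj, hcon s hs, norm_zero] at h3
      have h4 : ulim (fun k => fol1_ip (w k • (sh s (fk S k) - fk S k))
        (w k • (sh s (fk S k) - fk S k))) = 0 := by
        rw [← show (0 : ℝ) ^ 2 = 0 by norm_num]
        exact h3.symm
      have h5 := tendsto_ulim (hx_bdd (b₀ s).2 (b₀ s).2)
      have h6 : ulim (fun k => fol1_ip ((b₀ s : ℕ → H → ℝ) k) ((b₀ s : ℕ → H → ℝ) k)) = 0 := h4
      rw [h6] at h5
      exact h5
    have h3 := tendsto_finsetSum S h2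
    simp only [hsum, Finset.sum_const_zero] at h3
    have h4 := tendsto_nhds_unique h3 tendsto_const_nhds
    have hc0 : (0 : ℝ) < S.card := by exact_mod_cast hS.ne.card_pos
    linarith

end Vale.Agent.P188.H796
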