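import Vale.Agent.P188.H796.WalkP

/-!
P188, Gromov-lite: the scalar product of finitely supported functions and the Dirichlet form.
-/

universe u v

open Filter Topology Pointwise

namespace Vale.Agent.P188.H796

open Vale.Agent.P188.SG

section Fs

variable {H : Type u}

theorem fs_add {f g : H → ℝ} (hf : fol1_fs f) (hg : fol1_fs g) : fol1_fs (f + g) := by
  classical
  obtain ⟨F, hF⟩ := hf
  obtain ⟨G, hG⟩ := hg
  refine ⟨F ∪ G, fun x hx => ?_⟩
  rw [Pi.add_apply, hF x fun h => hx (Finset.mem_union_left _ h),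
    hG x fun h => hx (Finset.mem_union_right _ h), add_zero]

theorem fs_smul {f : H → ℝ} (hf : fol1_fs f) (a : ℝ) : fol1_fs (a • f) := by
  obtain ⟨F, hF⟩ := hf
  exact ⟨F, fun x hx => by rw [Pi.smul_apply, hF x hx, smul_zero]⟩

theorem fs_sub {f g : H → ℝ} (hf : fol1_fs f) (hg : fol1_fs g) : fol1_fs (f - g) := by
  have := fs_add hf (fs_smul hg (-1))
  rwa [neg_one_smul, ← sub_eq_add_neg] at this

theorem ip_add_left {f g : H → ℝ} (h : H → ℝ) (hf : fol1_fs f) (hg : fol1_fs g) :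
    fol1_ip (f + g) h = fol1_ip f h + fol1_ip g h := by
  classical
  obtain ⟨F, hF⟩ := hf
  obtain ⟨G, hG⟩ := hg
  have hF' : ∀ x, x ∉ F ∪ G → f x = 0 := fun x hx =>
    hF x fun h => hx (Finset.mem_union_left _ h)
  have hG' : ∀ x, x ∉ F ∪ G → g x = 0 := fun x hx =>
    hG x fun h => hx (Finset.mem_union_right _ h)
  rw [fol1_ip_eq hF', fol1_ip_eq hG',
    fol1_ip_eq (F := F ∪ G) (fun x hx => by rw [Pi.add_apply, hF' x hx, hG' x hx, add_zero]),
    ← Finset.sum_add_distrib]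
  exact Finset.sum_congr rfl fun x _ => by rw [Pi.add_apply]; ring

theorem ip_smul_left (a : ℝ) {f : H → ℝ} (h : H → ℝ) (hf : fol1_fs f) :
    fol1_ip (a • f) h = a * fol1_ip f h := by
  obtain ⟨F, hF⟩ := hf
  rw [fol1_ip_eq hF,
    fol1_ip_eq (F := F) (fun x hx => by rw [Pi.smul_apply, hF x hx, smul_zero]), Finset.mul_sum]
  exact Finset.sum_congr rfl fun x _ => by rw [Pi.smul_apply, smul_eq_mul]; ring

theorem ip_sub_left {f g : H → ℝ} (h : H → ℝ) (hf : fol1_fs f) (hg : fol1_fs g) :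
    fol1_ip (f - g) h = fol1_ip f h - fol1_ip g h := by
  have := ip_add_left h hf (fs_smul hg (-1))
  rw [ip_smul_left _ _ hg, neg_one_smul, ← sub_eq_add_neg] at this
  rw [this]; ring

theorem ip_add_right {f g : H → ℝ} (h : H → ℝ) (hf : fol1_fs f) (hg : fol1_fs g) :
    fol1_ip h (f + g) = fol1_ip h f + fol1_ip h g := by
  rw [fol1_ip_comm, ip_add_left h hf hg, fol1_ip_comm f, fol1_ip_comm g]

theorem ip_smul_right (a : ℝ) {f : H → ℝ} (h : H → ℝ) (hf : fol1_fs f) :
    fol1_ip h (a • f) = a * fol1_ip h f := by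
  rw [fol1_ip_comm, ip_smul_left a h hf, fol1_ip_comm f]

theorem ip_sub_right {f g : H → ℝ} (h : H → ℝ) (hf : fol1_fs f) (hg : fol1_fs g) :
    fol1_ip h (f - g) = fol1_ip h f - fol1_ip h g := by
  rw [fol1_ip_comm, ip_sub_left h hf hg, fol1_ip_comm f, fol1_ip_comm g]

/-- the norm -/
noncomputable def nrm (f : H → ℝ) : ℝ := Real.sqrt (fol1_ip f f)

theorem nrm_sq (f : H → ℝ) : nrm f ^ 2 = fol1_ip f f := Real.sq_sqrt (fol1_ip_nonneg f)

theorem nrm_nonneg (f : H → ℝ) : 0 ≤ nrm f := Real.sqrt_nonneg _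

theorem nrm_add_le {f g : H → ℝ} (hf : fol1_fs f) (hg : fol1_fs g) :
    nrm (f + g) ≤ nrm f + nrm g := by
  refine Real.sqrt_le_iff.2 ⟨add_nonneg (nrm_nonneg _) (nrm_nonneg _), ?_⟩
  have h1 := fol1_cs hf hg
  have h2 : fol1_ip f g ≤ nrm f * nrm g := by
    refine le_of_sq_le_sq ?_ (mul_nonneg (nrm_nonneg _) (nrm_nonneg _))
    rw [mul_pow, nrm_sq, nrm_sq]
    exact h1
  rw [ip_add_left _ hf hg, ip_add_right _ hf hg, ip_add_right _ hf hg, fol1_ip_comm g f,
    ← nrm_sq f, ← nrm_sq g]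
  nlinarith

end Fs

variable {H : Type u} [Group H] {S : Finset H}

/-- the right regular representation -/
def sh (g : H) (f : H → ℝ) : H → ℝ := fun x => f (x * g)

theorem sh_one (f : H → ℝ) : sh 1 f = f := funext fun x => by rw [sh, mul_one]

theorem sh_mul (g h : H) (f : H → ℝ) : sh (g * h) f = sh g (sh h f) :=
  funext fun x => by simp only [sh, mul_assoc]

theorem sh_sub (g : H) (f f' : H → ℝ) : sh g (f - f') = sh g f - sh g f' := rfl

theorem fs_sh {f : H → ℝ} (hf : fol1_fs f) (g : H) : fol1_fs (sh g f) := fol1_fs_shift hf g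

theorem ip_sh (g : H) (f f' : H → ℝ) : fol1_ip (sh g f) (sh g f') = fol1_ip f f' := by
  unfold fol1_ip sh
  exact finsum_comp_equiv (Equiv.mulRight g) (f := fun x => f x * f' x)

theorem nrm_sh (g : H) (f : H → ℝ) : nrm (sh g f) = nrm f := by
  unfold nrm
  rw [ip_sh]

theorem avg_eq_sum (f : H → ℝ) : avg S f = (S.card : ℝ)⁻¹ • ∑ s ∈ S, sh s f := by
  funext x
  rw [Pi.smul_apply, Finset.sum_apply, smul_eq_mul]
  rfl

theorem avg_sub (f g : H → ℝ) : avg S (f - g) = avg S f - avg S g := by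
  funext x
  simp only [avg, Pi.sub_apply, Finset.sum_sub_distrib, mul_sub]

theorem avg_add (f g : H → ℝ) : avg S (f + g) = avg S f + avg S g := by
  funext x
  simp only [avg, Pi.add_apply, Finset.sum_add_distrib, mul_add]

theorem avg_smul (a : ℝ) (f : H → ℝ) : avg S (a • f) = a • avg S f := by
  funext x
  simp only [avg, Pi.smul_apply, smul_eq_mul, ← Finset.mul_sum]
  ring

theorem ip_avg_left {f : H → ℝ} (hf : fol1_fs f) (g : H → ℝ) :
    fol1_ip (avg S f) g = (S.card : ℝ)⁻¹ * ∑ s ∈ S, fol1_ip (sh s f) g :=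
  fol1_ip_avg_left hf g

/-- the Dirichlet form -/
noncomputable def En (S : Finset H) (f g : H → ℝ) : ℝ := fol1_ip f g - fol1_ip (avg S f) g

theorem nrm_diff_sq {f : H → ℝ} (hf : fol1_fs f) (s : H) :
    fol1_ip (sh s f - f) (sh s f - f) = 2 * (fol1_ip f f - fol1_ip (sh s f) f) := by
  have h1 := fs_sh hf s
  rw [ip_sub_left _ h1 hf, ip_sub_right _ h1 hf, ip_sub_right _ h1 hf, ip_sh,
    fol1_ip_comm f (sh s f)]
  ring

theorem En_self (hS : S.Nonempty) {f : H → ℝ} (hf : fol1_fs f) :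
    ∑ s ∈ S, fol1_ip (sh s f - f) (sh s f - f) = 2 * S.card * En S f f := by
  have hc : (S.card : ℝ) ≠ 0 := by exact_mod_cast hS.card_pos.ne'
  rw [Finset.sum_congr rfl fun s _ => nrm_diff_sq hf s, ← Finset.mul_sum,
    Finset.sum_sub_distrib, Finset.sum_const, nsmul_eq_mul, En, ip_avg_left hf]
  field_simp

theorem En_nonneg (hS : S.Nonempty) {f : H → ℝ} (hf : fol1_fs f) : 0 ≤ En S f f := by
  have h := En_self (S := S) hS hf
  have h1 : 0 ≤ ∑ s ∈ S, fol1_ip (sh s f - f) (sh s f - f) :=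
    Finset.sum_nonneg fun s _ => fol1_ip_nonneg _
  have hc : (0 : ℝ) < S.card := by exact_mod_cast hS.card_pos
  rw [h] at h1
  by_contra hcon
  push Not at hcon
  nlinarith

theorem En_comm (hS : ∀ s ∈ S, s⁻¹ ∈ S) {f : H → ℝ} (hf : fol1_fs f) (g : H → ℝ) :
    En S f g = En S g f := by
  unfold En
  rw [fol1_ip_symm hS hf, fol1_ip_comm f g, fol1_ip_comm f]

theorem En_cs (hne : S.Nonempty) (hS : ∀ s ∈ S, s⁻¹ ∈ S) {f g : H → ℝ} (hf : fol1_fs f)
    (hg : fol1_fs g) : En S f g ^ 2 ≤ En S f f * En S g g := by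
  have key : ∀ t : ℝ, 0 ≤ En S g g * (t * t) + (2 * En S f g) * t + En S f f := by
    intro t
    have h1 := En_nonneg (S := S) hne (fs_add hf (fs_smul hg t))
    have htg := fs_smul hg t
    have e : En S (f + t • g) (f + t • g) =
        En S g g * (t * t) + (2 * En S f g) * t + En S f f := by
      have h2 := En_comm hS hf g
      unfold En at h2 ⊢
      rw [avg_add, avg_smul, ip_add_left _ hf htg, ip_add_right _ hf htg, ip_add_right _ hf htg,
        ip_add_left _ (fol1_fs_avg hf) (fs_smul (fol1_fs_avg hg) t), ip_add_right _ hf htg,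
        ip_add_right _ hf htg, ip_smul_left _ _ hg, ip_smul_left _ _ hg,
        ip_smul_right _ _ hg, ip_smul_right _ _ hg, ip_smul_right _ _ hg,
        ip_smul_left _ _ (fol1_fs_avg hg), ip_smul_left _ _ (fol1_fs_avg hg),
        ip_smul_right _ _ hg]
      have h3 := fol1_ip_comm f g
      rw [h3] at h2 ⊢
      linear_combination (-t) * h2
    rwa [e] at h1
  have h := discrim_le_zero key
  unfold discrim at h
  nlinarith

end Vale.Agent.P188.H796
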