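import Vale.Agent.P188.H796.Ker
import Vale.Agent.P188.H796.CKer
import Vale.Agent.P188.H428.CleInst

/-!
The fields `τ`, `τ_CB`, `C_inv`, `C_ker`, `dec` of the real model for the concrete group `D.S`.
-/

open Finset Filter Topology
open scoped commutatorElement Pointwise

namespace Vale.Agent.P188.H796

open H615 H131 H269
open Agent.P188.H428 (IsLen C_le_one letter_mem sem_dom)
open Vale.Agent.P188.H530 (hgt)
open Vale.Agent.P188.Z1 (CBall)

/-- powers of a letter -/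
theorem zpow_mem_CBall {S V : Type} [Group S] {k : ℕ} {nm : V → ℝ} {h : Set V} {ex : V → S}
    {τ : (Fin k → ℤ) → S} {x : S} (h1 : x ∈ CBall nm h ex τ 1) (h2 : x⁻¹ ∈ CBall nm h ex τ 1)
    (z : ℤ) : x ^ z ∈ CBall nm h ex τ z.natAbs := by
  rw [← zw_prod, ← zw_length x z]
  refine list_mem_CBall fun a ha => ?_
  rcases zw_mem ha with rfl | rfl
  · exact h1
  · exact h2

section tau

variable {S : Type} [Group S] {k : ℕ}

/-- a section of `η` by sorted words -/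
theorem exists_τ (η : S →* Multiplicative (Fin k → ℤ)) (Ct : Subgroup S)
    (hs : ∀ w, ∃ c ∈ Ct, η c = w) : ∃ τ : (Fin k → ℤ) → S, (∀ w, τ w ∈ Ct) ∧
      (∀ w, η (τ w) = Multiplicative.ofAdd w) ∧ τ 0 = 1 ∧
      ∀ {V : Type} (nm : V → ℝ) (h : Set V) (ex : V → S) (w : Fin k → ℤ),
        τ w ∈ CBall nm h ex τ (∑ i, (w i).natAbs) := by
  choose t htC htη using fun i : Fin k => hs (Multiplicative.ofAdd (Pi.single i 1))
  have hηsw : ∀ (I : List (Fin k)) (w : Fin k → ℤ), Multiplicative.toAdd (η (sw t I w).prod) =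
      (I.map fun i => (w i) • (Pi.single i (1 : ℤ) : Fin k → ℤ)).sum := by
    intro I w
    induction I with
    | nil => simp [sw]
    | cons i I ih =>
      rw [sw_cons, List.prod_append, map_mul, toAdd_mul, ih, List.map_cons, List.sum_cons, zw_prod,
        map_zpow, toAdd_zpow, htη]
      rfl
  have hτs : ∀ j, (sg t (Pi.single j 1)).prod = t j := by
    intro j
    have h0 : Function.update (0 : Fin k → ℤ) j ((0 : Fin k → ℤ) j + 1) = Pi.single j 1 := by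
      rw [Pi.zero_apply, zero_add]; rfl
    obtain ⟨P, Q, hP, hQ, hlen, hprod, hupd⟩ := sg_split t 0 j
    have h1 : (sg t (0 : Fin k → ℤ)).length = 0 := by rw [sg_length]; simp
    rw [h1] at hlen
    have hP0 : P = [] := List.length_eq_zero_iff.1 (by omega)
    have hQ0 : Q = [] := List.length_eq_zero_iff.1 (by omega)
    have h2 := hupd 1
    rw [h0, hP0, hQ0] at h2
    simpa using h2
  refine ⟨fun w => (sg t w).prod, ?_, ?_, ?_, ?_⟩
  · intro w
    refine Ct.list_prod_mem fun a ha => ?_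
    obtain ⟨j, rfl | rfl⟩ := sw_mem t ha
    · exact htC j
    · exact Ct.inv_mem (htC j)
  · intro w
    apply Multiplicative.toAdd.injective
    simp only
    rw [sg, hηsw, ← Fin.sum_univ_def, toAdd_ofAdd]
    funext j
    rw [Finset.sum_apply, Finset.sum_eq_single j]
    · simp
    · intro i _ hij
      rw [Pi.smul_apply, Pi.single_eq_of_ne (Ne.symm hij), smul_zero]
    · intro hj
      exact absurd (Finset.mem_univ j) hj
  · exact sw_prod_zero t _
  · intro V nm h ex w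
    rw [← sg_length t w]
    refine list_mem_CBall fun a ha => ?_
    have hsingle : ∀ j i : Fin k, |(Pi.single j (1 : ℤ) : Fin k → ℤ) i| ≤ 1 := by
      intro j i
      by_cases hij : i = j
      · subst hij; simp
      · rw [Pi.single_eq_of_ne hij]; simp
    obtain ⟨j, rfl | rfl⟩ := sw_mem t ha
    · have := τ_mem_CBall (nm := nm) (h := h) (ex := ex) (τ := fun w => (sg t w).prod) (hsingle j)
      simp only [hτs] at this
      exact this
    · have := τ_inv_mem_CBall (nm := nm) (h := h) (ex := ex) (τ := fun w => (sg t w).prod)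
        (hsingle j)
      simp only [hτs] at this
      exact this

end tau

section conc

variable {Γ : Type} [Group Γ] {k : ℕ} {η : Γ →* Multiplicative (Fin k → ℤ)} {d n : ℕ}
  (D : MB η.ker d n)

/-- every height is attained on the Cartan group -/
theorem C_surj (habel : ∀ a b : Γ, ⁅a, b⁆ ∈ η.ker) (hη : Function.Surjective η) (t : D.S)
    (w : Multiplicative (Fin k → ℤ)) : ∃ c ∈ (expS D habel).C t, D.θ η c = w := by
  obtain ⟨g, hg⟩ := hη w
  obtain ⟨x, _, hx⟩ := (expS D habel).exists_mul_mem_C t (D.inΓ g)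
  refine ⟨_, hx, ?_⟩
  rw [map_mul, D.θ_ex, one_mul, D.θ_inΓ, hg]

/-- the Cartan group and the kernel -/
theorem C_ker_mem (habel : ∀ a b : Γ, ⁅a, b⁆ ∈ η.ker) {t c : D.S}
    (hc : c ∈ (expS D habel).C t) (hη : D.θ η c = 1) :
    ∃ v ∈ W D.AdE t 0, D.ex v = c := by
  obtain ⟨v, rfl⟩ := D.ex_of_θ c hη
  exact ⟨v, ((expS D habel).E_mem_C_iff t v).1 hc, rfl⟩

/-- words are in the Cartan group -/
theorem CBall_le_C (habel : ∀ a b : Γ, ⁅a, b⁆ ∈ η.ker) {t : D.S} {τ : (Fin k → ℤ) → D.S}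
    (hτ : ∀ w, τ w ∈ (expS D habel).C t) {m : ℕ} {c : D.S}
    (hc : c ∈ CBall D.nm (W D.AdE t 0 : Set D.R.V) D.ex τ m) : c ∈ (expS D habel).C t := by
  obtain ⟨L, _, rfl, hL⟩ := hc
  exact Subgroup.list_prod_mem _ fun a ha => letter_mem D habel hτ (hL a ha)

/-- **field `C_inv`** -/
theorem C_inv (habel : ∀ a b : Γ, ⁅a, b⁆ ∈ η.ker) {t : D.S} {τ : (Fin k → ℤ) → D.S}
    (hτ : ∀ w, τ w ∈ (expS D habel).C t) {m : ℕ} {c : D.S}
    (hc : c ∈ CBall D.nm (W D.AdE t 0 : Set D.R.V) D.ex τ m) (r : ℝ) :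
    ∀ v ∈ W D.AdE t r, D.AdE c v ∈ W D.AdE t r :=
  (expS D habel).C_inv (CBall_le_C D habel hτ hc) r

/-- `C_le` on the neutral space -/
theorem C_le_zero (habel : ∀ a b : Γ, ⁅a, b⁆ ∈ η.ker) {t : D.S} (hs : Sep D.AdE t)
    {τ : (Fin k → ℤ) → D.S} (hτ : ∀ w, τ w ∈ (expS D habel).C t) :
    ∃ (C : ℝ) (e : ℕ), 0 ≤ C ∧ ∀ m : ℕ, ∀ c ∈ CBall D.nm (W D.AdE t 0 : Set D.R.V) D.ex τ m,
      ∀ v ∈ W D.AdE t 0, D.nm (D.AdE c v) ≤ C * (1 + m) ^ e * D.nm v := by
  by_cases h0 : W D.AdE t 0 = ⊥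
  · refine ⟨0, 0, le_rfl, fun m c _ v hv => ?_⟩
    rw [h0, Submodule.mem_bot] at hv
    subst hv
    simp
  · obtain ⟨b, hb, hbt⟩ := (expS D habel).exists_weight t h0
    have hb0 : b = 0 := hs.1 b hb hbt
    obtain ⟨C, e, hC, h1⟩ := C_le_one D habel hs hτ (0 : Z1.Ht k →L[ℝ] ℝ) hb (by
      intro c
      rw [hb0]; rfl)
    refine ⟨C, e, hC, fun m c hc v hv => ?_⟩
    have := h1 m c hc v hv
    simpa using this

/-- **field `C_ker`** -/
theorem C_ker (habel : ∀ a b : Γ, ⁅a, b⁆ ∈ η.ker) {t : D.S} (hs : Sep D.AdE t)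
    {τ : (Fin k → ℤ) → D.S} (hτ : ∀ w, τ w ∈ (expS D habel).C t)
    (η_τ : ∀ w, D.θ η (τ w) = Multiplicative.ofAdd w) :
    ∃ (C : ℝ) (e : ℕ), 0 ≤ C ∧ ∀ m : ℕ, ∀ c ∈ CBall D.nm (W D.AdE t 0 : Set D.R.V) D.ex τ m,
      D.θ η c = 1 → ∃ v ∈ W D.AdE t 0, D.ex v = c ∧ D.nm v ≤ C * (1 + m) ^ e := by
  obtain ⟨C, e, hC, hle⟩ := C_le_zero D habel hs hτ
  obtain ⟨C', e', hC', hlist⟩ := D.ex_list_bound
  exact ker_poly D.ex_injective D.ex_AdE D.θ_ex η_τ hτ
    (fun c hc h => C_ker_mem D habel hc h) (fun m c hc v hv => C_inv D habel hτ hc 0 v hv)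
    hC hle hC'.le hlist (fun v hv => (expS D habel).E_mem_C hv)

/-- exponentials of neutral vectors are words -/
theorem ex_mem_CBall_ceil {t : D.S} {τ : (Fin k → ℤ) → D.S} {v : D.R.V} (hv : v ∈ W D.AdE t 0)
    {m : ℕ} (hm : D.nm v ≤ m) : D.ex v ∈ CBall D.nm (W D.AdE t 0 : Set D.R.V) D.ex τ m := by
  rcases Nat.eq_zero_or_pos m with rfl | hm0
  · have h1 : D.nm v = 0 := le_antisymm (by simpa using hm) (apply_nonneg D.nm _)
    rw [D.nm_zero v h1, D.ex_zero]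
    exact one_mem_CBall _
  · have hm0' : (0 : ℝ) < m := by exact_mod_cast hm0
    have h1 : D.ex v = (D.ex ((m : ℝ)⁻¹ • v)) ^ m := by
      change D.inN (D.R.Ex v) = (D.inN (D.R.Ex _)) ^ m
      rw [← map_pow, ← D.R.Ex_nsmul, smul_smul, mul_inv_cancel₀ hm0'.ne', one_smul]
    have h2 : D.ex ((m : ℝ)⁻¹ • v) ∈ CBall D.nm (W D.AdE t 0 : Set D.R.V) D.ex τ 1 := by
      refine ex_mem_CBall (Submodule.smul_mem _ _ hv) ?_
      rw [map_smul_eq_mul, norm_inv, Real.norm_natCast, inv_mul_le_iff₀ hm0', mul_one]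
      exact hm
    rw [h1]
    have h3 := list_mem_CBall (L := List.replicate m (D.ex ((m : ℝ)⁻¹ • v)))
      (fun a ha => by rw [List.eq_of_mem_replicate ha]; exact h2)
    rwa [List.prod_replicate, List.length_replicate] at h3

/-- elements of the Cartan group are words -/
theorem exists_CBall (habel : ∀ a b : Γ, ⁅a, b⁆ ∈ η.ker) {t : D.S} {τ : (Fin k → ℤ) → D.S}
    (hτ : ∀ w, τ w ∈ (expS D habel).C t) (η_τ : ∀ w, D.θ η (τ w) = Multiplicative.ofAdd w)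
    (hCB : ∀ w, ∃ m, τ w ∈ CBall D.nm (W D.AdE t 0 : Set D.R.V) D.ex τ m) {c : D.S}
    (hc : c ∈ (expS D habel).C t) : ∃ m, c ∈ CBall D.nm (W D.AdE t 0 : Set D.R.V) D.ex τ m := by
  set w := Multiplicative.toAdd (D.θ η c) with hw
  obtain ⟨v, hv, hvc⟩ := C_ker_mem D habel (c := c * (τ w)⁻¹)
    (Subgroup.mul_mem _ hc (Subgroup.inv_mem _ (hτ w))) (by
      rw [map_mul, map_inv, η_τ, hw, ofAdd_toAdd, mul_inv_cancel])
  obtain ⟨m, hm⟩ := hCB w
  obtain ⟨m', hm'⟩ := exists_nat_ge (D.nm v)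
  refine ⟨m' + m, ?_⟩
  have : c = D.ex v * τ w := by rw [hvc]; group
  rw [this]
  exact mul_mem_CBall (ex_mem_CBall_ceil D hv hm') hm

/-- linear neutral projection -/
theorem exists_proj (t : D.S) : ∃ π : D.R.V →ₗ[ℝ] D.R.V, (∀ v, π v ∈ W D.AdE t 0) ∧
    ∀ v, v - π v ∈ eId D.AdE t := by
  classical
  let e : Submodule ℝ D.R.V := (eId D.AdE t).toSubmodule
  let f : (W D.AdE t 0) →ₗ[ℝ] (D.R.V ⧸ e) := e.mkQ.comp (W D.AdE t 0).subtype
  have hf : Function.Surjective f := by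
    intro y
    obtain ⟨x, rfl⟩ := e.mkQ_surjective y
    obtain ⟨x0, hx0, hx⟩ := exists_neutral_add D.AdE t x
    refine ⟨⟨x0, hx0⟩, ?_⟩
    change e.mkQ x0 = e.mkQ x
    rw [Submodule.mkQ_apply, Submodule.mkQ_apply, eq_comm, Submodule.Quotient.eq]
    exact hx
  obtain ⟨g, hg⟩ := f.exists_rightInverse_of_surjective (LinearMap.range_eq_top.2 hf)
  refine ⟨(W D.AdE t 0).subtype.comp (g.comp e.mkQ), fun v => (g (e.mkQ v)).2, fun v => ?_⟩
  have h1 : e.mkQ ((g (e.mkQ v) : W D.AdE t 0) : D.R.V) = e.mkQ v :=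
    LinearMap.congr_fun hg (e.mkQ v)
  rw [eq_comm, Submodule.mkQ_apply, Submodule.mkQ_apply, Submodule.Quotient.eq] at h1
  exact h1

/-- **field `dec`** -/
theorem dec (habel : ∀ a b : Γ, ⁅a, b⁆ ∈ η.ker) {F : Set Γ} (hF : F.Finite)
    (hgen : Subgroup.closure F = ⊤) {t : D.S} {τ : (Fin k → ℤ) → D.S}
    (hτ : ∀ w, τ w ∈ (expS D habel).C t) (η_τ : ∀ w, D.θ η (τ w) = Multiplicative.ofAdd w)
    (hCB : ∀ w, ∃ m, τ w ∈ CBall D.nm (W D.AdE t 0 : Set D.R.V) D.ex τ m) :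
    ∃ K : ℕ, ∀ s : D.S, ∃ v ∈ eId D.AdE t,
      ∃ c ∈ CBall D.nm (W D.AdE t 0 : Set D.R.V) D.ex τ (K * wl (D.U F) s), s = D.ex v * c := by
  have hF' : (F ∪ F⁻¹).Finite := hF.union hF.inv
  have heinv : ∀ g, ∀ x ∈ eId D.AdE t, D.AdE g x ∈ eId D.AdE t := (expS D habel).lrep.eId_inv t
  -- letters from `Γ`
  have h1 : ∀ f : Γ, ∃ m : ℕ, ∃ v ∈ eId D.AdE t,
      ∃ c ∈ CBall D.nm (W D.AdE t 0 : Set D.R.V) D.ex τ m, D.inΓ f = D.ex v * c := by
    intro f
    obtain ⟨x, hx, hxC⟩ := (expS D habel).exists_mul_mem_C t (D.inΓ f)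
    obtain ⟨m, hm⟩ := exists_CBall D habel hτ η_τ hCB hxC
    refine ⟨m, -x, neg_mem hx, _, hm, ?_⟩
    rw [(expS D habel).neg, inv_mul_cancel_left]
  choose m hm using h1
  obtain ⟨K1, hK1⟩ := (hF'.image m).bddAbove
  -- letters from the ball
  obtain ⟨π, hπ, hπe⟩ := exists_proj D t
  obtain ⟨K2, hK20, hK2⟩ := sem_dom D.nm D.nm_zero (D.nm.comp π)
  obtain ⟨K3, hK3⟩ := exists_nat_ge K2
  have hgenr : ∀ z : D.S, (z ∈ D.U F ∨ z⁻¹ ∈ D.U F) → ∃ v ∈ eId D.AdE t,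
      ∃ c ∈ CBall D.nm (W D.AdE t 0 : Set D.R.V) D.ex τ (K1 + K3), z = D.ex v * c := by
    intro z hz
    rcases D.mem_U hz with ⟨f, hf, rfl⟩ | ⟨v, hv, rfl⟩
    · obtain ⟨x, hx, c, hc, e⟩ := hm f
      refine ⟨x, hx, c, CBall_mono ?_ hc, e⟩
      exact (hK1 ⟨f, hf, rfl⟩).trans (Nat.le_add_right _ _)
    · obtain ⟨y, hy, he⟩ := (expS D habel).exists_left (eId D.AdE t) (π v) v (hπe v)
      refine ⟨y, hy, D.ex (π v), CBall_mono (Nat.le_add_left K3 K1)
        (ex_mem_CBall_ceil D (hπ v) ?_), he⟩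
      have h2 : D.nm (π v) ≤ K2 * D.nm v := hK2 v
      have h3 : D.nm v ≤ 1 := hv
      have h4 : 0 ≤ D.nm v := apply_nonneg D.nm _
      nlinarith
  refine ⟨K1 + K3, fun s => ?_⟩
  obtain ⟨L, e1, e2, e3⟩ := wl_list (D.closure_U hgen) s
  rw [← e1, ← e3]
  clear e1 e3
  induction L with
  | nil =>
    refine ⟨0, zero_mem _, 1, one_mem_CBall _, ?_⟩
    rw [List.prod_nil, D.ex_zero, one_mul]
  | cons a L ih =>
    obtain ⟨v, hv, c, hc, e⟩ := ih fun b hb => e2 b (List.mem_cons_of_mem _ hb)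
    obtain ⟨v', hv', c', hc', e'⟩ := hgenr a (e2 a List.mem_cons_self)
    obtain ⟨z, hz, hez⟩ := (expS D habel).mul_mem_ideal (eId D.AdE t) hv' (heinv c' v hv)
    refine ⟨z, hz, c' * c, ?_, ?_⟩
    · rw [List.length_cons, mul_add, mul_one, add_comm]
      exact mul_mem_CBall hc' hc
    · rw [List.prod_cons, e, e', ← hez, D.ex_AdE]
      group

/-- word length of a word in the Cartan group -/
theorem wl_CBall (F : Set Γ) (hgen : Subgroup.closure F = ⊤) (h : Set D.R.V)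
    (τ : (Fin k → ℤ) → D.S) : ∃ K : ℕ, ∀ m, ∀ c ∈ CBall D.nm h D.ex τ m,
      wl (D.U F) c ≤ K * m := by
  obtain ⟨M, hM⟩ := ((Set.finite_Icc (-1 : Fin k → ℤ) 1).image fun w => wl (D.U F) (τ w)).bddAbove
  refine ⟨max M 1, ?_⟩
  rintro m c ⟨L, hL1, rfl, hL2⟩
  refine le_trans ?_ (Nat.mul_le_mul_left _ hL1)
  clear hL1
  induction L with
  | nil => simp [wl_one]
  | cons a L ih =>
    rw [List.prod_cons, List.length_cons, mul_add, mul_one]
    have h1 := wl_mul (D.closure_U hgen) a L.prod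
    have h2 := ih fun b hb => hL2 b (List.mem_cons_of_mem _ hb)
    have h3 : wl (D.U F) a ≤ max M 1 := by
      rcases hL2 a List.mem_cons_self with ⟨v, _, hv, rfl⟩ | ⟨w, hw, hwa⟩
      · refine le_trans ?_ (le_max_right _ _)
        exact D.wl_ex_le F v 1 (by rw [Nat.cast_one]; exact hv)
      · refine le_trans ?_ (le_max_left _ _)
        have h4 : wl (D.U F) (τ w) ≤ M := hM ⟨w, by
          rw [Set.mem_Icc]
          exact ⟨fun i => (abs_le.1 (hw i)).1, fun i => (abs_le.1 (hw i)).2⟩, rfl⟩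
        rcases hwa with rfl | rfl
        · exact h4
        · rwa [wl_inv (D.closure_U hgen)]
    omega

end conc

end Vale.Agent.P188.H796
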