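import Vale.Agent.P188.H796.InstA
import Vale.Agent.P188.Z1.RModel

/-!
Products of exponentials, and neutral words in the Cartan group have polynomial size.
-/

open Finset Filter Topology
open scoped commutatorElement Pointwise

universe u v w

namespace Vale.Agent.P188.H796

open H615 H131
open Agent.P188.H428 (IsLen)
open Vale.Agent.P188.H530 (hgt)
open Vale.Agent.P188.Z1 (CBall)

section conc

variable {Γ : Type u} [Group Γ] {k : ℕ} {η : Γ →* Multiplicative (Fin k → ℤ)} {d n : ℕ}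
  (D : MB η.ker d n)

/-- **products of exponentials**: polynomial bound -/
theorem MB.ex_list_bound : ∃ (C : ℝ) (e : ℕ), 0 < C ∧ ∀ A : ℝ, 0 ≤ A → ∀ L : List D.R.V,
    (∀ v ∈ L, D.nm v ≤ A) → ∃ u, D.ex u = (L.map D.ex).prod ∧
      D.nm u ≤ C * (1 + A + L.length) ^ e := by
  obtain ⟨C1, hC1, h1⟩ := RD.exists_ex_bound (A := D.Alg) D.R.m
  obtain ⟨C2, hC2, h2⟩ := D.R.exists_Lo_bound
  set B : ℝ := C1 + ‖(1 : D.Alg)‖ with hB
  have hB0 : 0 < B := by positivity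
  refine ⟨C2 * (1 + ‖(1 : D.Alg)‖ + ‖(1 : D.Alg)‖ * D.R.m * (1 + B) ^ D.R.m) ^ D.R.m,
    (D.R.m + 1) * D.R.m * D.R.m, by positivity, fun A hA L hL => ?_⟩
  refine ⟨D.R.Lo (L.map D.R.Ex).prod, ?_, ?_⟩
  · rw [MB.ex, D.R.Ex_Lo, map_list_prod, List.map_map]
    rfl
  rw [D.nm_eq]
  set r : ℝ := 1 + A + L.length with hr
  have hl0 : (0 : ℝ) ≤ L.length := Nat.cast_nonneg _
  have hr1 : 1 ≤ r := by linarith
  have hK : 0 ≤ B * (1 + A) ^ D.R.m := by positivity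
  have h3 := D.R.norm_prod_le ((L.map D.R.Ex).map D.R.toA) hK (by
    intro u hu
    rw [List.mem_map] at hu
    obtain ⟨s, _, rfl⟩ := hu
    exact D.R.E_sub_one_mem s) (by
    intro u hu
    rw [List.mem_map] at hu
    obtain ⟨s, hs, rfl⟩ := hu
    rw [List.mem_map] at hs
    obtain ⟨v, hv, rfl⟩ := hs
    have e2 : D.R.toA (D.R.Ex v) = H796.ex D.R.m (v : D.Alg) := D.R.toA_Ex v
    rw [e2]
    have h4 := h1 (v : D.Alg)
    have h5 : ‖(v : D.Alg)‖ ≤ A := hL v hv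
    have h6 : (1 + ‖(v : D.Alg)‖) ^ D.R.m ≤ (1 + A) ^ D.R.m :=
      pow_le_pow_left₀ (by positivity) (by linarith) _
    have h7 : 1 ≤ (1 + A) ^ D.R.m := one_le_pow₀ (by linarith)
    refine (norm_sub_le _ _).trans ?_
    rw [hB, add_mul]
    refine add_le_add (h4.trans (mul_le_mul_of_nonneg_left h6 hC1.le)) ?_
    exact le_mul_of_one_le_right (norm_nonneg _) h7)
  rw [← map_list_prod, List.length_map, List.length_map] at h3
  have h8 : 1 + (L.length : ℝ) * (B * (1 + A) ^ D.R.m) ≤ (1 + B) * r ^ (D.R.m + 1) := by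
    have e1 : (1 + A) ^ D.R.m ≤ r ^ D.R.m := pow_le_pow_left₀ (by linarith) (by linarith) _
    have e2 : 1 ≤ r ^ (D.R.m + 1) := one_le_pow₀ hr1
    have e3 : (L.length : ℝ) * (1 + A) ^ D.R.m ≤ r ^ (D.R.m + 1) := by
      rw [pow_succ']
      exact mul_le_mul (by linarith) e1 (by positivity) (by linarith)
    calc 1 + (L.length : ℝ) * (B * (1 + A) ^ D.R.m)
        = 1 + B * ((L.length : ℝ) * (1 + A) ^ D.R.m) := by ring
      _ ≤ r ^ (D.R.m + 1) + B * r ^ (D.R.m + 1) :=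
          add_le_add e2 (mul_le_mul_of_nonneg_left e3 hB0.le)
      _ = _ := by ring
  have h9 : ‖D.R.toA (L.map D.R.Ex).prod‖ ≤
      ‖(1 : D.Alg)‖ * D.R.m * ((1 + B) ^ D.R.m * r ^ ((D.R.m + 1) * D.R.m)) := by
    refine h3.trans ?_
    refine mul_le_mul_of_nonneg_left ?_ (by positivity)
    calc (1 + (L.length : ℝ) * (B * (1 + A) ^ D.R.m)) ^ D.R.m
        ≤ ((1 + B) * r ^ (D.R.m + 1)) ^ D.R.m := pow_le_pow_left₀ (by positivity) h8 _
      _ = _ := by rw [mul_pow, ← pow_mul]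
  have hrp : 1 ≤ r ^ ((D.R.m + 1) * D.R.m) := one_le_pow₀ hr1
  have h10 : 1 + ‖D.R.toA (L.map D.R.Ex).prod - 1‖ ≤
      (1 + ‖(1 : D.Alg)‖ + ‖(1 : D.Alg)‖ * D.R.m * (1 + B) ^ D.R.m) *
        r ^ ((D.R.m + 1) * D.R.m) := by
    have e1 := norm_sub_le (D.R.toA (L.map D.R.Ex).prod) 1
    have e2 : 1 + ‖(1 : D.Alg)‖ ≤ (1 + ‖(1 : D.Alg)‖) * r ^ ((D.R.m + 1) * D.R.m) :=
      le_mul_of_one_le_right (by positivity) hrp
    calc 1 + ‖D.R.toA (L.map D.R.Ex).prod - 1‖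
        ≤ (1 + ‖(1 : D.Alg)‖) + ‖(1 : D.Alg)‖ * D.R.m * ((1 + B) ^ D.R.m *
            r ^ ((D.R.m + 1) * D.R.m)) := by linarith
      _ ≤ (1 + ‖(1 : D.Alg)‖) * r ^ ((D.R.m + 1) * D.R.m) +
            ‖(1 : D.Alg)‖ * D.R.m * ((1 + B) ^ D.R.m * r ^ ((D.R.m + 1) * D.R.m)) := by linarith
      _ = _ := by ring
  refine (h2 _).trans ?_
  calc C2 * (1 + ‖D.R.toA (L.map D.R.Ex).prod - 1‖) ^ D.R.m
      ≤ C2 * ((1 + ‖(1 : D.Alg)‖ + ‖(1 : D.Alg)‖ * D.R.m * (1 + B) ^ D.R.m) *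
        r ^ ((D.R.m + 1) * D.R.m)) ^ D.R.m := by gcongr
    _ = _ := by rw [mul_pow, ← pow_mul]; ring

end conc

end Vale.Agent.P188.H796
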