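import Mathlib

/-!
Polynomial curves with values in a real vector space or algebra, and real powers of unipotent
elements.
-/

open Finset

namespace Vale.Agent.P188.H796

/-! ### polynomial curves -/

section PC

variable {E F : Type*} [AddCommGroup E] [Module ℝ E] [AddCommGroup F] [Module ℝ F]

/-- polynomial curves -/
def PC (f : ℝ → E) : Prop := ∃ (n : ℕ) (a : ℕ → E), ∀ t, f t = ∑ k ∈ range n, t ^ k • a k

theorem PC.congr {f g : ℝ → E} (hf : PC f) (h : ∀ t, g t = f t) : PC g := by
  obtain ⟨n, a, ha⟩ := hf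
  exact ⟨n, a, fun t => by rw [h t, ha t]⟩

theorem PC.extend {f : ℝ → E} (hf : PC f) :
    ∃ (n : ℕ) (a : ℕ → E), (∀ k, n ≤ k → a k = 0) ∧ ∀ m, n ≤ m → ∀ t,
      f t = ∑ k ∈ range m, t ^ k • a k := by
  obtain ⟨n, a, ha⟩ := hf
  refine ⟨n, fun k => if k < n then a k else 0, fun k hk => if_neg (by omega), ?_⟩
  intro m hm t
  rw [ha t]
  have : range n ⊆ range m := range_subset_range.2 hm
  rw [← sum_subset this (f := fun k => t ^ k • (if k < n then a k else 0))]
  · refine sum_congr rfl fun k hk => ?_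
    rw [if_pos (mem_range.1 hk)]
  · intro k _ hk
    simp only [mem_range] at hk
    simp [hk]

theorem PC.const (v : E) : PC (fun _ => v) := ⟨1, fun _ => v, fun t => by simp⟩

theorem PC.zero : PC (fun _ => (0 : E)) := PC.const 0

theorem PC.id : PC (fun t : ℝ => t) :=
  ⟨2, fun k => if k = 1 then 1 else 0, fun t => by simp⟩

theorem PC.add {f g : ℝ → E} (hf : PC f) (hg : PC g) : PC (fun t => f t + g t) := by
  obtain ⟨n, a, _, ha⟩ := hf.extend
  obtain ⟨m, b, _, hb⟩ := hg.extend
  refine ⟨max n m, fun k => a k + b k, fun t => ?_⟩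
  beta_reduce
  rw [ha _ (le_max_left n m) t, hb _ (le_max_right n m) t, ← sum_add_distrib]
  exact sum_congr rfl fun k _ => (smul_add _ _ _).symm

theorem PC.map {f : ℝ → E} (hf : PC f) (L : E →ₗ[ℝ] F) : PC (fun t => L (f t)) := by
  obtain ⟨n, a, ha⟩ := hf
  exact ⟨n, fun k => L (a k), fun t => by simp [ha t]⟩

theorem PC.neg {f : ℝ → E} (hf : PC f) : PC (fun t => - f t) :=
  hf.map (-LinearMap.id)

theorem PC.sub {f g : ℝ → E} (hf : PC f) (hg : PC g) : PC (fun t => f t - g t) :=
  (hf.add hg.neg).congr fun t => sub_eq_add_neg _ _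

theorem PC.sum {ι : Type*} (s : Finset ι) {f : ι → ℝ → E} (hf : ∀ i ∈ s, PC (f i)) :
    PC (fun t => ∑ i ∈ s, f i t) := by
  classical
  induction s using Finset.induction_on with
  | empty => exact PC.zero.congr fun t => by simp
  | insert i s hi ih =>
    refine ((hf i (mem_insert_self i s)).add
      (ih fun j hj => hf j (mem_insert_of_mem hj))).congr fun t => ?_
    rw [sum_insert hi]

/-- bilinear operations -/
theorem PC.bilin {G : Type*} [AddCommGroup G] [Module ℝ G] {f : ℝ → E} {g : ℝ → F}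
    (hf : PC f) (hg : PC g) (B : E →ₗ[ℝ] F →ₗ[ℝ] G) : PC (fun t => B (f t) (g t)) := by
  obtain ⟨n, a, ha⟩ := hf
  obtain ⟨m, b, hb⟩ := hg
  have key : ∀ t, B (f t) (g t) = ∑ k ∈ range n, ∑ l ∈ range m, t ^ (k + l) • B (a k) (b l) := by
    intro t
    rw [ha t, hb t]
    simp only [map_sum, LinearMap.sum_apply, map_smul, LinearMap.smul_apply, smul_sum, smul_smul]
    rw [sum_comm]
    exact sum_congr rfl fun k _ => sum_congr rfl fun l _ => by rw [pow_add]; ring_nf
  have hmon : ∀ (k : ℕ) (v : G), PC (fun t : ℝ => t ^ k • v) := by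
    intro k v
    refine ⟨k + 1, fun j => if j = k then v else 0, fun t => ?_⟩
    simp
  refine (PC.sum (range n) (f := fun k t => ∑ l ∈ range m, t ^ (k + l) • B (a k) (b l))
    fun k _ => PC.sum (range m) fun l _ => hmon _ _).congr key

theorem PC.smul {f : ℝ → ℝ} {g : ℝ → E} (hf : PC f) (hg : PC g) : PC (fun t => f t • g t) :=
  hf.bilin hg (LinearMap.lsmul ℝ E)

theorem PC.eq_zero_of_nat {f : ℝ → E} (hf : PC f) (h : ∀ n : ℕ, f n = 0) : ∀ t, f t = 0 := by
  obtain ⟨n, a, ha⟩ := hf
  -- all coefficients vanish: use linear functionals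
  intro t
  by_contra hne
  obtain ⟨φ, hφ⟩ : ∃ φ : E →ₗ[ℝ] ℝ, φ (f t) ≠ 0 := by
    by_contra hcon
    push Not at hcon
    exact hne ((Module.forall_dual_apply_eq_zero_iff ℝ (f t)).1 hcon)
  let p : Polynomial ℝ := ∑ k ∈ range n, Polynomial.C (φ (a k)) * Polynomial.X ^ k
  have hp : ∀ s : ℝ, p.eval s = φ (f s) := by
    intro s
    rw [ha s]
    simp only [p, Polynomial.eval_finsetSum, Polynomial.eval_mul, Polynomial.eval_C,
      Polynomial.eval_pow, Polynomial.eval_X, map_sum, map_smul, smul_eq_mul]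
    exact sum_congr rfl fun k _ => mul_comm _ _
  have hp0 : p = 0 := by
    refine Polynomial.eq_zero_of_infinite_isRoot p ?_
    refine Set.Infinite.mono (s := Set.range fun k : ℕ => (k : ℝ)) ?_
      (Set.infinite_range_of_injective Nat.cast_injective)
    rintro _ ⟨k, rfl⟩
    change p.eval (k : ℝ) = 0
    rw [hp, h k, map_zero]
  have := hp t
  rw [hp0, Polynomial.eval_zero] at this
  exact hφ this.symm

theorem PC.eq_of_nat {f g : ℝ → E} (hf : PC f) (hg : PC g) (h : ∀ n : ℕ, f n = g n) :
    ∀ t, f t = g t := by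
  intro t
  have := (hf.sub hg).eq_zero_of_nat (fun n => by simp [h n]) t
  exact sub_eq_zero.1 this

end PC

section PCalg

variable {A : Type*} [Ring A] [Algebra ℝ A]

theorem PC.mul {f g : ℝ → A} (hf : PC f) (hg : PC g) : PC (fun t => f t * g t) :=
  hf.bilin hg (LinearMap.mul ℝ A)

theorem PC.pow {f : ℝ → A} (hf : PC f) (n : ℕ) : PC (fun t => f t ^ n) := by
  induction n with
  | zero => simpa using PC.const (1 : A)
  | succ n ih => exact (ih.mul hf).congr fun t => pow_succ _ _

theorem PC.list_prod {ι : Type*} (L : List ι) {f : ι → ℝ → A} (hf : ∀ i ∈ L, PC (f i)) :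
    PC (fun t => (L.map fun i => f i t).prod) := by
  induction L with
  | nil => simpa using PC.const (1 : A)
  | cons i L ih =>
    refine ((hf i (by simp)).mul (ih fun j hj => hf j (by simp [hj]))).congr fun t => ?_
    simp

theorem PC.finset_prod {ι : Type*} (s : Finset ι) {f : ι → ℝ → ℝ} (hf : ∀ i ∈ s, PC (f i)) :
    PC (fun t => ∏ i ∈ s, f i t) := by
  classical
  induction s using Finset.induction_on with
  | empty => simpa using PC.const (1 : ℝ)
  | insert i s hi ih =>
    refine ((hf i (mem_insert_self i s)).mul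
      (ih fun j hj => hf j (mem_insert_of_mem hj))).congr fun t => ?_
    rw [prod_insert hi]

/-! ### real binomial coefficients -/

/-- binomial coefficient `t (t-1) ... (t-k+1) / k!` -/
noncomputable def bc (k : ℕ) (t : ℝ) : ℝ := ∏ i ∈ range k, ((t - i) / (i + 1))

theorem bc_zero (t : ℝ) : bc 0 t = 1 := by simp [bc]

theorem bc_succ (k : ℕ) (t : ℝ) : bc (k + 1) t = bc k t * ((t - k) / (k + 1)) := by
  rw [bc, prod_range_succ]; rfl

theorem bc_nat (k n : ℕ) : bc k (n : ℝ) = (n.choose k : ℝ) := by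
  induction k with
  | zero => simp [bc_zero]
  | succ k ih =>
    rw [bc_succ, ih]
    have h1 : ((k : ℝ) + 1) ≠ 0 := by positivity
    rcases le_or_gt k n with h | h
    · have h2 := Nat.choose_succ_right_eq n k
      have h3 : ((n.choose (k + 1) : ℕ) : ℝ) * (k + 1) = n.choose k * ((n : ℝ) - k) := by
        have := congrArg (Nat.cast (R := ℝ)) h2
        push_cast [Nat.cast_sub h] at this
        exact this
      field_simp
      linarith
    · rw [Nat.choose_eq_zero_of_lt h, Nat.choose_eq_zero_of_lt (by omega)]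
      simp

theorem PC.bc {p : ℝ → ℝ} (hp : PC p) (k : ℕ) : PC (fun t => bc k (p t)) := by
  unfold H796.bc
  refine PC.finset_prod _ fun i _ => ?_
  have h := (hp.sub (PC.const (i : ℝ))).smul (PC.const (1 / ((i : ℝ) + 1)))
  refine h.congr fun t => ?_
  simp only [smul_eq_mul]
  ring

/-- the real power `u ^ t` of a unipotent element, `(u - 1) ^ m = 0` -/
noncomputable def rp (m : ℕ) (u : A) (t : ℝ) : A := ∑ k ∈ range m, bc k t • (u - 1) ^ k

theorem PC.rp {p : ℝ → ℝ} (hp : PC p) (m : ℕ) (u : A) : PC (fun t => rp m u (p t)) := by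
  unfold H796.rp
  exact PC.sum _ fun k _ => (hp.bc k).smul (PC.const _)

variable {m : ℕ} {u : A}

theorem rp_nat (hu : (u - 1) ^ m = 0) (n : ℕ) : rp m u n = u ^ n := by
  have h1 : u ^ n = ∑ k ∈ range (n + 1), (n.choose k : ℝ) • (u - 1) ^ k := by
    have h2 : u = (u - 1) + 1 := by simp
    conv_lhs => rw [h2]
    rw [(Commute.one_right (u - 1)).add_pow]
    refine sum_congr rfl fun k _ => ?_
    rw [one_pow, mul_one, Algebra.smul_def, Algebra.commutes, map_natCast]
  rw [h1, rp]
  have h3 : ∀ k, m ≤ k → (u - 1) ^ k = 0 := by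
    intro k hk
    rw [← Nat.sub_add_cancel hk, pow_add, hu, mul_zero]
  rcases le_total m (n + 1) with h | h
  · have hsub : range m ⊆ range (n + 1) := range_subset_range.2 h
    rw [← sum_subset hsub (f := fun k => (n.choose k : ℝ) • (u - 1) ^ k)]
    · exact sum_congr rfl fun k _ => by rw [bc_nat]
    · intro k _ hk
      simp only [mem_range, not_lt] at hk
      rw [h3 k hk, smul_zero]
  · have hsub : range (n + 1) ⊆ range m := range_subset_range.2 h
    rw [← sum_subset hsub (f := fun k => bc k (n : ℝ) • (u - 1) ^ k)]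
    · exact sum_congr rfl fun k _ => by rw [bc_nat]
    · intro k _ hk
      simp only [mem_range, not_lt] at hk
      rw [bc_nat, Nat.choose_eq_zero_of_lt (by omega), Nat.cast_zero, zero_smul]

theorem rp_zero (hu : (u - 1) ^ m = 0) : rp m u 0 = 1 := by
  have := rp_nat hu 0
  simpa using this

theorem rp_one (hu : (u - 1) ^ m = 0) : rp m u 1 = u := by
  have := rp_nat hu 1
  simpa using this

theorem rp_add (hu : (u - 1) ^ m = 0) (s t : ℝ) : rp m u (s + t) = rp m u s * rp m u t := by
  -- first `s` natural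
  have h1 : ∀ (n : ℕ) (t : ℝ), rp m u (n + t) = rp m u n * rp m u t := by
    intro n
    refine PC.eq_of_nat (f := fun t => rp m u (n + t)) (g := fun t => rp m u n * rp m u t)
      (((PC.const (n : ℝ)).add PC.id).rp m u) ((PC.const _).mul (PC.id.rp m u)) ?_
    intro k
    have : ((n : ℝ) + k) = ((n + k : ℕ) : ℝ) := by push_cast; ring
    simp only [this]
    rw [rp_nat hu, rp_nat hu, rp_nat hu, pow_add]
  exact PC.eq_of_nat (f := fun s => rp m u (s + t)) (g := fun s => rp m u s * rp m u t)
    ((PC.id.add (PC.const t)).rp m u) ((PC.id.rp m u).mul (PC.const _)) (fun n => h1 n t) s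

theorem rp_neg_mul (hu : (u - 1) ^ m = 0) (t : ℝ) : rp m u (-t) * rp m u t = 1 := by
  rw [← rp_add hu, neg_add_cancel, rp_zero hu]

theorem rp_mul_neg (hu : (u - 1) ^ m = 0) (t : ℝ) : rp m u t * rp m u (-t) = 1 := by
  rw [← rp_add hu, add_neg_cancel, rp_zero hu]

theorem rp_sub_one_pow (hu : (u - 1) ^ m = 0) (t : ℝ) : (rp m u t - 1) ^ m = 0 := by
  -- `rp m u t - 1 = (u - 1) * q`, commuting
  cases m with
  | zero =>
    have h1 : (1 : A) = 0 := by simpa using hu
    rw [pow_zero, h1]
  | succ m =>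
    have h1 : rp (m + 1) u t - 1 = (u - 1) * ∑ k ∈ range m, bc (k + 1) t • (u - 1) ^ k := by
      rw [rp, sum_range_succ', bc_zero, pow_zero, one_smul, add_sub_cancel_right, mul_sum]
      refine sum_congr rfl fun k _ => ?_
      rw [pow_succ', mul_smul_comm]
    have h2 : Commute (u - 1) (∑ k ∈ range m, bc (k + 1) t • (u - 1) ^ k) := by
      refine Commute.sum_right _ _ _ fun k _ => ?_
      exact ((Commute.refl (u - 1)).pow_right k).smul_right _
    rw [h1, h2.mul_pow, hu, zero_mul]

theorem rp_rp (hu : (u - 1) ^ m = 0) (s t : ℝ) : rp m (rp m u s) t = rp m u (s * t) := by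
  refine PC.eq_of_nat (f := fun t => rp m (rp m u s) t) (g := fun t => rp m u (s * t))
    (PC.id.rp m _) (((PC.const s).smul PC.id).rp m u) ?_ t
  intro n
  rw [rp_nat (rp_sub_one_pow hu s)]
  induction n with
  | zero => simp [rp_zero hu]
  | succ n ih =>
    rw [pow_succ, ih, ← rp_add hu]
    congr 1
    push_cast
    ring

/-- integer powers -/
theorem rp_int {N : Type*} [Group N] (ρ : N →* A) (x : N) (hu : (ρ x - 1) ^ m = 0) (n : ℤ) :
    rp m (ρ x) n = ρ (x ^ n) := by
  obtain ⟨k, rfl | rfl⟩ := n.eq_nat_or_neg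
  · rw [Int.cast_natCast, rp_nat hu, zpow_natCast, map_pow]
  · have h1 := rp_mul_neg hu (k : ℝ)
    rw [rp_nat hu] at h1
    have h2 : ρ (x ^ (-(k : ℤ))) * ρ x ^ k = 1 := by
      rw [← map_pow, ← map_mul, zpow_neg, zpow_natCast, inv_mul_cancel, map_one]
    push_cast
    calc rp m (ρ x) (-(k : ℝ)) = (ρ (x ^ (-(k : ℤ))) * ρ x ^ k) * rp m (ρ x) (-(k : ℝ)) := by
          rw [h2, one_mul]
      _ = ρ (x ^ (-(k : ℤ))) := by rw [mul_assoc, h1, mul_one]

theorem rp_map {B : Type*} [Ring B] [Algebra ℝ B] (f : A →ₐ[ℝ] B) (t : ℝ) :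
    f (rp m u t) = rp m (f u) t := by
  simp [rp, map_sum, map_smul, map_pow, map_sub]

/-- a commuting element commutes with real powers -/
theorem Commute.rp {v : A} (h : Commute v u) (t : ℝ) : Commute v (rp m u t) := by
  unfold H796.rp
  refine Commute.sum_right _ _ _ fun k _ => ?_
  exact ((h.sub_right (Commute.one_right v)).pow_right k).smul_right _

end PCalg

/-! ### polynomial maps: maps which send polynomial curves to polynomial curves -/

section PM

variable {ι κ : Type*} {E : Type*} [AddCommGroup E] [Module ℝ E]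

/-- polynomial maps -/
def PM (F : (ι → ℝ) → E) : Prop := ∀ γ : ℝ → ι → ℝ, (∀ i, PC fun t => γ t i) → PC fun t => F (γ t)

theorem PM.zero_of_int [Finite ι] {F : (ι → ℝ) → E} (hF : PM F)
    (h : ∀ s : ι → ℤ, F (fun i => (s i : ℝ)) = 0) : ∀ s, F s = 0 := by
  classical
  have := Fintype.ofFinite ι
  -- replace coordinates one at a time
  have key : ∀ T : Finset ι, ∀ s : ι → ℝ, (∀ i, i ∉ T → ∃ n : ℤ, s i = n) → F s = 0 := by
    intro T
    induction T using Finset.induction_on with
    | empty =>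
      intro s hs
      choose n hn using fun i => hs i (by simp)
      have : s = fun i => (n i : ℝ) := funext hn
      rw [this]; exact h n
    | insert j T hj ih =>
      intro s hs
      have h1 : PC fun t => F (Function.update s j t) := by
        refine hF _ fun i => ?_
        by_cases hij : i = j
        · subst hij; simpa using PC.id
        · simpa [Function.update_of_ne hij] using PC.const (s i)
      have h2 := h1.eq_zero_of_nat (fun n => ih _ fun i hi => by
        by_cases hij : i = j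
        · subst hij; exact ⟨n, by simp⟩
        · obtain ⟨k, hk⟩ := hs i (by simp [hij, hi])
          exact ⟨k, by rw [Function.update_of_ne hij, hk]⟩) (s j)
      simpa using h2
  exact fun s => key Finset.univ s (by simp)

theorem PM.eq_of_int [Finite ι] {F F' : (ι → ℝ) → E} (hF : PM F) (hF' : PM F')
    (h : ∀ s : ι → ℤ, F (fun i => (s i : ℝ)) = F' (fun i => (s i : ℝ))) : ∀ s, F s = F' s := by
  intro s
  have h1 : PM fun s => F s - F' s := fun γ hγ => (hF γ hγ).sub (hF' γ hγ)
  exact sub_eq_zero.1 (h1.zero_of_int (fun s => by simp [h s]) s)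

end PM

end Vale.Agent.P188.H796
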