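import Vale.Agent.P188.H796.La

/-!
Polynomial functions on a group.
-/

open Finset

namespace Vale.Agent.P188.H796

open scoped commutatorElement

variable {N : Type*} [Group N]

/-- right difference -/
def dlt (x : N) (f : N → ℝ) : N → ℝ := fun y => f (y * x) - f y

/-- right translation -/
def trn (x : N) (f : N → ℝ) : N → ℝ := fun y => f (y * x)

theorem trn_eq (x : N) (f : N → ℝ) : trn x f = f + dlt x f := by
  ext y; simp [trn, dlt]

variable (N) in
/-- polynomial functions of degree `< n` -/
def PF : ℕ → Submodule ℝ (N → ℝ)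
  | 0 => ⊥
  | n + 1 =>
    { carrier := {f | ∀ x, dlt x f ∈ PF n}
      zero_mem' := fun x => by
        have : dlt x (0 : N → ℝ) = 0 := by ext y; simp [dlt]
        rw [this]; exact Submodule.zero_mem _
      add_mem' := fun {f g} hf hg x => by
        have : dlt x (f + g) = dlt x f + dlt x g := by ext y; simp [dlt]; ring
        rw [this]; exact Submodule.add_mem _ (hf x) (hg x)
      smul_mem' := fun c f hf x => by
        have : dlt x (c • f) = c • dlt x f := by ext y; simp [dlt]; ring
        rw [this]; exact Submodule.smul_mem _ c (hf x) }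

theorem mem_PF_succ {n : ℕ} {f : N → ℝ} : f ∈ PF N (n + 1) ↔ ∀ x, dlt x f ∈ PF N n := Iff.rfl

theorem PF_le_succ (n : ℕ) : PF N n ≤ PF N (n + 1) := by
  induction n with
  | zero => intro f hf; rw [(Submodule.mem_bot ℝ).1 hf]; exact Submodule.zero_mem _
  | succ n ih => intro f hf x; exact ih (hf x)

theorem PF_mono : Monotone (PF N) := monotone_nat_of_le_succ PF_le_succ

theorem trn_mem {n : ℕ} {f : N → ℝ} (hf : f ∈ PF N n) (x : N) : trn x f ∈ PF N n := by
  cases n with
  | zero =>
    have : f = 0 := (Submodule.mem_bot ℝ).1 hf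
    subst this
    exact (Submodule.mem_bot ℝ).2 (by ext y; simp [trn])
  | succ n =>
    rw [trn_eq]
    exact Submodule.add_mem _ hf (PF_le_succ n (hf x))

theorem comp_mem {N' : Type*} [Group N'] (φ : N' →* N) : ∀ {n : ℕ} {f : N → ℝ}, f ∈ PF N n →
    f ∘ φ ∈ PF N' n
  | 0, f, hf => by
    have : f = 0 := (Submodule.mem_bot ℝ).1 hf
    subst this
    exact (Submodule.mem_bot ℝ).2 (by ext y; simp)
  | n + 1, f, hf => by
    intro x
    have : dlt x (f ∘ φ) = dlt (φ x) f ∘ φ := by ext y; simp [dlt]
    rw [this]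
    exact comp_mem φ (hf (φ x))

theorem const_mem (c : ℝ) : (fun _ => c) ∈ PF N 1 := by
  intro x
  exact (Submodule.mem_bot ℝ).2 (by ext y; simp [dlt])

theorem hom_mem (χ : N → ℝ) (hχ : ∀ x y, χ (x * y) = χ x + χ y) : χ ∈ PF N 2 := by
  intro x
  have : dlt x χ = fun _ => χ x := by ext y; simp [dlt, hχ]
  rw [this]
  exact const_mem _

/-- finite-dimensionality -/
theorem PF_finite (S : Finset N) (hS : Subgroup.closure (S : Set N) = ⊤) (n : ℕ) :
    FiniteDimensional ℝ (PF N n) := by
  induction n with
  | zero => exact (inferInstance : FiniteDimensional ℝ (⊥ : Submodule ℝ (N → ℝ)))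
  | succ n ih =>
    let L : PF N (n + 1) →ₗ[ℝ] ℝ × (S → PF N n) :=
      { toFun := fun f => (f.1 1, fun s => ⟨dlt s f.1, f.2 s⟩)
        map_add' := by
          intro f g
          refine Prod.ext rfl ?_
          funext s
          apply Subtype.ext
          funext y
          simp [dlt]; ring
        map_smul' := by
          intro c f
          refine Prod.ext rfl ?_
          funext s
          apply Subtype.ext
          funext y
          simp [dlt]; ring }
    refine FiniteDimensional.of_injective L ?_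
    rw [← LinearMap.ker_eq_bot, LinearMap.ker_eq_bot']
    rintro ⟨f, hf⟩ hL
    apply Subtype.ext
    have h1 : f 1 = 0 := congrArg Prod.fst hL
    have h2 : ∀ s ∈ S, ∀ y, f (y * s) = f y := by
      intro s hs y
      have := congrArg Prod.snd hL
      have h3 := congrArg Subtype.val (congrFun this ⟨s, hs⟩)
      have h4 := congrFun h3 y
      simpa [dlt, L, sub_eq_zero] using h4
    -- `f` is right invariant
    have h5 : ∀ x y, f (y * x) = f y := by
      let H : Subgroup N :=
        { carrier := {x | ∀ y, f (y * x) = f y}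
          one_mem' := fun y => by rw [mul_one]
          mul_mem' := fun {a b} ha hb y => by rw [← mul_assoc, hb, ha]
          inv_mem' := fun {a} ha y => by
            have := ha (y * a⁻¹)
            rw [inv_mul_cancel_right] at this
            exact this.symm }
      have hH : Subgroup.closure (S : Set N) ≤ H := by
        rw [Subgroup.closure_le]
        exact fun s hs => h2 s hs
      rw [hS] at hH
      exact fun x => hH (Subgroup.mem_top x)
    funext y
    have := h5 y 1
    rw [one_mul, h1] at this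
    exact this

/-! ### weighted polynomial functions on a normal subgroup of a nilpotent group -/

section weighted

/-- lower central series -/
abbrev lc (N : Type*) [Group N] (i : ℕ) : Subgroup N := (⊤ : Subgroup N).lowerCentralSeries i

theorem lc_comm {i : ℕ} {y : N} (hy : y ∈ lc N i) (h : N) : y⁻¹ * h⁻¹ * y * h ∈ lc N (i + 1) := by
  have h1 : ⁅y⁻¹, h⁻¹⁆ ∈ lc N (i + 1) :=
    Subgroup.commutator_mem_commutator (inv_mem hy) (Subgroup.mem_top _)
  have h2 : y⁻¹ * h⁻¹ * y * h = ⁅y⁻¹, h⁻¹⁆ := by simp [commutatorElement_def, mul_assoc]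
  rw [h2]; exact h1

variable (M : Subgroup N)

/-- weighted polynomial functions on `M` -/
def WQ (d : ℕ) : Set (M → ℝ) :=
  match d with
  | 0 => {0}
  | d + 1 => {f | ∀ i, ∀ x : M, (x : N) ∈ lc N i → dlt x f ∈ WQ (d - i)}
termination_by d
decreasing_by omega

variable {M}

theorem mem_WQ_zero {f : M → ℝ} : f ∈ WQ M 0 ↔ f = 0 := by
  rw [WQ]; rfl

theorem mem_WQ_succ {d : ℕ} {f : M → ℝ} :
    f ∈ WQ M (d + 1) ↔ ∀ i, ∀ x : M, (x : N) ∈ lc N i → dlt x f ∈ WQ M (d - i) := by
  rw [WQ]; rfl

theorem WQ_zero_mem : ∀ d : ℕ, (0 : M → ℝ) ∈ WQ M d := by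
  intro d
  induction d using Nat.strong_induction_on with
  | _ d ih =>
    cases d with
    | zero => rw [mem_WQ_zero]
    | succ d =>
      rw [mem_WQ_succ]
      intro i x _
      have : dlt x (0 : M → ℝ) = 0 := by ext y; simp [dlt]
      rw [this]
      exact ih _ (by omega)

theorem WQ_add : ∀ (d : ℕ) {f g : M → ℝ}, f ∈ WQ M d → g ∈ WQ M d → f + g ∈ WQ M d := by
  intro d
  induction d using Nat.strong_induction_on with
  | _ d ih =>
    intro f g hf hg
    cases d with
    | zero => rw [mem_WQ_zero] at *; rw [hf, hg, add_zero]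
    | succ d =>
      rw [mem_WQ_succ] at *
      intro i x hx
      have : dlt x (f + g) = dlt x f + dlt x g := by ext y; simp [dlt]; ring
      rw [this]
      exact ih _ (by omega) (hf i x hx) (hg i x hx)

theorem WQ_mono : ∀ (d : ℕ) {f : M → ℝ}, f ∈ WQ M d → ∀ d', d ≤ d' → f ∈ WQ M d' := by
  intro d
  induction d using Nat.strong_induction_on with
  | _ d ih =>
    intro f hf d' hd
    cases d with
    | zero => rw [mem_WQ_zero] at hf; subst hf; exact WQ_zero_mem _
    | succ d =>
      obtain ⟨e, rfl⟩ : ∃ e, d' = e + 1 := ⟨d' - 1, by omega⟩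
      rw [mem_WQ_succ] at *
      intro i x hx
      exact ih _ (by omega) (hf i x hx) _ (by omega)

theorem WQ_trn {d : ℕ} {f : M → ℝ} (hf : f ∈ WQ M d) (x : M) : trn x f ∈ WQ M d := by
  cases d with
  | zero =>
    rw [mem_WQ_zero] at *; subst hf; ext y; simp [trn]
  | succ d =>
    rw [trn_eq]
    refine WQ_add _ hf (WQ_mono _ (mem_WQ_succ.1 hf 0 x (by simp [lc])) _ (by omega))

/-- conjugation operator on functions on a normal subgroup -/
def cj [M.Normal] (h : N) (f : M → ℝ) : M → ℝ :=
  fun u => f ⟨h⁻¹ * u * h, by simpa using (‹M.Normal›.conj_mem u.1 u.2 h⁻¹)⟩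

theorem cj_sub_mem [M.Normal] (h : N) : ∀ (d : ℕ) {f : M → ℝ}, f ∈ WQ M (d + 1) →
    cj h f - f ∈ WQ M d := by
  intro d
  induction d using Nat.strong_induction_on with
  | _ d ih =>
    intro f hf
    cases d with
    | zero =>
      -- `f` is constant
      rw [mem_WQ_zero]
      have h1 : ∀ x : M, dlt x f = 0 := by
        intro x
        have := mem_WQ_succ.1 hf 0 x (by simp [lc])
        rwa [Nat.sub_zero, mem_WQ_zero] at this
      have h2 : ∀ x : M, f x = f 1 := by
        intro x
        have := congrFun (h1 x) 1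
        simpa [dlt, sub_eq_zero] using this
      ext u
      simp only [cj, Pi.sub_apply, Pi.zero_apply]
      rw [h2, h2 u, sub_self]
    | succ d =>
      rw [mem_WQ_succ]
      intro i y hy
      -- `y' = h⁻¹ y h = y v`
      have hv1 := lc_comm hy h
      let y' : M := ⟨h⁻¹ * y * h, by simpa using (‹M.Normal›.conj_mem y.1 y.2 h⁻¹)⟩
      let v : M := y⁻¹ * y'
      have hv : (v : N) ∈ lc N (i + 1) := by
        have : (v : N) = (y : N)⁻¹ * h⁻¹ * y * h := by simp [v, y', mul_assoc]
        rw [this]; exact hv1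
      have hy' : y' = y * v := by simp [v]
      have h1 : dlt y (cj h f - f) = cj h (trn y (dlt v f)) + (cj h (dlt y f) - dlt y f) := by
        ext u
        let u' : M := ⟨h⁻¹ * u * h, by simpa using (‹M.Normal›.conj_mem u.1 u.2 h⁻¹)⟩
        have e1 : cj h f (u * y) = f (u' * y') := by
          simp only [cj]
          congr 1
          apply Subtype.ext
          simp [u', y', mul_assoc]
        have e2 : cj h f u = f u' := rfl
        have e3 : cj h (trn y (dlt v f)) u = f (u' * y * v) - f (u' * y) := rfl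
        have e4 : cj h (dlt y f) u = f (u' * y) - f u' := rfl
        have e5 : dlt y (cj h f - f) u = (cj h f (u * y) - f (u * y)) - (cj h f u - f u) := rfl
        have e6 : dlt y f u = f (u * y) - f u := rfl
        rw [e5, Pi.add_apply, Pi.sub_apply, e1, e2, e3, e4, e6, hy', mul_assoc]
        ring
      rw [h1]
      by_cases hid : i ≤ d
      · have e : d + 1 - i = (d - i) + 1 := by omega
        rw [mem_WQ_succ] at hf
        have h2 : dlt v f ∈ WQ M (d - i) := by
          have := hf (i + 1) v hv
          rwa [show d + 1 - (i + 1) = d - i by omega] at this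
        have h3 : dlt y f ∈ WQ M (d - i + 1) := by
          have := hf i y hy
          rwa [e] at this
        -- conjugation preserves
        have h4 : cj h (trn y (dlt v f)) ∈ WQ M (d - i) := by
          have h5 := WQ_trn h2 y
          generalize trn y (dlt v f) = g at h5
          have h6 : cj h g = g + (cj h g - g) := by simp
          rw [h6]
          refine WQ_add _ h5 (ih (d - i) (by omega) (WQ_mono _ h5 _ (by omega)))
        refine WQ_add _ (by simpa using h4) (ih (d - i) (by omega) h3)
      · -- `i > d`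
        have e1 : d - i = 0 := by omega
        rw [e1, mem_WQ_zero]
        rw [mem_WQ_succ] at hf
        have h2 : dlt v f = 0 := by
          have := hf (i + 1) v hv
          rwa [show d + 1 - (i + 1) = 0 by omega, mem_WQ_zero] at this
        have h3 : dlt y f ∈ WQ M (d + 1 - i) := hf i y hy
        have h3' : dlt y f ∈ WQ M 1 := WQ_mono _ h3 _ (by omega)
        have h4 : cj h (dlt y f) - dlt y f = 0 := by
          have := ih 0 (by omega) h3'
          rwa [mem_WQ_zero] at this
        rw [h4, h2]
        ext u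
        simp [cj, trn]

theorem cj_mem [M.Normal] (h : N) {d : ℕ} {f : M → ℝ} (hf : f ∈ WQ M d) : cj h f ∈ WQ M d := by
  have h6 : cj h f = f + (cj h f - f) := by simp
  rw [h6]
  exact WQ_add _ hf (cj_sub_mem h d (WQ_mono _ hf _ (by omega)))

/-- ordinary polynomial functions are weighted polynomial functions -/
theorem PF_le_WQ {c : ℕ} (hcpos : 0 < c) (hc : lc N c = ⊥) : ∀ (n : ℕ) {f : M → ℝ}, f ∈ PF M n →
    f ∈ WQ M (n * c)
  | 0, f, hf => by
    rw [Nat.zero_mul, mem_WQ_zero]
    exact (Submodule.mem_bot ℝ).1 hf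
  | n + 1, f, hf => by
    have hanti := (⊤ : Subgroup N).lowerCentralSeries_antitone
    obtain ⟨e, he⟩ : ∃ e, (n + 1) * c = e + 1 := ⟨(n + 1) * c - 1, by
      have : 0 < (n + 1) * c := Nat.mul_pos (by omega) hcpos
      omega⟩
    rw [he, mem_WQ_succ]
    intro i x hx
    by_cases hi : i < c
    · refine WQ_mono _ (PF_le_WQ hcpos hc n (hf x)) _ ?_
      have : (n + 1) * c = n * c + c := by ring
      omega
    · have h1 : (x : N) ∈ lc N c := hanti (by omega) hx
      rw [hc, Subgroup.mem_bot] at h1
      have h2 : x = 1 := Subtype.ext h1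
      have h3 : dlt x f = 0 := by ext y; simp [dlt, h2]
      rw [h3]; exact WQ_zero_mem _

/-- extension of polynomial functions from a normal subgroup with a (set-theoretic) retraction
`y ↦ τ(y)⁻¹ y`, `τ : N →* N` -/
theorem ext_mem [M.Normal] (τ : N →* N) (hτ : ∀ y, (τ y)⁻¹ * y ∈ M) :
    ∀ (d : ℕ) {f : M → ℝ}, f ∈ WQ M d → (fun y => f ⟨(τ y)⁻¹ * y, hτ y⟩) ∈ PF N d
  | 0, f, hf => by
    rw [mem_WQ_zero] at hf
    exact (Submodule.mem_bot ℝ).2 (by ext y; simp [hf])
  | d + 1, f, hf => by
    intro z
    let w : M := ⟨(τ z)⁻¹ * z, hτ z⟩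
    have h1 : dlt z (fun y => f ⟨(τ y)⁻¹ * y, hτ y⟩) =
        fun y => (cj (τ z) (trn w f) - f) ⟨(τ y)⁻¹ * y, hτ y⟩ := by
      ext y
      have e1 : (⟨(τ (y * z))⁻¹ * (y * z), hτ (y * z)⟩ : M) =
          ⟨(τ z)⁻¹ * ((τ y)⁻¹ * y) * τ z, by
            simpa using (‹M.Normal›.conj_mem _ (hτ y) (τ z)⁻¹)⟩ * w := by
        apply Subtype.ext
        simp [w, mul_assoc]
      simp only [dlt, Pi.sub_apply]
      rw [e1]
      rfl
    rw [h1]
    refine ext_mem τ hτ d ?_
    have h2 : cj (τ z) (trn w f) - f = (cj (τ z) (trn w f) - trn w f) + dlt w f := by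
      rw [trn_eq]; abel
    rw [h2]
    refine WQ_add _ (cj_sub_mem _ _ (WQ_trn hf w)) ?_
    have := mem_WQ_succ.1 hf 0 w (by simp [lc])
    simpa using this

end weighted

end Vale.Agent.P188.H796
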