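import Vale.Agent.P188.H796.Lb
import Vale.Agent.P188.Coarse

/-!
Malcev coordinates of a poly-`ℤ` nilpotent group, by polynomial functions.
-/

open Finset

universe u

namespace Vale.Agent.P188.H796

/-- Malcev coordinates of the second kind -/
structure MB (N : Type u) [Group N] (d n : ℕ) where
  b : Fin d → N
  c : Fin d → N → ℤ
  c_poly : ∀ i, (fun y => (c i y : ℝ)) ∈ PF N n
  c_prod : ∀ (s : Fin d → ℤ) (i : Fin d), c i ((List.ofFn fun i => b i ^ s i).prod) = s i
  prod_c : ∀ y, (List.ofFn fun i => b i ^ c i y).prod = y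
  norm : ∀ (i : Fin d) (k : ℤ) (y : N), (∀ j, j ≤ i → c j y = 0) →
    ∀ j, j ≤ i → c j (b i ^ k * y * b i ^ (-k)) = 0

theorem exists_MB : ∀ (d : ℕ) (N : Type u) [Group N], PolyZ d N → Group.IsNilpotent N →
    ∃ n, Nonempty (MB N d n)
  | 0, N, _, h, _ => by
    have h' : Subsingleton N := h
    exact ⟨0, ⟨{
      b := Fin.elim0
      c := fun i => i.elim0
      c_poly := fun i => i.elim0
      c_prod := fun _ i => i.elim0
      prod_c := fun y => Subsingleton.elim _ _
      norm := fun i => i.elim0 }⟩⟩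
  | d + 1, N, _, h, hN => by
    obtain ⟨φ, hφ, hk⟩ := h
    obtain ⟨n, ⟨D⟩⟩ := exists_MB d φ.ker hk inferInstance
    obtain ⟨c₀, hc₀⟩ := (Subgroup.nilpotent_iff_lowerCentralSeries (G := N)).1 hN
    have hc₁ : lc N (c₀ + 1) = ⊥ := by
      rw [eq_bot_iff, ← hc₀]
      exact (⊤ : Subgroup N).lowerCentralSeries_antitone (Nat.le_succ _)
    obtain ⟨x, hx⟩ := hφ (Multiplicative.ofAdd 1)
    let τ : N →* N := (zpowersHom N x).comp φ
    have hτ' : ∀ y, τ y = x ^ (Multiplicative.toAdd (φ y)) := fun y => rfl
    have hφx : ∀ k : ℤ, φ (x ^ k) = Multiplicative.ofAdd k := by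
      intro k; rw [map_zpow, hx, ← ofAdd_zsmul]; simp
    have hτ : ∀ y, (τ y)⁻¹ * y ∈ φ.ker := by
      intro y
      rw [MonoidHom.mem_ker, map_mul, map_inv, hτ', hφx]
      simp
    have hcoe : ∀ s : Fin d → ℤ, ((List.ofFn fun i => (D.b i : N) ^ s i).prod) =
        (((List.ofFn fun i => D.b i ^ s i).prod : φ.ker) : N) := by
      intro s
      have h1 := map_list_prod φ.ker.subtype (List.ofFn fun i => D.b i ^ s i)
      rw [List.map_ofFn] at h1
      rw [Subgroup.coe_subtype] at h1
      rw [h1]
      congr 2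
    refine ⟨max 2 (n * (c₀ + 1)), ⟨{
      b := Fin.cons x (fun i => (D.b i : N))
      c := Fin.cons (fun y => Multiplicative.toAdd (φ y)) (fun i y => D.c i ⟨(τ y)⁻¹ * y, hτ y⟩)
      c_poly := ?_
      c_prod := ?_
      prod_c := ?_
      norm := ?_ }⟩⟩
    · intro i
      refine Fin.cases ?_ (fun i => ?_) i
      · simp only [Fin.cons_zero]
        refine PF_mono (le_max_left 2 _) (hom_mem _ ?_)
        intro a b
        rw [map_mul, toAdd_mul]; push_cast; ring
      · simp only [Fin.cons_succ]
        refine PF_mono (le_max_right 2 _) ?_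
        exact ext_mem τ hτ _ (PF_le_WQ (Nat.succ_pos _) hc₁ n (D.c_poly i))
    · intro s i
      have hprod : (List.ofFn fun i => (Fin.cons x (fun i => (D.b i : N)) : Fin (d + 1) → N) i ^ s i).prod
          = x ^ s 0 * (((List.ofFn fun i => D.b i ^ s (Fin.succ i)).prod : φ.ker) : N) := by
        rw [List.ofFn_succ, List.prod_cons, ← hcoe]
        simp only [Fin.cons_zero, Fin.cons_succ]
      rw [hprod]
      have hφp : φ (x ^ s 0 * (((List.ofFn fun i => D.b i ^ s (Fin.succ i)).prod : φ.ker) : N)) =
          Multiplicative.ofAdd (s 0) := by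
        rw [map_mul, hφx, (MonoidHom.mem_ker).1 (((List.ofFn fun i => D.b i ^ s (Fin.succ i)).prod : φ.ker)).2,
          mul_one]
      refine Fin.cases ?_ (fun i => ?_) i
      · simp only [Fin.cons_zero]
        rw [hφp]; rfl
      · simp only [Fin.cons_succ]
        rw [← D.c_prod (fun i => s (Fin.succ i)) i]
        congr 1
        apply Subtype.ext
        simp only
        rw [hτ', hφp, toAdd_ofAdd, inv_mul_cancel_left]
    · intro y
      rw [List.ofFn_succ, List.prod_cons]
      simp only [Fin.cons_zero, Fin.cons_succ]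
      have := hcoe (fun i => D.c i ⟨(τ y)⁻¹ * y, hτ y⟩)
      rw [this, D.prod_c]
      simp only [← hτ', mul_inv_cancel_left]
    · intro i k y
      refine Fin.cases ?_ (fun i => ?_) i
      · intro hy j hj
        have hj0 : j = 0 := Fin.le_zero_iff.1 hj
        subst hj0
        have h0 := hy 0 le_rfl
        simp only [Fin.cons_zero] at h0 ⊢
        rw [map_mul φ, map_mul φ, toAdd_mul, toAdd_mul, h0, hφx, hφx]
        simp
      · intro hy
        have h0 := hy 0 (Fin.zero_le _)
        simp only [Fin.cons_zero] at h0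
        have hyk : y ∈ φ.ker := by
          rw [MonoidHom.mem_ker, ← ofAdd_toAdd (φ y), h0, ofAdd_zero]
        have key : ∀ z (hz : z ∈ φ.ker) (j : Fin d), D.c j ⟨(τ z)⁻¹ * z, hτ z⟩ = D.c j ⟨z, hz⟩ := by
          intro z hz j
          congr 1
          apply Subtype.ext
          simp only
          rw [hτ', (MonoidHom.mem_ker).1 hz]
          simp
        have hz : (D.b i : N) ^ k * y * (D.b i : N) ^ (-k) ∈ φ.ker :=
          φ.ker.mul_mem (φ.ker.mul_mem (φ.ker.zpow_mem (D.b i).2 k) hyk)
            (φ.ker.zpow_mem (D.b i).2 (-k))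
        intro j
        refine Fin.cases ?_ (fun j => ?_) j
        · intro _
          simp only [Fin.cons_zero, Fin.cons_succ]
          rw [(MonoidHom.mem_ker).1 hz]; rfl
        · intro hj
          simp only [Fin.cons_succ]
          rw [key _ hz]
          have h2 := D.norm i k ⟨y, hyk⟩ (fun j hj => by
            have := hy (Fin.succ j) (Fin.succ_le_succ_iff.2 hj)
            simp only [Fin.cons_succ] at this
            rwa [key y hyk] at this) j (Fin.succ_le_succ_iff.1 hj)
          rw [← h2]
          congr 1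

end Vale.Agent.P188.H796
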