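import Vale.Agent.P188.H796.Lc

/-!
The real Malcev completion of a poly-`ℤ` nilpotent group, in Malcev coordinates of the second kind,
inside a finite-dimensional algebra.
-/

open Finset

universe u v

namespace Vale.Agent.P188.H796

/-! ### units -/

section units

variable {A : Type*} [Ring A] [Algebra ℝ A]

/-- polynomial curves of units -/
def UPC (w : ℝ → Aˣ) : Prop := PC (fun t => (w t : A)) ∧ PC (fun t => ((w t)⁻¹ : Aˣ).val)

theorem UPC.one : UPC (fun _ => (1 : Aˣ)) := ⟨by simpa using PC.const (1 : A), by simpa using PC.const (1 : A)⟩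

theorem UPC.mul {w w' : ℝ → Aˣ} (h : UPC w) (h' : UPC w') : UPC (fun t => w t * w' t) := by
  refine ⟨(h.1.mul h'.1).congr fun t => by simp, (h'.2.mul h.2).congr fun t => by simp⟩

theorem UPC.inv {w : ℝ → Aˣ} (h : UPC w) : UPC (fun t => (w t)⁻¹) :=
  ⟨h.2, by simpa using h.1⟩

theorem UPC.list_prod {ι : Type*} (L : List ι) {w : ι → ℝ → Aˣ} (h : ∀ i ∈ L, UPC (w i)) :
    UPC (fun t => (L.map fun i => w i t).prod) := by
  induction L with
  | nil => simpa using UPC.one
  | cons i L ih =>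
    have := (h i (by simp)).mul (ih fun j hj => h j (by simp [hj]))
    simpa using this

theorem UPC.ofFn {d : ℕ} {w : Fin d → ℝ → Aˣ} (h : ∀ i, UPC (w i)) :
    UPC (fun t => (List.ofFn fun i => w i t).prod) := by
  have := UPC.list_prod (List.finRange d) (w := w) (fun i _ => h i)
  simpa [List.ofFn_eq_map] using this

/-- real power as a unit -/
noncomputable def rpU (m : ℕ) (u : A) (hu : (u - 1) ^ m = 0) (t : ℝ) : Aˣ where
  val := rp m u t
  inv := rp m u (-t)
  val_inv := rp_mul_neg hu t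
  inv_val := rp_neg_mul hu t

@[simp] theorem rpU_val (m : ℕ) (u : A) (hu : (u - 1) ^ m = 0) (t : ℝ) :
    (rpU m u hu t : A) = rp m u t := rfl

@[simp] theorem rpU_inv (m : ℕ) (u : A) (hu : (u - 1) ^ m = 0) (t : ℝ) :
    (((rpU m u hu t)⁻¹ : Aˣ) : A) = rp m u (-t) := rfl

theorem UPC.rpU {p : ℝ → ℝ} (hp : PC p) (m : ℕ) (u : A) (hu : (u - 1) ^ m = 0) :
    UPC (fun t => rpU m u hu (p t)) := ⟨hp.rp m u, hp.neg.rp m u⟩

end units

/-! ### representation data -/

/-- a unipotent representation of `N` in an algebra, such that the Malcev coordinates are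
restrictions of linear functionals -/
structure RD {N : Type u} [Group N] {d n : ℕ} (D : MB N d n) (A : Type v) [Ring A]
    [Algebra ℝ A] where
  ρ : N →* A
  m : ℕ
  one_lt : 1 < m
  nil : ∀ x : Fin m → N, (List.ofFn fun i => (ρ (x i) - 1)).prod = 0
  ℓ : Fin d → A →ₗ[ℝ] ℝ
  hℓ : ∀ i y, ℓ i (ρ y) = D.c i y

namespace RD

variable {N : Type u} [Group N] {d n : ℕ} {D : MB N d n} {A : Type v} [Ring A] [Algebra ℝ A]
  (R : RD D A)

theorem unip (x : N) : (R.ρ x - 1) ^ R.m = 0 := by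
  have := R.nil (fun _ => x)
  simpa using this

/-- the product `∏ ρ(b_i) ^ (s_i)` as a unit -/
noncomputable def EU (s : Fin d → ℝ) : Aˣ :=
  (List.ofFn fun i => rpU R.m (R.ρ (D.b i)) (R.unip _) (s i)).prod

/-- the product `∏ ρ(b_i) ^ (s_i)` -/
noncomputable def E (s : Fin d → ℝ) : A := (R.EU s : A)

theorem UPC_EU {γ : ℝ → Fin d → ℝ} (h : ∀ i, PC fun t => γ t i) : UPC fun t => R.EU (γ t) :=
  UPC.ofFn fun i => UPC.rpU (h i) _ _ _

theorem PC_E {γ : ℝ → Fin d → ℝ} (h : ∀ i, PC fun t => γ t i) : PC fun t => R.E (γ t) :=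
  (R.UPC_EU h).1

theorem EU_int (s : Fin d → ℤ) :
    (R.EU (fun i => (s i : ℝ)) : A) = R.ρ ((List.ofFn fun i => D.b i ^ s i).prod) := by
  rw [map_list_prod, List.map_ofFn, EU]
  have h1 : ((List.ofFn fun i => rpU R.m (R.ρ (D.b i)) (R.unip _) ((s i : ℝ))).prod : A) =
      (List.ofFn fun i => (rpU R.m (R.ρ (D.b i)) (R.unip _) ((s i : ℝ)) : A)).prod := by
    have := map_list_prod (Units.coeHom A)
      (List.ofFn fun i => rpU R.m (R.ρ (D.b i)) (R.unip _) ((s i : ℝ)))
    rw [List.map_ofFn] at this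
    exact this
  rw [h1]
  congr 2
  funext i
  rw [rpU_val]
  exact rp_int R.ρ (D.b i) (R.unip _) (s i)

theorem E_int (s : Fin d → ℤ) :
    R.E (fun i => (s i : ℝ)) = R.ρ ((List.ofFn fun i => D.b i ^ s i).prod) := R.EU_int s

theorem E_coord (y : N) : R.E (fun i => (D.c i y : ℝ)) = R.ρ y := by
  rw [E_int, D.prod_c]

theorem EU_coord (y : N) : (R.EU (fun i => (D.c i y : ℝ)) : A) = R.ρ y := R.E_coord y

theorem ℓ_E (s : Fin d → ℝ) (i : Fin d) : R.ℓ i (R.E s) = s i := by
  refine PM.eq_of_int (F := fun s => R.ℓ i (R.E s)) (F' := fun s => s i)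
    (fun γ hγ => (R.PC_E hγ).map (R.ℓ i)) (fun γ hγ => hγ i) ?_ s
  intro s
  simp only
  rw [E_int, R.hℓ, D.c_prod]

theorem E_injective : Function.Injective R.E := by
  intro s s' h
  funext i
  rw [← R.ℓ_E s i, ← R.ℓ_E s' i, h]

/-- multiplication -/
noncomputable def mu (s s' : Fin d → ℝ) : Fin d → ℝ := fun i => R.ℓ i (R.E s * R.E s')

theorem E_mu (s s' : Fin d → ℝ) : R.E (R.mu s s') = R.E s * R.E s' := by
  have key : ∀ r : Fin d ⊕ Fin d → ℝ, R.E (R.mu (fun i => r (Sum.inl i)) (fun i => r (Sum.inr i))) =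
      R.E (fun i => r (Sum.inl i)) * R.E (fun i => r (Sum.inr i)) := by
    refine PM.eq_of_int
      (F := fun r => R.E (R.mu (fun i => r (Sum.inl i)) (fun i => r (Sum.inr i))))
      (F' := fun r => R.E (fun i => r (Sum.inl i)) * R.E (fun i => r (Sum.inr i))) ?_ ?_ ?_
    · intro γ hγ
      refine R.PC_E fun i => ?_
      exact ((R.PC_E fun j => hγ (Sum.inl j)).mul (R.PC_E fun j => hγ (Sum.inr j))).map (R.ℓ i)
    · intro γ hγ
      exact (R.PC_E fun j => hγ (Sum.inl j)).mul (R.PC_E fun j => hγ (Sum.inr j))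
    · intro r
      simp only
      rw [E_int, E_int, ← map_mul]
      rw [← R.E_coord]
      congr 1
      funext i
      rw [mu, E_int, E_int, ← map_mul, R.hℓ]
  exact key (Sum.elim s s')

/-- inversion -/
noncomputable def nu (s : Fin d → ℝ) : Fin d → ℝ := fun i => R.ℓ i (((R.EU s)⁻¹ : Aˣ) : A)

theorem rho_inv_val (u : Aˣ) (y : N) (h : (u : A) = R.ρ y) : ((u⁻¹ : Aˣ) : A) = R.ρ y⁻¹ := by
  have h1 : R.ρ y⁻¹ * (u : A) = 1 := by rw [h, ← map_mul, inv_mul_cancel, map_one]
  calc ((u⁻¹ : Aˣ) : A) = (R.ρ y⁻¹ * (u : A)) * ((u⁻¹ : Aˣ) : A) := by rw [h1, one_mul]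
    _ = R.ρ y⁻¹ := by rw [mul_assoc, Units.mul_inv, mul_one]

theorem E_nu (s : Fin d → ℝ) : R.E (R.nu s) = (((R.EU s)⁻¹ : Aˣ) : A) := by
  refine PM.eq_of_int (F := fun s => R.E (R.nu s)) (F' := fun s => (((R.EU s)⁻¹ : Aˣ) : A))
    ?_ ?_ ?_ s
  · intro γ hγ
    refine R.PC_E fun i => ?_
    exact (R.UPC_EU hγ).2.map (R.ℓ i)
  · intro γ hγ
    exact (R.UPC_EU hγ).2
  · intro s
    rw [R.rho_inv_val _ _ (R.EU_int s), ← R.E_coord]
    congr 1
    funext i
    rw [nu, R.rho_inv_val _ _ (R.EU_int s), R.hℓ]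

theorem E_zero : R.E 0 = 1 := by
  have h := R.E_int 0
  simp only [Pi.zero_apply, Int.cast_zero, zpow_zero] at h
  have h2 : (fun _ : Fin d => (0 : ℝ)) = 0 := rfl
  rw [h2] at h
  rw [h]
  simp

/-- the real group, as a type -/
def NR (_R : RD D A) : Type := Fin d → ℝ

noncomputable instance : Mul R.NR := ⟨R.mu⟩
instance : One R.NR := ⟨(0 : Fin d → ℝ)⟩
noncomputable instance : Inv R.NR := ⟨R.nu⟩

theorem toA_mul (s s' : R.NR) : R.E (s * s' : R.NR) = R.E s * R.E s' := R.E_mu s s'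
theorem toA_one : R.E (1 : R.NR) = 1 := R.E_zero
theorem toA_inv (s : R.NR) : R.E (s⁻¹ : R.NR) = (((R.EU s)⁻¹ : Aˣ) : A) := R.E_nu s

theorem toA_injective {s s' : R.NR} (h : R.E s = R.E s') : s = s' := R.E_injective h

noncomputable instance : Group R.NR :=
  Group.ofLeftAxioms
    (fun a b c => R.toA_injective (by rw [toA_mul, toA_mul, toA_mul, toA_mul, mul_assoc]))
    (fun a => R.toA_injective (by rw [toA_mul, toA_one, one_mul]))
    (fun a => R.toA_injective (by
      rw [toA_mul, toA_one, toA_inv]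
      exact Units.inv_mul (R.EU a)))

/-- the embedding in the algebra -/
noncomputable def toA : R.NR →* A where
  toFun := R.E
  map_one' := R.toA_one
  map_mul' := R.toA_mul

theorem toA_inj : Function.Injective R.toA := R.E_injective

/-- the lattice -/
def ι : N →* R.NR where
  toFun y := fun i => (D.c i y : ℝ)
  map_one' := R.toA_injective (by
    rw [toA_one]
    have := R.E_coord 1
    rw [map_one] at this
    exact this)
  map_mul' x y := R.toA_injective (by
    have h1 : R.E (fun i => (D.c i (x * y) : ℝ)) = R.ρ (x * y) := R.E_coord _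
    have h2 := R.toA_mul (fun i => (D.c i x : ℝ)) (fun i => (D.c i y : ℝ))
    refine h1.trans ?_
    rw [map_mul, ← R.E_coord x, ← R.E_coord y]
    exact h2.symm)

theorem ι_apply (y : N) (i : Fin d) : R.ι y i = (D.c i y : ℝ) := rfl

theorem toA_ι (y : N) : R.toA (R.ι y) = R.ρ y := R.E_coord y

theorem ι_injective : Function.Injective R.ι := by
  intro x y h
  have h1 : ∀ i, D.c i x = D.c i y := fun i => by
    have := congrFun h i
    rw [ι_apply, ι_apply] at this
    exact_mod_cast this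
  rw [← D.prod_c x, ← D.prod_c y]
  simp only [h1]

/-- density of the lattice for polynomial maps -/
theorem dens {F : Type*} [AddCommGroup F] [Module ℝ F] {f g : R.NR → F}
    (hf : ∀ γ : ℝ → Fin d → ℝ, (∀ i, PC fun t => γ t i) → PC fun t => f (γ t))
    (hg : ∀ γ : ℝ → Fin d → ℝ, (∀ i, PC fun t => γ t i) → PC fun t => g (γ t))
    (h : ∀ y : N, f (R.ι y) = g (R.ι y)) : ∀ s, f s = g s := by
  refine PM.eq_of_int (F := f) (F' := g) hf hg ?_
  intro s
  have := h ((List.ofFn fun i => D.b i ^ s i).prod)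
  have e : (R.ι ((List.ofFn fun i => D.b i ^ s i).prod) : Fin d → ℝ) = fun i => (s i : ℝ) := by
    funext i
    rw [ι_apply, D.c_prod]
  rw [e] at this
  exact this

/-- functoriality -/
noncomputable def act (θ : N →* N) (Θ : A →ₐ[ℝ] A) (h : ∀ x, Θ (R.ρ x) = R.ρ (θ x)) :
    R.NR →* R.NR :=
  have key : ∀ s : R.NR, R.E (fun i => R.ℓ i (Θ (R.E s))) = Θ (R.E s) := by
    refine R.dens ?_ ?_ ?_
    · intro γ hγ
      refine R.PC_E fun i => ?_
      exact ((R.PC_E hγ).map Θ.toLinearMap).map (R.ℓ i)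
    · intro γ hγ
      exact (R.PC_E hγ).map Θ.toLinearMap
    · intro y
      have h1 : R.E (R.ι y) = R.ρ y := R.E_coord y
      rw [h1, h, ← R.E_coord]
      congr 1
      funext i
      rw [R.E_coord, R.hℓ]
  { toFun := fun s => fun i => R.ℓ i (Θ (R.E s))
    map_one' := R.toA_injective (by
      have := key 1
      rw [toA_one, map_one] at this
      rw [toA_one, map_one]
      exact this)
    map_mul' := fun s s' => R.toA_injective (by
      have h1 := key (s * s')
      have h2 := key s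
      have h3 := key s'
      rw [R.toA_mul (fun i => R.ℓ i (Θ (R.E s))) (fun i => R.ℓ i (Θ (R.E s')))]
      refine h1.trans ?_
      rw [h2, h3, toA_mul, map_mul]) }

theorem toA_act (θ : N →* N) (Θ : A →ₐ[ℝ] A) (h : ∀ x, Θ (R.ρ x) = R.ρ (θ x)) (s : R.NR) :
    R.toA (R.act θ Θ h s) = Θ (R.toA s) := by
  have key : ∀ s : R.NR, R.E (fun i => R.ℓ i (Θ (R.E s))) = Θ (R.E s) := by
    refine R.dens ?_ ?_ ?_
    · intro γ hγ
      refine R.PC_E fun i => ?_
      exact ((R.PC_E hγ).map Θ.toLinearMap).map (R.ℓ i)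
    · intro γ hγ
      exact (R.PC_E hγ).map Θ.toLinearMap
    · intro y
      have h1 : R.E (R.ι y) = R.ρ y := R.E_coord y
      rw [h1, h, ← R.E_coord]
      congr 1
      funext i
      rw [R.E_coord, R.hℓ]
  exact key s

theorem act_ι (θ : N →* N) (Θ : A →ₐ[ℝ] A) (h : ∀ x, Θ (R.ρ x) = R.ρ (θ x)) (y : N) :
    R.act θ Θ h (R.ι y) = R.ι (θ y) :=
  R.toA_inj (by rw [toA_act, toA_ι, toA_ι, h])

end RD

end Vale.Agent.P188.H796
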