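import Vale.Agent.P188.H796.Ld

/-!
Exponential and logarithm of nilpotent elements; relation with real powers.
-/

open Finset Filter Topology

universe u v

namespace Vale.Agent.P188.H796

section expo

variable {A : Type*} [NormedRing A] [NormedAlgebra ℝ A]

/-- truncated exponential -/
noncomputable def ex (m : ℕ) (v : A) : A := ∑ k ∈ range m, ((k.factorial : ℝ)⁻¹) • v ^ k

/-- derivatives of binomial coefficients at `0` -/
noncomputable def be (k : ℕ) : ℝ := deriv (bc k) 0

/-- truncated logarithm -/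
noncomputable def lg (m : ℕ) (u : A) : A := ∑ k ∈ range m, be k • (u - 1) ^ k

theorem bc_differentiable (k : ℕ) : Differentiable ℝ (bc k) := by
  induction k with
  | zero =>
    have : bc 0 = fun _ => 1 := funext bc_zero
    rw [this]; exact differentiable_const _
  | succ k ih =>
    have : bc (k + 1) = fun t => bc k t * ((t - k) / (k + 1)) := funext (bc_succ k)
    rw [this]
    fun_prop

theorem be_zero : be 0 = 0 := by
  have : bc 0 = fun _ => 1 := funext bc_zero
  rw [be, this]; simp

theorem be_one : be 1 = 1 := by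
  have : bc 1 = fun t => t := by
    funext t
    rw [bc_succ, bc_zero]; simp
  rw [be, this]; simp

theorem hasDerivAt_rp_zero (m : ℕ) (u : A) : HasDerivAt (fun t => rp m u t) (lg m u) 0 := by
  have h : ∀ k ∈ range m, HasDerivAt (fun t => bc k t • (u - 1) ^ k) (be k • (u - 1) ^ k) 0 := by
    intro k _
    exact ((bc_differentiable k 0).hasDerivAt).smul_const _
  have := HasDerivAt.fun_sum h
  exact this

variable {m : ℕ}

theorem hasDerivAt_rp {u : A} (hu : (u - 1) ^ m = 0) (t : ℝ) :
    HasDerivAt (fun t => rp m u t) (rp m u t * lg m u) t := by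
  have h1 : (fun s => rp m u s) = fun s => rp m u t * rp m u (s - t) := by
    funext s
    rw [← rp_add hu]; congr 1; ring
  rw [h1]
  have h2 : HasDerivAt (fun s => rp m u (s - t)) (lg m u) t := by
    have h3 := hasDerivAt_rp_zero m u
    have h5 : HasDerivAt (fun t => rp m u t) (lg m u) (t - t) := by rwa [sub_self]
    exact h5.comp_sub_const t t
  exact h2.const_mul _

theorem hasDerivAt_ex {v : A} (hv : v ^ m = 0) (t : ℝ) :
    HasDerivAt (fun t : ℝ => ex m (t • v)) (ex m (t • v) * v) t := by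
  have h0 : ∀ s : ℝ, ex m (s • v) = ∑ k ∈ range m, s ^ k • ((k.factorial : ℝ)⁻¹ • v ^ k) := by
    intro s
    unfold ex
    refine sum_congr rfl fun k _ => ?_
    rw [smul_pow, smul_comm]
  have h1 : (fun s : ℝ => ex m (s • v)) =
      fun s => ∑ k ∈ range m, s ^ k • ((k.factorial : ℝ)⁻¹ • v ^ k) := funext h0
  rw [h1]
  have h2 : ∀ k ∈ range m, HasDerivAt (fun s : ℝ => s ^ k • ((k.factorial : ℝ)⁻¹ • v ^ k))
      (((k : ℝ) * t ^ (k - 1)) • ((k.factorial : ℝ)⁻¹ • v ^ k)) t := by
    intro k _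
    exact (hasDerivAt_pow k t).smul_const _
  have h3 := HasDerivAt.fun_sum h2
  suffices hs : ex m (t • v) * v =
      ∑ i ∈ range m, ((i : ℝ) * t ^ (i - 1)) • ((i.factorial : ℝ)⁻¹ • v ^ i) by
    rw [hs]; exact h3
  rw [h0 t, sum_mul]
  cases m with
  | zero => simp
  | succ m =>
    rw [sum_range_succ, sum_range_succ' (fun k => ((k : ℝ) * t ^ (k - 1)) •
      ((k.factorial : ℝ)⁻¹ • v ^ k))]
    have e1 : t ^ m • ((m.factorial : ℝ)⁻¹ • v ^ m) * v = 0 := by
      rw [smul_mul_assoc, smul_mul_assoc, ← pow_succ, hv, smul_zero, smul_zero]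
    rw [e1, add_zero]
    simp only [Nat.cast_zero, zero_mul, zero_smul, add_zero]
    refine sum_congr rfl fun k _ => ?_
    rw [smul_mul_assoc, smul_mul_assoc, ← pow_succ, smul_smul, smul_smul, Nat.add_sub_cancel,
      Nat.factorial_succ]
    congr 1
    push_cast
    have : ((k : ℝ) + 1) ≠ 0 := by positivity
    have : (k.factorial : ℝ) ≠ 0 := by positivity
    field_simp

theorem ex_zero_smul (hm : 0 < m) (v : A) : ex m ((0 : ℝ) • v) = 1 := by
  obtain ⟨m, rfl⟩ : ∃ k, m = k + 1 := ⟨m - 1, by omega⟩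
  unfold ex
  rw [sum_range_succ']
  simp

theorem ex_comm (v : A) (s : ℝ) : Commute v (ex m (s • v)) := by
  unfold ex
  refine Commute.sum_right _ _ _ fun k _ => Commute.smul_right ?_ _
  exact ((Commute.refl v).smul_right s).pow_right k

theorem hasDerivAt_ex_neg {v : A} (hv : v ^ m = 0) (t : ℝ) :
    HasDerivAt (fun t : ℝ => ex m ((-t) • v)) (-(v * ex m ((-t) • v))) t := by
  have h1 := hasDerivAt_ex hv (-t)
  have h2 : HasDerivAt (fun s : ℝ => -s) (-1) t := (hasDerivAt_id t).neg
  have h3 := h1.scomp t h2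
  have h4 : (-1 : ℝ) • (ex m ((-t) • v) * v) = -(v * ex m ((-t) • v)) := by
    rw [(ex_comm (m := m) v (-t)).eq, neg_smul, one_smul]
  rw [h4] at h3
  exact h3

/-- uniqueness for `f' = f L` -/
theorem ode_unique (hm : 0 < m) {L : A} (hL : L ^ m = 0) {f : ℝ → A}
    (hf : ∀ t, HasDerivAt f (f t * L) t) (t : ℝ) : f t = f 0 * ex m (t • L) := by
  have h1 : ∀ (g : ℝ → A), (∀ t, HasDerivAt g (g t * L) t) → ∀ t,
      g t * ex m ((-t) • L) = g 0 := by
    intro g hg t
    have h2 : ∀ t, HasDerivAt (fun t => g t * ex m ((-t) • L)) 0 t := by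
      intro t
      have := (hg t).fun_mul (hasDerivAt_ex_neg hL t)
      rw [mul_neg, mul_assoc, add_neg_cancel] at this
      exact this
    have h3 : ∀ x y, g x * ex m ((-x) • L) = g y * ex m ((-y) • L) :=
      is_const_of_deriv_eq_zero (fun t => (h2 t).differentiableAt) fun t => (h2 t).deriv
    have h4 := h3 t 0
    rw [h4, neg_zero, ex_zero_smul hm, mul_one]
  have h5 := h1 f hf t
  have h6 := h1 (fun t => ex m (t • L)) (fun t => hasDerivAt_ex hL t) (-t)
  simp only [neg_neg, ex_zero_smul hm] at h6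
  calc f t = f t * (ex m ((-t) • L) * ex m (t • L)) := by rw [h6, mul_one]
    _ = f 0 * ex m (t • L) := by rw [← mul_assoc, h5]

theorem ex_add (hm : 0 < m) {v : A} (hv : v ^ m = 0) (s t : ℝ) :
    ex m ((s + t) • v) = ex m (s • v) * ex m (t • v) := by
  have := ode_unique hm hv (f := fun t => ex m ((s + t) • v)) (fun t => by
    exact (hasDerivAt_ex hv (s + t)).comp_const_add s t) t
  simpa using this

theorem ex_neg_mul (hm : 0 < m) {v : A} (hv : v ^ m = 0) : ex m (-v) * ex m v = 1 := by
  have := ex_add hm hv (-1) 1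
  rw [neg_add_cancel, ex_zero_smul hm, neg_smul, one_smul] at this
  exact this.symm

theorem ex_mul_neg (hm : 0 < m) {v : A} (hv : v ^ m = 0) : ex m v * ex m (-v) = 1 := by
  have := ex_add hm hv 1 (-1)
  rw [add_neg_cancel, ex_zero_smul hm, neg_smul, one_smul] at this
  exact this.symm

theorem ex_sub_one_pow (hm : 0 < m) {v : A} (hv : v ^ m = 0) : (ex m v - 1) ^ m = 0 := by
  obtain ⟨m, rfl⟩ : ∃ k, m = k + 1 := ⟨m - 1, by omega⟩
  have h1 : ex (m + 1) v - 1 =
      v * ∑ k ∈ range m, (((k + 1).factorial : ℝ)⁻¹) • v ^ k := by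
    unfold ex
    rw [sum_range_succ', mul_sum]
    simp only [Nat.factorial_zero, Nat.cast_one, inv_one, pow_zero, one_smul,
      add_sub_cancel_right]
    refine sum_congr rfl fun k _ => ?_
    rw [pow_succ', mul_smul_comm]
  have h2 : Commute v (∑ k ∈ range m, (((k + 1).factorial : ℝ)⁻¹) • v ^ k) := by
    refine Commute.sum_right _ _ _ fun k _ => ?_
    exact ((Commute.refl v).pow_right k).smul_right _
  rw [h1, h2.mul_pow, hv, zero_mul]

theorem lg_pow {u : A} (hu : (u - 1) ^ m = 0) : (lg m u) ^ m = 0 := by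
  cases m with
  | zero =>
    have h1 : (1 : A) = 0 := by simpa using hu
    rw [pow_zero, h1]
  | succ m =>
    have h1 : lg (m + 1) u = (u - 1) * ∑ k ∈ range m, be (k + 1) • (u - 1) ^ k := by
      unfold lg
      rw [sum_range_succ', be_zero, zero_smul, add_zero, mul_sum]
      refine sum_congr rfl fun k _ => ?_
      rw [pow_succ', mul_smul_comm]
    have h2 : Commute (u - 1) (∑ k ∈ range m, be (k + 1) • (u - 1) ^ k) := by
      refine Commute.sum_right _ _ _ fun k _ => ?_
      exact ((Commute.refl (u - 1)).pow_right k).smul_right _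
    rw [h1, h2.mul_pow, hu, zero_mul]

/-- real powers are exponentials -/
theorem rp_eq_ex (hm : 0 < m) {u : A} (hu : (u - 1) ^ m = 0) (t : ℝ) :
    rp m u t = ex m (t • lg m u) := by
  have := ode_unique hm (lg_pow hu) (f := fun t => rp m u t) (hasDerivAt_rp hu) t
  rwa [rp_zero hu, one_mul] at this

theorem ex_lg (hm : 0 < m) {u : A} (hu : (u - 1) ^ m = 0) : ex m (lg m u) = u := by
  have := rp_eq_ex hm hu 1
  rw [one_smul, rp_one hu] at this
  exact this.symm

theorem PC.ex {v : A} : PC (fun t => ex m (t • v)) := by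
  unfold H796.ex
  refine PC.sum _ fun k _ => ?_
  have h := ((PC.id.smul (PC.const v)).pow k).map (((k.factorial : ℝ)⁻¹) • LinearMap.id)
  exact h

theorem ex_nsmul (hm : 0 < m) {v : A} (hv : v ^ m = 0) (n : ℕ) :
    ex m ((n : ℝ) • v) = (ex m v) ^ n := by
  induction n with
  | zero => rw [Nat.cast_zero, ex_zero_smul hm, pow_zero]
  | succ n ih =>
    rw [Nat.cast_succ, ex_add hm hv, ih, one_smul, pow_succ]

theorem rp_ex (hm : 0 < m) {v : A} (hv : v ^ m = 0) (t : ℝ) :
    rp m (ex m v) t = ex m (t • v) := by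
  refine PC.eq_of_nat (f := fun t => rp m (ex m v) t) (g := fun t => ex m (t • v))
    (PC.id.rp m _) PC.ex ?_ t
  intro n
  rw [rp_nat (ex_sub_one_pow hm hv), ex_nsmul hm hv]

theorem lg_ex (hm : 0 < m) {v : A} (hv : v ^ m = 0) : lg m (ex m v) = v := by
  have h1 := hasDerivAt_rp_zero m (ex m v)
  have h2 : (fun t => rp m (ex m v) t) = fun t => ex m (t • v) := funext (rp_ex hm hv)
  rw [h2] at h1
  have h3 := hasDerivAt_ex hv 0
  rw [ex_zero_smul hm, one_mul] at h3
  exact h1.unique h3

/-- derivative of the logarithm at `1` along a curve -/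
theorem hasDerivAt_lg_one (hm : 1 < m) {g : ℝ → A} {g' : A} (hg : HasDerivAt g g' 0)
    (h0 : g 0 = 1) : HasDerivAt (fun t => lg m (g t)) g' 0 := by
  have h1 : HasDerivAt (fun t => g t - 1) g' 0 := hg.sub_const 1
  have h2 : ∀ k : ℕ, HasDerivAt (fun t => (g t - 1) ^ (k + 2)) 0 0 := by
    have key : ∀ k : ℕ, ∃ c, HasDerivAt (fun t => (g t - 1) ^ (k + 1)) c 0 := by
      intro k
      induction k with
      | zero => exact ⟨g', by simpa using h1⟩
      | succ k ih =>
        obtain ⟨c, hc⟩ := ih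
        refine ⟨_, (hc.mul h1).congr_of_eventuallyEq ?_⟩
        exact Eventually.of_forall fun t => by simp [pow_succ]
    intro k
    obtain ⟨c, hc⟩ := key k
    have := hc.mul h1
    simp only [h0, sub_self, mul_zero, zero_add] at this
    rw [zero_pow (by omega), zero_mul] at this
    refine this.congr_of_eventuallyEq ?_
    exact Eventually.of_forall fun t => by simp [pow_succ]
  obtain ⟨m, rfl⟩ : ∃ k, m = k + 2 := ⟨m - 2, by omega⟩
  have h3 : (fun t => lg (m + 2) (g t)) = fun t =>
      (g t - 1) + ∑ k ∈ range m, be (k + 2) • (g t - 1) ^ (k + 2) := by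
    funext t
    unfold lg
    rw [sum_range_succ', sum_range_succ']
    simp only [be_zero, zero_add, be_one, zero_smul, pow_one, one_smul, add_zero]
    rw [add_comm]
  rw [h3]
  have h4 : HasDerivAt (fun t => ∑ k ∈ range m, be (k + 2) • (g t - 1) ^ (k + 2))
      (∑ k ∈ range m, be (k + 2) • (0 : A)) 0 :=
    HasDerivAt.fun_sum fun k _ => (h2 k).const_smul (be (k + 2))
  simp only [smul_zero, sum_const_zero] at h4
  simpa using h1.fun_add h4

theorem continuous_ex : Continuous (fun v : A => ex m v) := by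
  unfold ex; fun_prop

theorem continuous_lg : Continuous (fun v : A => lg m v) := by
  unfold lg; fun_prop

theorem ex_conj (u : Aˣ) (v : A) : ex m (u * v * (u⁻¹ : Aˣ)) = u * ex m v * (u⁻¹ : Aˣ) := by
  have key : ∀ k : ℕ, ((u : A) * v * (u⁻¹ : Aˣ)) ^ k = u * v ^ k * (u⁻¹ : Aˣ) := by
    intro k
    induction k with
    | zero => simp
    | succ k ih => rw [pow_succ, ih, pow_succ]; simp only [mul_assoc, Units.inv_mul_cancel_left]
  unfold ex
  rw [mul_sum, sum_mul]
  refine sum_congr rfl fun k _ => ?_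
  rw [mul_smul_comm, smul_mul_assoc, key]

end expo

end Vale.Agent.P188.H796
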