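import Vale.Agent.P188.H796.Le

/-!
The Lie algebra of the real Malcev completion.
-/

open Finset Filter Topology

universe u v

namespace Vale.Agent.P188.H796

namespace RD

section alg

variable {N : Type u} [Group N] {d n : ℕ} {D : MB N d n} {A : Type v} [Ring A] [Algebra ℝ A]
  (R : RD D A)

/-- the nilpotent subalgebra spanned by the `ρ(x) - 1` -/
def J : Submodule ℝ A := Submodule.span ℝ (Set.range fun x => R.ρ x - 1)

theorem J_pow : R.J ^ R.m = ⊥ := by
  rw [J, Submodule.span_pow, Submodule.span_eq_bot]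
  intro a ha
  rw [Set.mem_pow] at ha
  obtain ⟨f, rfl⟩ := ha
  choose x hx using fun i => (f i).2
  have h1 := R.nil x
  have h2 : (fun i => (R.ρ (x i) - 1)) = fun i => ((f i : A)) := funext hx
  rw [h2] at h1
  exact h1

theorem J_nil {v : A} (hv : v ∈ R.J) : v ^ R.m = 0 := by
  have h1 := Submodule.pow_mem_pow R.J hv R.m
  rw [R.J_pow] at h1
  exact (Submodule.mem_bot ℝ).1 h1

theorem J_mul {v w : A} (hv : v ∈ R.J) (hw : w ∈ R.J) : v * w ∈ R.J := by
  have h1 : R.J * R.J ≤ R.J := by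
    conv_lhs => rw [J, Submodule.span_mul_span]
    rw [Submodule.span_le]
    rintro _ ⟨_, ⟨x, rfl⟩, _, ⟨y, rfl⟩, rfl⟩
    have : (R.ρ x - 1) * (R.ρ y - 1) = (R.ρ (x * y) - 1) - (R.ρ x - 1) - (R.ρ y - 1) := by
      rw [map_mul]; noncomm_ring
    simp only [SetLike.mem_coe]
    rw [this]
    exact Submodule.sub_mem _ (Submodule.sub_mem _ (Submodule.subset_span ⟨_, rfl⟩)
      (Submodule.subset_span ⟨_, rfl⟩)) (Submodule.subset_span ⟨_, rfl⟩)
  exact h1 (Submodule.mul_mem_mul hv hw)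

theorem J_pow_mem {v : A} (hv : v ∈ R.J) {k : ℕ} (hk : 1 ≤ k) : v ^ k ∈ R.J := by
  induction k, hk using Nat.le_induction with
  | base => simpa using hv
  | succ k _ ih => rw [pow_succ]; exact R.J_mul ih hv

theorem E_sub_one_mem (s : R.NR) : R.E s - 1 ∈ R.J := by
  have h1 := R.dens (F := A ⧸ R.J) (f := fun s => R.J.mkQ (R.E s - 1)) (g := fun _ => 0)
    (fun γ hγ => ((R.PC_E hγ).sub (PC.const 1)).map R.J.mkQ) (fun γ hγ => PC.const 0)
    (fun y => by
      have h2 : R.E (R.ι y) = R.ρ y := R.E_coord y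
      rw [h2]
      simp only [Submodule.mkQ_apply, Submodule.Quotient.mk_eq_zero]
      exact Submodule.subset_span ⟨y, rfl⟩) s
  rw [Submodule.mkQ_apply, Submodule.Quotient.mk_eq_zero] at h1
  exact h1

theorem E_unip (s : R.NR) : (R.E s - 1) ^ R.m = 0 := R.J_nil (R.E_sub_one_mem s)

theorem ℓ_toA (s : R.NR) (i : Fin d) : R.ℓ i (R.E s) = s i := R.ℓ_E s i

theorem E_of_range {a : A} (h : ∃ s : R.NR, R.E s = a) : R.E (fun i => R.ℓ i a) = a := by
  obtain ⟨s, rfl⟩ := h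
  congr 1
  funext i
  exact R.ℓ_E s i

/-- real powers stay in the group -/
theorem exists_rp (s : R.NR) (t : ℝ) : ∃ s' : R.NR, R.E s' = rp R.m (R.E s) t := by
  refine ⟨fun i => R.ℓ i (rp R.m (R.E s) t), ?_⟩
  refine PC.eq_of_nat (f := fun t => R.E (fun i => R.ℓ i (rp R.m (R.E s) t)))
    (g := fun t => rp R.m (R.E s) t)
    (R.PC_E fun i => (PC.id.rp _ _).map (R.ℓ i)) (PC.id.rp _ _) ?_ t
  intro k
  rw [rp_nat (R.E_unip s)]
  refine R.E_of_range ⟨s ^ k, ?_⟩
  exact map_pow R.toA s k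

end alg

section lie

variable {N : Type u} [Group N] {d n : ℕ} {D : MB N d n} {A : Type v} [NormedRing A]
  [NormedAlgebra ℝ A] [FiniteDimensional ℝ A] (R : RD D A)

omit [FiniteDimensional ℝ A] in
theorem hm0 : 0 < R.m := lt_trans Nat.zero_lt_one R.one_lt

omit [FiniteDimensional ℝ A] in
theorem lg_mem_J {u : A} (hu : u - 1 ∈ R.J) : lg R.m u ∈ R.J := by
  unfold lg
  refine Submodule.sum_mem _ fun k _ => ?_
  rcases Nat.eq_zero_or_pos k with rfl | hk
  · rw [be_zero, zero_smul]; exact Submodule.zero_mem _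
  · exact Submodule.smul_mem _ _ (R.J_pow_mem hu hk)

omit [FiniteDimensional ℝ A] in
theorem ex_sub_one_mem_J {v : A} (hv : v ∈ R.J) : ex R.m v - 1 ∈ R.J := by
  obtain ⟨m, hm⟩ : ∃ k, R.m = k + 1 := ⟨R.m - 1, by have := R.hm0; omega⟩
  unfold ex
  rw [hm, sum_range_succ']
  simp only [Nat.factorial_zero, Nat.cast_one, inv_one, pow_zero, one_smul, add_sub_cancel_right]
  exact Submodule.sum_mem _ fun k _ => Submodule.smul_mem _ _ (R.J_pow_mem hv (by omega))

/-- logarithms of the elements of the real group -/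
def VS : Set A := {v | v ∈ R.J ∧ ∃ s : R.NR, R.E s = ex R.m v}

/-- logarithm of an element of the real group -/
noncomputable def Lg (s : R.NR) : A := lg R.m (R.E s)

omit [FiniteDimensional ℝ A] in
theorem Lg_mem (s : R.NR) : R.Lg s ∈ R.VS :=
  ⟨R.lg_mem_J (R.E_sub_one_mem s), s, (ex_lg R.hm0 (R.E_unip s)).symm⟩

omit [FiniteDimensional ℝ A] in
theorem ex_Lg (s : R.NR) : ex R.m (R.Lg s) = R.E s := ex_lg R.hm0 (R.E_unip s)

omit [FiniteDimensional ℝ A] in
theorem exists_of_mem {v : A} (hv : v ∈ R.VS) : ∃ s : R.NR, R.Lg s = v := by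
  obtain ⟨hJ, s, hs⟩ := hv
  exact ⟨s, by rw [Lg, hs, lg_ex R.hm0 (R.J_nil hJ)]⟩

omit [FiniteDimensional ℝ A] in
theorem continuous_E : Continuous R.E := by
  have h1 : ∀ i, Continuous fun s : Fin d → ℝ => rp R.m (R.ρ (D.b i)) (s i) := by
    intro i
    unfold rp
    refine continuous_finsetSum _ fun k _ => ?_
    exact (((bc_differentiable k).continuous).comp (continuous_apply i)).smul continuous_const
  have h2 : ∀ L : List (Fin d), Continuous fun s : Fin d → ℝ =>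
      (L.map fun i => rp R.m (R.ρ (D.b i)) (s i)).prod := by
    intro L
    induction L with
    | nil => simpa using continuous_const
    | cons i L ih =>
      simp only [List.map_cons, List.prod_cons]
      exact (h1 i).mul ih
  have h3 : R.E = fun s : Fin d → ℝ => ((List.finRange d).map fun i =>
      rp R.m (R.ρ (D.b i)) (s i)).prod := by
    funext s
    have h4 := map_list_prod (Units.coeHom A)
      (List.ofFn fun i => rpU R.m (R.ρ (D.b i)) (R.unip _) (s i))
    rw [List.map_ofFn] at h4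
    have h5 : R.E s = (List.ofFn ((Units.coeHom A) ∘ fun i =>
      rpU R.m (R.ρ (D.b i)) (R.unip _) (s i))).prod := h4
    rw [h5, List.ofFn_eq_map]
    rfl
  rw [h3]
  exact h2 _

theorem isClosed_range : IsClosed {a : A | ∃ s : R.NR, R.E s = a} := by
  have h1 : {a : A | ∃ s : R.NR, R.E s = a} = {a : A | R.E (fun i => R.ℓ i a) = a} := by
    ext a
    exact ⟨fun h => R.E_of_range h, fun h => ⟨_, h⟩⟩
  rw [h1]
  refine isClosed_eq ?_ continuous_id
  refine R.continuous_E.comp (continuous_pi fun i => ?_)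
  exact (R.ℓ i).continuous_of_finiteDimensional

theorem isClosed_VS : IsClosed R.VS := by
  have h1 : IsClosed (R.J : Set A) := Submodule.closed_of_finiteDimensional _
  have h2 : IsClosed ((fun v : A => ex R.m v) ⁻¹' {a : A | ∃ s : R.NR, R.E s = a}) :=
    R.isClosed_range.preimage continuous_ex
  exact h1.inter h2

omit [FiniteDimensional ℝ A] in
theorem smul_mem_VS {v : A} (hv : v ∈ R.VS) (t : ℝ) : t • v ∈ R.VS := by
  obtain ⟨hJ, s, hs⟩ := hv
  refine ⟨R.J.smul_mem t hJ, ?_⟩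
  obtain ⟨s', hs'⟩ := R.exists_rp s t
  exact ⟨s', by rw [hs', hs, rp_ex R.hm0 (R.J_nil hJ)]⟩

/-- limits of difference quotients of curves in `VS` -/
theorem deriv_mem_VS {Z : ℝ → A} {Z' : A} (hZ : HasDerivAt Z Z' 0)
    (h : ∀ t : ℝ, t ≠ 0 → t⁻¹ • (Z t - Z 0) ∈ R.VS) : Z' ∈ R.VS := by
  rw [hasDerivAt_iff_tendsto_slope_zero] at hZ
  refine R.isClosed_VS.mem_of_tendsto hZ ?_
  filter_upwards [self_mem_nhdsWithin] with t ht
  rw [zero_add]
  exact h t ht

theorem add_mem_VS {v w : A} (hv : v ∈ R.VS) (hw : w ∈ R.VS) : v + w ∈ R.VS := by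
  have h1 : ∀ t : ℝ, lg R.m (ex R.m (t • v) * ex R.m (t • w)) ∈ R.VS := by
    intro t
    obtain ⟨_, s, hs⟩ := R.smul_mem_VS hv t
    obtain ⟨_, s', hs'⟩ := R.smul_mem_VS hw t
    have := R.Lg_mem (s * s')
    rwa [Lg, toA_mul, hs, hs'] at this
  have hd : HasDerivAt (fun t : ℝ => ex R.m (t • v) * ex R.m (t • w)) (v + w) 0 := by
    have e1 := hasDerivAt_ex (R.J_nil hv.1) 0
    have e2 := hasDerivAt_ex (R.J_nil hw.1) 0
    have := e1.fun_mul e2
    simp only [ex_zero_smul R.hm0, one_mul, mul_one] at this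
    exact this
  have h0 : ex R.m ((0 : ℝ) • v) * ex R.m ((0 : ℝ) • w) = 1 := by
    rw [ex_zero_smul R.hm0, ex_zero_smul R.hm0, one_mul]
  have hd2 := hasDerivAt_lg_one R.one_lt hd h0
  refine R.deriv_mem_VS hd2 ?_
  intro t _
  have h2 : lg R.m (ex R.m ((0 : ℝ) • v) * ex R.m ((0 : ℝ) • w)) = 0 := by
    rw [h0]
    unfold lg
    refine sum_eq_zero fun k _ => ?_
    rcases Nat.eq_zero_or_pos k with rfl | hk
    · rw [be_zero, zero_smul]
    · rw [sub_self, zero_pow (by omega), smul_zero]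
  simp only [h2, sub_zero]
  exact R.smul_mem_VS (h1 t) _

theorem zero_mem_VS : (0 : A) ∈ R.VS := by
  have := R.smul_mem_VS (R.Lg_mem 1) 0
  rwa [zero_smul] at this

/-- the Lie algebra as a submodule -/
def V : Submodule ℝ A where
  carrier := R.VS
  zero_mem' := R.zero_mem_VS
  add_mem' := R.add_mem_VS
  smul_mem' := fun t _ hv => R.smul_mem_VS hv t

theorem mem_V {v : A} : v ∈ R.V ↔ v ∈ R.VS := Iff.rfl

theorem V_le_J : R.V ≤ R.J := fun _ hv => hv.1

/-- conjugation preserves `V` -/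
theorem conj_mem_V {v : A} (hv : v ∈ R.V) (s : R.NR) :
    R.E s * v * (((R.EU s)⁻¹ : Aˣ) : A) ∈ R.V := by
  obtain ⟨hJ, s', hs'⟩ := hv
  have hEi : (((R.EU s)⁻¹ : Aˣ) : A) - 1 ∈ R.J := by
    have := R.E_sub_one_mem (s⁻¹ : R.NR)
    rwa [toA_inv] at this
  refine ⟨?_, s * s' * s⁻¹, ?_⟩
  · have h1 : R.E s * v * (((R.EU s)⁻¹ : Aˣ) : A) =
        (R.E s - 1) * v * ((((R.EU s)⁻¹ : Aˣ) : A) - 1) + (R.E s - 1) * v +
          v * ((((R.EU s)⁻¹ : Aˣ) : A) - 1) + v := by noncomm_ring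
    rw [h1]
    have h2 := R.J_mul (R.E_sub_one_mem s) hJ
    exact R.J.add_mem (R.J.add_mem (R.J.add_mem (R.J_mul h2 hEi) h2) (R.J_mul hJ hEi)) hJ
  · rw [toA_mul, toA_mul, toA_inv, hs']
    exact (ex_conj (R.EU s) v).symm

theorem bracket_mem_V {v w : A} (hv : v ∈ R.V) (hw : w ∈ R.V) : v * w - w * v ∈ R.V := by
  have hd : HasDerivAt (fun t : ℝ => ex R.m (t • v) * w * ex R.m ((-t) • v)) (v * w - w * v) 0 := by
    have e1 := (hasDerivAt_ex (R.J_nil hv.1) 0).mul_const w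
    have e2 := hasDerivAt_ex_neg (R.J_nil hv.1) 0
    have := e1.fun_mul e2
    simp only [neg_zero, ex_zero_smul R.hm0, one_mul, mul_one, mul_neg] at this
    rw [sub_eq_add_neg]
    exact this
  refine R.deriv_mem_VS hd ?_
  intro t _
  have h1 : ex R.m (t • v) * w * ex R.m ((-t) • v) ∈ R.V := by
    obtain ⟨s, hs⟩ := (R.smul_mem_VS hv t).2
    have h2 := R.conj_mem_V hw s
    have h3 : (((R.EU s)⁻¹ : Aˣ) : A) = ex R.m ((-t) • v) := by
      have h4 : R.E s * ex R.m ((-t) • v) = 1 := by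
        rw [hs, neg_smul]
        exact ex_mul_neg R.hm0 (R.J_nil (R.J.smul_mem t hv.1))
      calc (((R.EU s)⁻¹ : Aˣ) : A) = (((R.EU s)⁻¹ : Aˣ) : A) * (R.E s * ex R.m ((-t) • v)) := by
            rw [h4, mul_one]
        _ = ex R.m ((-t) • v) := Units.inv_mul_cancel_left _ _
    rwa [h3, hs] at h2
  have h0 : ex R.m ((0 : ℝ) • v) * w * ex R.m ((-(0 : ℝ)) • v) = w := by
    rw [neg_zero, ex_zero_smul R.hm0, one_mul, mul_one]
  simp only [h0]
  exact R.V.smul_mem _ (R.V.sub_mem h1 hw)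

instance : Bracket R.V R.V := ⟨fun v w => ⟨v * w - w * v, R.bracket_mem_V v.2 w.2⟩⟩

theorem coe_bracket (v w : R.V) : ((⁅v, w⁆ : R.V) : A) = v * w - w * v := rfl

noncomputable instance : LieRing R.V where
  add_lie x y z := Subtype.ext (by simp only [coe_bracket, Submodule.coe_add]; noncomm_ring)
  lie_add x y z := Subtype.ext (by simp only [coe_bracket, Submodule.coe_add]; noncomm_ring)
  lie_self x := Subtype.ext (by simp [coe_bracket])
  leibniz_lie x y z := Subtype.ext (by simp only [coe_bracket, Submodule.coe_add]; noncomm_ring)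

noncomputable instance : LieAlgebra ℝ R.V where
  lie_smul t x y := Subtype.ext (by
    simp only [coe_bracket, Submodule.coe_smul, mul_smul_comm, smul_mul_assoc, smul_sub])

/-- exponential map -/
noncomputable def Ex (v : R.V) : R.NR := fun i => R.ℓ i (ex R.m (v : A))

theorem toA_Ex (v : R.V) : R.toA (R.Ex v) = ex R.m (v : A) := by
  obtain ⟨s, hs⟩ := v.2.2
  exact R.E_of_range ⟨s, hs⟩

/-- logarithm map -/
noncomputable def Lo (s : R.NR) : R.V := ⟨R.Lg s, R.Lg_mem s⟩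

theorem Ex_Lo (s : R.NR) : R.Ex (R.Lo s) = s :=
  R.toA_inj (by rw [toA_Ex]; exact R.ex_Lg s)

theorem Lo_Ex (v : R.V) : R.Lo (R.Ex v) = v := by
  apply Subtype.ext
  change lg R.m (R.toA (R.Ex v)) = v
  rw [toA_Ex, lg_ex R.hm0 (R.J_nil v.2.1)]

theorem Ex_add (v : R.V) (s t : ℝ) : R.Ex ((s + t) • v) = R.Ex (s • v) * R.Ex (t • v) :=
  R.toA_inj (by
    rw [map_mul, toA_Ex, toA_Ex, toA_Ex]
    exact ex_add R.hm0 (R.J_nil v.2.1) s t)

theorem Ex_zero : R.Ex 0 = 1 := R.toA_inj (by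
  rw [toA_Ex, map_one]
  have := ex_zero_smul R.hm0 (0 : A)
  rwa [smul_zero] at this)

theorem Ex_neg (v : R.V) : R.Ex (-v) = (R.Ex v)⁻¹ := by
  rw [eq_inv_iff_mul_eq_one]
  have := R.Ex_add v (-1) 1
  rw [neg_add_cancel, zero_smul, Ex_zero, neg_smul, one_smul] at this
  exact this.symm

end lie

end RD

end Vale.Agent.P188.H796
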