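import Vale.Agent.P188.H796.Lf

/-!
The concrete representation on polynomial functions; automorphisms.
-/

open Finset Filter Topology

universe u v

namespace Vale.Agent.P188.H796

variable {N : Type u} [Group N] {d n : ℕ}

theorem MB.closure_b (D : MB N d n) : Subgroup.closure (Set.range D.b) = ⊤ := by
  rw [eq_top_iff]
  intro y _
  rw [← D.prod_c y]
  refine Subgroup.list_prod_mem _ fun x hx => ?_
  rw [List.mem_ofFn] at hx
  obtain ⟨i, rfl⟩ := hx
  exact Subgroup.zpow_mem _ (Subgroup.subset_closure (Set.mem_range_self i)) _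

theorem MB.finiteDimensional (D : MB N d n) (k : ℕ) : FiniteDimensional ℝ (PF N k) := by
  classical
  refine PF_finite (Finset.univ.image D.b) ?_ k
  rw [Finset.coe_image, Finset.coe_univ, Set.image_univ]
  exact D.closure_b

/-- right translation on polynomial functions -/
def trL (n : ℕ) (x : N) : Module.End ℝ (PF N n) where
  toFun f := ⟨trn x f.1, trn_mem f.2 x⟩
  map_add' f g := Subtype.ext (by funext y; simp [trn])
  map_smul' c f := Subtype.ext (by funext y; simp [trn])

/-- right translations as a monoid homomorphism -/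
def trH (n : ℕ) : N →* Module.End ℝ (PF N n) where
  toFun := trL n
  map_one' := by ext f y; simp [trL, trn]
  map_mul' x y := by ext f z; simp [trL, trn, mul_assoc]

theorem trH_apply (n : ℕ) (x : N) (f : PF N n) (y : N) : (trH n x f).1 y = f.1 (y * x) := rfl

theorem prod_trH_mem (n : ℕ) (L : List N) (k : ℕ) (f : PF N n) (hf : f.1 ∈ PF N k) :
    ((L.map fun x => (trH n x - 1)).prod f).1 ∈ PF N (k - L.length) := by
  induction L with
  | nil => simpa using hf
  | cons x L ih =>
    simp only [List.map_cons, List.prod_cons, List.length_cons]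
    set g := (L.map fun x => (trH n x - 1)).prod f with hg
    have h1 : (((trH n x - 1) * (L.map fun x => (trH n x - 1)).prod) f).1 = dlt x g.1 := by
      funext y
      rw [Module.End.mul_apply, ← hg]
      simp [dlt, LinearMap.sub_apply, trH_apply]
    rw [h1]
    rcases Nat.eq_zero_or_pos (k - L.length) with h | h
    · rw [h] at ih
      have h2 : g.1 = 0 := (Submodule.mem_bot ℝ).1 ih
      rw [h2]
      have : dlt x (0 : N → ℝ) = 0 := by ext y; simp [dlt]
      rw [this]; exact Submodule.zero_mem _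
    · obtain ⟨e, he⟩ : ∃ e, k - L.length = e + 1 := ⟨k - L.length - 1, by omega⟩
      rw [he] at ih
      have h2 : k - (L.length + 1) = e := by omega
      rw [h2]
      exact ih x

theorem prod_trH_zero (n : ℕ) (m : ℕ) (hm : n ≤ m) (x : Fin m → N) :
    (List.ofFn fun i => (trH n (x i) - 1)).prod = 0 := by
  have h1 := prod_trH_mem (N := N) n (List.ofFn x)
  rw [List.map_ofFn] at h1
  ext f y
  have h2 := h1 n f f.2
  rw [List.length_ofFn, Nat.sub_eq_zero_of_le hm] at h2
  have h3 := (Submodule.mem_bot ℝ).1 h2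
  exact congrFun h3 y

/-- composition with automorphisms -/
def coH (n : ℕ) : MulAut N →* Module.End ℝ (PF N n) where
  toFun θ :=
    { toFun := fun f => ⟨f.1 ∘ (θ⁻¹ : MulAut N), comp_mem (θ⁻¹ : MulAut N).toMonoidHom f.2⟩
      map_add' := fun f g => Subtype.ext (by funext y; simp)
      map_smul' := fun c f => Subtype.ext (by funext y; simp) }
  map_one' := by ext f y; simp
  map_mul' x y := by ext f z; simp [mul_inv_rev]

theorem coH_apply (n : ℕ) (θ : MulAut N) (f : PF N n) (y : N) :
    (coH n θ f).1 y = f.1 ((θ⁻¹ : MulAut N) y) := rfl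

theorem coH_tr (n : ℕ) (θ : MulAut N) (x : N) :
    coH n θ * trH n x = trH n (θ x) * coH n θ := by
  ext f y
  rw [Module.End.mul_apply, Module.End.mul_apply, coH_apply, trH_apply, trH_apply, coH_apply,
    map_mul, MulAut.inv_apply_self]

section concrete

variable (D : MB N d n)

/-- dimension of the space of polynomial functions -/
noncomputable def MB.dim (_D : MB N d n) : ℕ := Module.finrank ℝ (PF N n)

/-- the algebra -/
abbrev MB.Alg : Type := (Fin D.dim → ℝ) →L[ℝ] (Fin D.dim → ℝ)

/-- linear coordinates on polynomial functions -/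
noncomputable def MB.e : PF N n ≃ₗ[ℝ] (Fin D.dim → ℝ) :=
  haveI := D.finiteDimensional n
  (Module.finBasis ℝ (PF N n)).equivFun

/-- the algebra as an endomorphism algebra -/
noncomputable def MB.Φ : Module.End ℝ (PF N n) ≃ₐ[ℝ] D.Alg :=
  (D.e.conjAlgEquiv ℝ).trans (Module.End.toContinuousLinearMap (Fin D.dim → ℝ))

/-- evaluation functional `a ↦ (a f)(1)` -/
noncomputable def MB.evl (f : PF N n) : D.Alg →ₗ[ℝ] ℝ where
  toFun a := ((D.Φ.symm a) f).1 1
  map_add' a b := by simp
  map_smul' c a := by simp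

/-- the representation data -/
noncomputable def MB.R : RD D D.Alg where
  ρ := (D.Φ : Module.End ℝ (PF N n) →* D.Alg).comp (trH n)
  m := n + 2
  one_lt := by omega
  nil := by
    intro x
    have h1 := prod_trH_zero (N := N) n (n + 2) (by omega) x
    have h2 := congrArg D.Φ h1
    rw [map_zero, map_list_prod, List.map_ofFn] at h2
    rw [← h2]
    congr 2
    funext i
    have h3 : D.Φ (trH n (x i) - 1) = D.Φ (trH n (x i)) - D.Φ 1 := map_sub D.Φ _ _
    rw [map_one] at h3
    exact h3.symm
  ℓ := fun i => D.evl ⟨_, D.c_poly i⟩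
  hℓ := by
    intro i y
    change ((D.Φ.symm (D.Φ (trH n y))) ⟨_, D.c_poly i⟩).1 1 = _
    rw [AlgEquiv.symm_apply_apply, trH_apply, one_mul]

theorem MB.R_ρ (x : N) : D.R.ρ x = D.Φ (trH n x) := rfl

/-- automorphisms act on the algebra -/
noncomputable def MB.Th : MulAut N →* (D.Alg ≃ₐ[ℝ] D.Alg) where
  toFun θ :=
    { toFun := fun a => D.Φ (coH n θ) * a * D.Φ (coH n θ⁻¹)
      invFun := fun a => D.Φ (coH n θ⁻¹) * a * D.Φ (coH n θ)
      left_inv := fun a => by
        have h1 : D.Φ (coH n θ⁻¹) * D.Φ (coH n θ) = 1 := by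
          rw [← map_mul, ← map_mul, inv_mul_cancel, map_one, map_one]
        simp only [← mul_assoc, h1, one_mul]
        rw [mul_assoc, h1, mul_one]
      right_inv := fun a => by
        have h1 : D.Φ (coH n θ) * D.Φ (coH n θ⁻¹) = 1 := by
          rw [← map_mul, ← map_mul, mul_inv_cancel, map_one, map_one]
        simp only [← mul_assoc, h1, one_mul]
        rw [mul_assoc, h1, mul_one]
      map_mul' := fun a b => by
        have h1 : D.Φ (coH n θ⁻¹) * D.Φ (coH n θ) = 1 := by
          rw [← map_mul, ← map_mul, inv_mul_cancel, map_one, map_one]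
        calc D.Φ (coH n θ) * (a * b) * D.Φ (coH n θ⁻¹)
            = D.Φ (coH n θ) * a * 1 * b * D.Φ (coH n θ⁻¹) := by simp only [mul_one, mul_assoc]
          _ = _ := by rw [← h1]; simp only [mul_assoc]
      map_add' := fun a b => by rw [mul_add, add_mul]
      commutes' := fun r => by
        have h1 : D.Φ (coH n θ) * D.Φ (coH n θ⁻¹) = 1 := by
          rw [← map_mul, ← map_mul, mul_inv_cancel, map_one, map_one]
        change D.Φ (coH n θ) * algebraMap ℝ D.Alg r * D.Φ (coH n θ⁻¹) = _
        rw [← Algebra.commutes, mul_assoc, h1, mul_one] }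
  map_one' := by
    ext1 a
    change D.Φ (coH n 1) * a * D.Φ (coH n 1⁻¹) = a
    rw [inv_one, map_one, map_one, one_mul, mul_one]
  map_mul' θ θ' := by
    ext1 a
    change D.Φ (coH n (θ * θ')) * a * D.Φ (coH n (θ * θ')⁻¹) =
      D.Φ (coH n θ) * (D.Φ (coH n θ') * a * D.Φ (coH n θ'⁻¹)) * D.Φ (coH n θ⁻¹)
    rw [mul_inv_rev, map_mul, map_mul, map_mul, map_mul]
    simp only [mul_assoc]

theorem MB.Th_apply (θ : MulAut N) (a : D.Alg) :
    D.Th θ a = D.Φ (coH n θ) * a * D.Φ (coH n θ⁻¹) := rfl

theorem MB.Th_ρ (θ : MulAut N) (x : N) : D.Th θ (D.R.ρ x) = D.R.ρ (θ x) := by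
  have h1 : D.Φ (coH n θ) * D.Φ (coH n θ⁻¹) = 1 := by
    rw [← map_mul, ← map_mul, mul_inv_cancel, map_one, map_one]
  rw [Th_apply, R_ρ, R_ρ, ← map_mul, coH_tr, map_mul, mul_assoc, h1, mul_one]

end concrete

end Vale.Agent.P188.H796
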