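import Mathlib

/-!
The pushout group `S = (K ⋊ Γ) / {((ι n)⁻¹, n)}`.
-/

universe u v w

namespace Vale.Agent.P188.H796

/-- data for the pushout: a normal subgroup `N` of `Γ`, an injective homomorphism `ι : N → K`, and
an action of `Γ` on `K` extending conjugation. -/
structure PushData (Γ : Type u) [Group Γ] (N : Subgroup Γ) (K : Type v) [Group K] where
  normal : N.Normal
  ι : N →* K
  inj : Function.Injective ι
  α : Γ →* MulAut K
  α_ι : ∀ (g : Γ) (n : N), α g (ι n) = ι ⟨g * n * g⁻¹, normal.conj_mem n n.2 g⟩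
  α_n : ∀ (n : N) (k : K), α n k = ι n * k * (ι n)⁻¹

namespace PushData

variable {Γ : Type u} [Group Γ] {N : Subgroup Γ} {K : Type v} [Group K] (P : PushData Γ N K)

/-- the antidiagonal copy of `N` -/
def Δ : Subgroup (K ⋊[P.α] Γ) where
  carrier := {x | ∃ n : N, x.right = n ∧ x.left = (P.ι n)⁻¹}
  one_mem' := ⟨1, rfl, by simp⟩
  mul_mem' := by
    rintro a b ⟨n, hn1, hn2⟩ ⟨n', hn1', hn2'⟩
    refine ⟨n * n', by simp [hn1, hn1'], ?_⟩
    rw [SemidirectProduct.mul_left, hn1, hn2, hn2', P.α_n, map_mul]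
    group
  inv_mem' := by
    rintro a ⟨n, hn1, hn2⟩
    refine ⟨n⁻¹, by simp [hn1], ?_⟩
    rw [SemidirectProduct.inv_left, hn1, hn2]
    have h : P.α ((n : Γ)⁻¹) = P.α ((n⁻¹ : N) : Γ) := by rw [Subgroup.coe_inv]
    rw [h, P.α_n]
    simp

theorem mem_Δ {x : K ⋊[P.α] Γ} : x ∈ P.Δ ↔ ∃ n : N, x.right = n ∧ x.left = (P.ι n)⁻¹ := Iff.rfl

instance : P.Δ.Normal where
  conj_mem := by
    rintro a ⟨n, hn1, hn2⟩ ⟨k, g⟩
    refine ⟨⟨g * n * g⁻¹, P.normal.conj_mem n n.2 g⟩, ?_, ?_⟩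
    · simp [hn1]
    · rw [SemidirectProduct.mul_left, SemidirectProduct.mul_left, SemidirectProduct.inv_left,
        SemidirectProduct.mul_right, hn1, hn2]
      simp only
      rw [map_inv, P.α_ι]
      have h1 : (P.α (g * n)) ((P.α g⁻¹) k⁻¹) =
          P.α ((⟨g * n * g⁻¹, P.normal.conj_mem n n.2 g⟩ : N) : Γ) k⁻¹ := by
        rw [← MulAut.mul_apply, ← map_mul]
      rw [h1, P.α_n]
      group

/-- the pushout group -/
def S : Type (max u v) := (K ⋊[P.α] Γ) ⧸ P.Δ

instance : Group P.S := inferInstanceAs (Group ((K ⋊[P.α] Γ) ⧸ P.Δ))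

/-- the embedding of `K` -/
def inK : K →* P.S := (QuotientGroup.mk' P.Δ).comp SemidirectProduct.inl

/-- the embedding of `Γ` -/
def inG : Γ →* P.S := (QuotientGroup.mk' P.Δ).comp SemidirectProduct.inr

theorem inK_mul_inG_eq_one {k : K} {g : Γ} (h : P.inK k * P.inG g = 1) :
    ∃ n : N, g = n ∧ k = (P.ι n)⁻¹ := by
  have h1 : (QuotientGroup.mk' P.Δ) (SemidirectProduct.inl k * SemidirectProduct.inr g) = 1 := by
    rw [map_mul]; exact h
  rw [QuotientGroup.mk'_apply, QuotientGroup.eq_one_iff] at h1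
  obtain ⟨n, hn1, hn2⟩ := h1
  refine ⟨n, by simpa using hn1, by simpa using hn2⟩

theorem inK_injective : Function.Injective P.inK := by
  rw [injective_iff_map_eq_one]
  intro k hk
  obtain ⟨n, h1, h2⟩ := P.inK_mul_inG_eq_one (k := k) (g := 1) (by rw [hk, map_one, mul_one])
  have : n = 1 := Subtype.ext h1.symm
  rw [h2, this, map_one, inv_one]

theorem inG_injective : Function.Injective P.inG := by
  rw [injective_iff_map_eq_one]
  intro g hg
  obtain ⟨n, h1, h2⟩ := P.inK_mul_inG_eq_one (k := 1) (g := g) (by rw [hg, map_one, mul_one])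
  have h3 : P.ι n = 1 := inv_eq_one.1 h2.symm
  have h4 : n = 1 := P.inj (by rw [h3, map_one])
  rw [h1, h4]; rfl

theorem inG_coe (n : N) : P.inG n = P.inK (P.ι n) := by
  rw [← inv_mul_eq_one, ← map_inv]
  have h : (QuotientGroup.mk' P.Δ) (SemidirectProduct.inr ((n : Γ)⁻¹) *
      SemidirectProduct.inl (P.ι n)) = 1 := by
    rw [QuotientGroup.mk'_apply, QuotientGroup.eq_one_iff]
    refine ⟨n⁻¹, by simp, ?_⟩
    have h1 : P.α ((n : Γ)⁻¹) = P.α ((n⁻¹ : N) : Γ) := by rw [Subgroup.coe_inv]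
    rw [SemidirectProduct.mul_left]
    simp only [SemidirectProduct.left_inr, SemidirectProduct.right_inr,
      SemidirectProduct.left_inl, one_mul]
    rw [h1, P.α_n]
    simp
  rw [map_mul] at h
  exact h

theorem inG_conj (g : Γ) (k : K) : P.inG g * P.inK k * (P.inG g)⁻¹ = P.inK (P.α g k) := by
  rw [← map_inv]
  have h : (SemidirectProduct.inr g * SemidirectProduct.inl k * SemidirectProduct.inr g⁻¹ :
      K ⋊[P.α] Γ) = SemidirectProduct.inl (P.α g k) := by
    ext <;> simp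
  have := congrArg (QuotientGroup.mk' P.Δ) h
  rw [map_mul, map_mul] at this
  exact this

theorem inG_mul_inK (g : Γ) (k : K) : P.inG g * P.inK k = P.inK (P.α g k) * P.inG g := by
  rw [← inG_conj]; group

theorem inK_mul_inG (g : Γ) (k : K) : P.inK k * P.inG g = P.inG g * P.inK (P.α g⁻¹ k) := by
  rw [inG_mul_inK, ← MulAut.mul_apply, ← map_mul, mul_inv_cancel, map_one, MulAut.one_apply]

theorem exists_eq (s : P.S) : ∃ (k : K) (g : Γ), s = P.inK k * P.inG g := by
  obtain ⟨x, rfl⟩ := QuotientGroup.mk'_surjective P.Δ s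
  refine ⟨x.left, x.right, ?_⟩
  have h : x = SemidirectProduct.inl x.left * SemidirectProduct.inr x.right :=
    (SemidirectProduct.inl_left_mul_inr_right x).symm
  conv_lhs => rw [h, map_mul]
  rfl

theorem exists_eq' (s : P.S) : ∃ (g : Γ) (k : K), s = P.inG g * P.inK k := by
  obtain ⟨k, g, rfl⟩ := P.exists_eq s
  exact ⟨g, _, P.inK_mul_inG g k⟩

/-- when do two products agree -/
theorem inG_mul_inK_eq_iff {g g' : Γ} {k k' : K} :
    P.inG g * P.inK k = P.inG g' * P.inK k' ↔ ∃ n : N, g' = g * n ∧ k = P.ι n * k' := by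
  constructor
  · intro h
    have h1 : P.inK k * P.inK k'⁻¹ * P.inG (g'⁻¹ * g) = 1 := by
      rw [map_mul, map_inv, map_inv]
      have : (P.inG g)⁻¹ * P.inG g' = P.inK k * (P.inK k')⁻¹ := by
        rw [eq_mul_inv_iff_mul_eq, mul_assoc, ← h]; group
      rw [← this]; group
    rw [← map_mul] at h1
    obtain ⟨n, hn1, hn2⟩ := P.inK_mul_inG_eq_one h1
    refine ⟨n⁻¹, ?_, ?_⟩
    · rw [Subgroup.coe_inv, ← hn1]; group
    · rw [map_inv, ← hn2]; group
  · rintro ⟨n, rfl, rfl⟩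
    rw [map_mul, map_mul, inG_coe, mul_assoc]

/-- range of `inK` is normal -/
theorem range_inK_normal : (P.inK.range).Normal := by
  constructor
  rintro _ ⟨k, rfl⟩ s
  obtain ⟨k', g, rfl⟩ := P.exists_eq s
  refine ⟨k' * P.α g k * k'⁻¹, ?_⟩
  rw [map_mul, map_mul, ← inG_conj, map_inv]
  group

/-- homomorphisms of `Γ` which are trivial on `N` extend to `S` -/
def lift {Q : Type w} [Group Q] (η : Γ →* Q) (h : ∀ n : N, η n = 1) : P.S →* Q :=
  QuotientGroup.lift P.Δ (η.comp SemidirectProduct.rightHom) (by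
    rintro x ⟨n, hn1, _⟩
    change η x.right = 1
    rw [hn1, h])

theorem lift_inK {Q : Type w} [Group Q] (η : Γ →* Q) (h : ∀ n : N, η n = 1) (k : K) :
    P.lift η h (P.inK k) = 1 := by
  change η (SemidirectProduct.inl k : K ⋊[P.α] Γ).right = 1
  simp

theorem lift_inG {Q : Type w} [Group Q] (η : Γ →* Q) (h : ∀ n : N, η n = 1) (g : Γ) :
    P.lift η h (P.inG g) = η g := by
  change η (SemidirectProduct.inr g : K ⋊[P.α] Γ).right = η g
  simp

theorem ker_lift {Q : Type w} [Group Q] (η : Γ →* Q) (h : η.ker = N) (s : P.S) :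
    P.lift η (fun n => by rw [← MonoidHom.mem_ker, h]; exact n.2) s = 1 ↔ s ∈ P.inK.range := by
  constructor
  · intro hs
    obtain ⟨k, g, rfl⟩ := P.exists_eq s
    rw [map_mul, lift_inK, lift_inG, one_mul] at hs
    have hg : g ∈ N := by rw [← h]; exact hs
    refine ⟨k * P.ι ⟨g, hg⟩, ?_⟩
    rw [map_mul, ← inG_coe]
  · rintro ⟨k, rfl⟩
    exact P.lift_inK _ _ k

end PushData

end Vale.Agent.P188.H796
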