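import Vale.Agent.P188.H796.Lm
import Vale.Agent.P188.H615.WL

/-!
A finitely generated normal subgroup `N` with abelian quotient `Γ / N ≅ ℤ^k` is at most exponentially
distorted.
-/

open Finset Filter Topology
open scoped commutatorElement

universe u v w

namespace Vale.Agent.P188.H796

open H615

section dist

variable {Γ : Type u} [Group Γ]

/-- subadditive functions on a normal subgroup with exponential growth under conjugation -/
structure NLen (N : Subgroup Γ) (ℓ : Γ → ℝ) : Prop where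
  nonneg : ∀ x, 0 ≤ ℓ x
  one : ℓ 1 = 0
  mul : ∀ x ∈ N, ∀ y ∈ N, ℓ (x * y) ≤ ℓ x + ℓ y
  inv : ∀ x ∈ N, ℓ x⁻¹ = ℓ x
  conj : ∀ γ : Γ, ∃ Λ : ℝ, 1 ≤ Λ ∧ ∀ x ∈ N, ℓ (γ * x * γ⁻¹) ≤ Λ * ℓ x
  comm : ∀ a b : Γ, ⁅a, b⁆ ∈ N
  norm : ∀ γ : Γ, ∀ x ∈ N, γ * x * γ⁻¹ ∈ N

variable {N : Subgroup Γ} {ℓ : Γ → ℝ} (H : NLen N ℓ)

include H

theorem NLen.conj_nat (b : Γ) : ∃ Λ : ℝ, 1 ≤ Λ ∧ ∀ p : ℕ, ∀ x ∈ N,
    ℓ (b ^ p * x * (b ^ p)⁻¹) ≤ Λ ^ p * ℓ x := by
  obtain ⟨Λ, h1, h2⟩ := H.conj b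
  refine ⟨Λ, h1, fun p => ?_⟩
  induction p with
  | zero => intro x _; simp
  | succ p ih =>
    intro x hx
    have e : b ^ (p + 1) * x * (b ^ (p + 1))⁻¹ = b * (b ^ p * x * (b ^ p)⁻¹) * b⁻¹ := by
      rw [pow_succ']; group
    have h3 := mul_le_mul_of_nonneg_left (ih x hx) (zero_le_one.trans h1)
    calc ℓ (b ^ (p + 1) * x * (b ^ (p + 1))⁻¹) = ℓ (b * (b ^ p * x * (b ^ p)⁻¹) * b⁻¹) := by rw [e]
      _ ≤ Λ * ℓ (b ^ p * x * (b ^ p)⁻¹) := h2 _ (H.norm _ x hx)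
      _ ≤ Λ * (Λ ^ p * ℓ x) := h3
      _ = Λ ^ (p + 1) * ℓ x := by ring

theorem NLen.conj_int (b : Γ) : ∃ Λ : ℝ, 1 ≤ Λ ∧ ∀ p : ℤ, ∀ x ∈ N,
    ℓ (b ^ p * x * (b ^ p)⁻¹) ≤ Λ ^ p.natAbs * ℓ x := by
  obtain ⟨Λ1, h1, h2⟩ := H.conj_nat b
  obtain ⟨Λ2, k1, k2⟩ := H.conj_nat b⁻¹
  refine ⟨max Λ1 Λ2, h1.trans (le_max_left _ _), fun p x hx => ?_⟩
  obtain ⟨q, rfl | rfl⟩ := p.eq_nat_or_neg
  · rw [Int.natAbs_natCast, zpow_natCast]
    refine (h2 q x hx).trans (mul_le_mul_of_nonneg_right ?_ (H.nonneg _))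
    exact pow_le_pow_left₀ (by linarith) (le_max_left _ _) _
  · rw [Int.natAbs_neg, Int.natAbs_natCast, zpow_neg, zpow_natCast, ← inv_pow]
    refine (k2 q x hx).trans (mul_le_mul_of_nonneg_right ?_ (H.nonneg _))
    exact pow_le_pow_left₀ (by linarith) (le_max_right _ _) _

theorem NLen.comm_nat (a b : Γ) : ∃ M : ℝ, 1 ≤ M ∧ ∀ p : ℕ, ℓ ⁅a, b ^ p⁆ ≤ M ^ (p + 1) := by
  obtain ⟨Λ, h1, h2⟩ := H.conj b
  have hc := H.nonneg ⁅a, b⁆
  refine ⟨Λ + ℓ ⁅a, b⁆ + 1, by linarith, fun p => ?_⟩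
  set M := Λ + ℓ ⁅a, b⁆ + 1 with hM
  have hM1 : 1 ≤ M := by linarith
  induction p with
  | zero =>
    rw [pow_zero, commutatorElement_one_right, H.one]
    positivity
  | succ p ih =>
    have e : ⁅a, b ^ (p + 1)⁆ = ⁅a, b⁆ * (b * ⁅a, b ^ p⁆ * b⁻¹) := by
      rw [pow_succ']
      simp only [commutatorElement_def]
      group
    rw [e]
    refine (H.mul _ (H.comm _ _) _ (H.norm _ _ (H.comm _ _))).trans ?_
    have h3 := h2 _ (H.comm a (b ^ p))
    have h4 : Λ * ℓ ⁅a, b ^ p⁆ ≤ Λ * M ^ (p + 1) := mul_le_mul_of_nonneg_left ih (by linarith)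
    have h5 : (1 : ℝ) ≤ M ^ (p + 1) := one_le_pow₀ hM1
    calc ℓ ⁅a, b⁆ + ℓ (b * ⁅a, b ^ p⁆ * b⁻¹) ≤ ℓ ⁅a, b⁆ * M ^ (p + 1) + Λ * M ^ (p + 1) := by
          nlinarith
      _ ≤ M * M ^ (p + 1) := by rw [← add_mul]; exact mul_le_mul_of_nonneg_right (by linarith) (by positivity)
      _ = M ^ (p + 1 + 1) := by ring

theorem NLen.comm_int (a b : Γ) : ∃ M : ℝ, 1 ≤ M ∧ ∀ p : ℤ, ℓ ⁅a, b ^ p⁆ ≤ M ^ (p.natAbs + 1) := by
  obtain ⟨Λ1, h1, h2⟩ := H.comm_nat a b
  obtain ⟨Λ2, k1, k2⟩ := H.comm_nat a b⁻¹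
  refine ⟨max Λ1 Λ2, h1.trans (le_max_left _ _), fun p => ?_⟩
  obtain ⟨q, rfl | rfl⟩ := p.eq_nat_or_neg
  · rw [Int.natAbs_natCast, zpow_natCast]
    exact (h2 q).trans (pow_le_pow_left₀ (by linarith) (le_max_left _ _) _)
  · rw [Int.natAbs_neg, Int.natAbs_natCast, zpow_neg, zpow_natCast, ← inv_pow]
    exact (k2 q).trans (pow_le_pow_left₀ (by linarith) (le_max_right _ _) _)

omit H in
/-- section of the quotient map -/
def sec : ∀ {k : ℕ}, (Fin k → Γ) → (Fin k → ℤ) → Γ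
  | 0, _, _ => 1
  | _ + 1, t, θ => t 0 ^ θ 0 * sec (fun i => t i.succ) (fun i => θ i.succ)

omit [Group Γ] H in
/-- size of an integer vector -/
def n1 {k : ℕ} (θ : Fin k → ℤ) : ℕ := ∑ i, (θ i).natAbs

omit H in
theorem sec_zero : ∀ {k : ℕ} (t : Fin k → Γ), sec t 0 = 1
  | 0, _ => rfl
  | _ + 1, t => by
    change t 0 ^ (0 : ℤ) * sec (fun i => t i.succ) 0 = 1
    rw [sec_zero, zpow_zero, mul_one]

theorem NLen.sec_step : ∀ {k : ℕ} (t : Fin k → Γ), ∃ M : ℝ, 1 ≤ M ∧ ∀ (i : Fin k) (θ : Fin k → ℤ),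
    t i * sec t θ * (sec t (θ + Pi.single i 1))⁻¹ ∈ N ∧
    ℓ (t i * sec t θ * (sec t (θ + Pi.single i 1))⁻¹) ≤ M ^ (1 + n1 θ)
  | 0, _ => ⟨1, le_rfl, fun i => Fin.elim0 i⟩
  | k + 1, t => by
    obtain ⟨M', hM', h'⟩ := NLen.sec_step (fun i => t i.succ)
    obtain ⟨Λ, hΛ, hc⟩ := H.conj_int (t 0)
    choose Mi hMi hcomm using fun i : Fin k => H.comm_int (t i.succ) (t 0)
    set X : ℝ := ∑ i, Mi i + 1 with hX
    have hXi : ∀ i, Mi i ≤ X := fun i => by
      have := single_le_sum (fun j (_ : j ∈ univ) => zero_le_one.trans (hMi j)) (mem_univ i)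
      linarith
    have hX1 : 1 ≤ X := by
      have := sum_nonneg fun j (_ : j ∈ univ) => zero_le_one.trans (hMi j)
      linarith
    have hY1 : 1 ≤ Λ * M' := one_le_mul_of_one_le_of_one_le hΛ hM'
    refine ⟨X + Λ * M', by linarith, ?_⟩
    intro i θ
    have hn : n1 θ = (θ 0).natAbs + n1 (fun i => θ i.succ) := by
      unfold n1; rw [Fin.sum_univ_succ]
    refine Fin.cases ?_ (fun j => ?_) i
    · have e : t 0 * sec t θ * (sec t (θ + Pi.single 0 1))⁻¹ = 1 := by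
        have e1 : sec t (θ + Pi.single 0 1) = t 0 * sec t θ := by
          change t 0 ^ ((θ + Pi.single 0 1 : Fin (k + 1) → ℤ) 0) *
            sec (fun i => t i.succ) (fun i => (θ + Pi.single 0 1 : Fin (k + 1) → ℤ) i.succ) =
              t 0 * (t 0 ^ θ 0 * sec (fun i => t i.succ) (fun i => θ i.succ))
          have e2 : (fun i : Fin k => (θ + Pi.single 0 1 : Fin (k + 1) → ℤ) i.succ) =
              fun i => θ i.succ := by
            funext i
            rw [Pi.add_apply, Pi.single_eq_of_ne (Fin.succ_ne_zero i), add_zero]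
          rw [e2, Pi.add_apply, Pi.single_eq_same, ← mul_assoc]
          congr 1
          exact (mul_self_zpow _ _).symm
        rw [e1, mul_inv_cancel]
      rw [e, H.one]
      exact ⟨N.one_mem, by positivity⟩
    · set a := t j.succ with ha
      set b := t 0 ^ θ 0 with hb
      set S' := sec (fun i => t i.succ) (fun i => θ i.succ) with hS'
      set S'' := sec (fun i => t i.succ) ((fun i => θ i.succ) + Pi.single j 1) with hS''
      have e1 : sec t θ = b * S' := rfl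
      have e2 : sec t (θ + Pi.single j.succ 1) = b * S'' := by
        change t 0 ^ ((θ + Pi.single j.succ 1 : Fin (k + 1) → ℤ) 0) *
            sec (fun i => t i.succ) (fun i => (θ + Pi.single j.succ 1 : Fin (k + 1) → ℤ) i.succ) =
              b * S''
        have e3 : (fun i : Fin k => (θ + Pi.single j.succ 1 : Fin (k + 1) → ℤ) i.succ) =
            (fun i => θ i.succ) + Pi.single j 1 := by
          funext i
          rw [Pi.add_apply, Pi.add_apply]
          congr 1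
          by_cases hij : i = j
          · subst hij; rw [Pi.single_eq_same, Pi.single_eq_same]
          · rw [Pi.single_eq_of_ne hij,
              Pi.single_eq_of_ne (fun h => hij (Fin.succ_injective _ h))]
        rw [e3, Pi.add_apply, Pi.single_eq_of_ne (Fin.succ_ne_zero j).symm, add_zero]
      obtain ⟨h1, h2⟩ := h' j (fun i => θ i.succ)
      have e3 : a * sec t θ * (sec t (θ + Pi.single j.succ 1))⁻¹ =
          ⁅a, b⁆ * (b * (a * S' * S''⁻¹) * b⁻¹) := by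
        rw [e1, e2, commutatorElement_def]; group
      rw [e3]
      refine ⟨N.mul_mem (H.comm _ _) (H.norm _ _ h1), ?_⟩
      refine (H.mul _ (H.comm _ _) _ (H.norm _ _ h1)).trans ?_
      have h3 : ℓ ⁅a, b⁆ ≤ X ^ (1 + n1 θ) := by
        refine (hcomm j (θ 0)).trans ?_
        calc Mi j ^ ((θ 0).natAbs + 1) ≤ X ^ ((θ 0).natAbs + 1) :=
              pow_le_pow_left₀ (by linarith [hMi j]) (hXi j) _
          _ ≤ X ^ (1 + n1 θ) := pow_le_pow_right₀ hX1 (by omega)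
      have h4 : ℓ (b * (a * S' * S''⁻¹) * b⁻¹) ≤ (Λ * M') ^ (1 + n1 θ) := by
        refine (hc (θ 0) _ h1).trans ?_
        calc Λ ^ (θ 0).natAbs * ℓ (a * S' * S''⁻¹)
            ≤ Λ ^ (θ 0).natAbs * M' ^ (1 + n1 fun i => θ i.succ) :=
              mul_le_mul_of_nonneg_left h2 (by positivity)
          _ ≤ Λ ^ (1 + n1 θ) * M' ^ (1 + n1 θ) := by
              refine mul_le_mul (pow_le_pow_right₀ hΛ (by omega))
                (pow_le_pow_right₀ hM' (by omega)) (by positivity) (by positivity)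
          _ = _ := (mul_pow _ _ _).symm
      refine (add_le_add h3 h4).trans ?_
      exact pow_add_pow_le (by linarith) (by linarith) (by omega)

end dist

section main

variable {Γ : Type u} [Group Γ] {k : ℕ} (η : Γ →* Multiplicative (Fin k → ℤ))

/-- the exponent vector -/
def ev (g : Γ) : Fin k → ℤ := Multiplicative.toAdd (η g)

theorem ev_mul (g h : Γ) : ev η (g * h) = ev η g + ev η h := by simp [ev]

theorem ev_inv (g : Γ) : ev η g⁻¹ = -ev η g := by simp [ev]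

theorem ev_one : ev η 1 = 0 := by simp [ev]

theorem mem_ker_iff_ev (g : Γ) : g ∈ η.ker ↔ ev η g = 0 := by
  rw [MonoidHom.mem_ker]
  exact Iff.rfl

theorem n1_add (θ θ' : Fin k → ℤ) : n1 (θ + θ') ≤ n1 θ + n1 θ' := by
  unfold n1
  rw [← sum_add_distrib]
  exact sum_le_sum fun i _ => Int.natAbs_add_le _ _

theorem n1_neg (θ : Fin k → ℤ) : n1 (-θ) = n1 θ := by
  unfold n1
  exact sum_congr rfl fun i _ => Int.natAbs_neg _

theorem n1_single (i : Fin k) : n1 (Pi.single i 1 : Fin k → ℤ) = 1 := by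
  unfold n1
  rw [sum_eq_single i]
  · rw [Pi.single_eq_same]; rfl
  · intro j _ hj; rw [Pi.single_eq_of_ne hj]; rfl
  · intro h; exact absurd (mem_univ i) h

variable {ℓ : Γ → ℝ} (H : NLen η.ker ℓ) (t : Fin k → Γ) (ht : ∀ i, ev η (t i) = Pi.single i 1)

/-- the remainder with respect to the section -/
def xr (g : Γ) : Γ := g * (sec t (ev η g))⁻¹

include ht in
theorem ev_sec (θ : Fin k → ℤ) : ev η (sec t θ) = θ := by
  have key : ∀ {l : ℕ} (s : Fin l → Γ) (v : Fin l → Fin k → ℤ), (∀ i, ev η (s i) = v i) →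
      ∀ θ : Fin l → ℤ, ev η (sec s θ) = ∑ i, θ i • v i := by
    intro l
    induction l with
    | zero => intro s v _ θ; simp [sec, ev_one]
    | succ l ih =>
      intro s v hs θ
      change ev η (s 0 ^ θ 0 * sec (fun i => s i.succ) (fun i => θ i.succ)) = _
      rw [ev_mul, ih _ (fun i => v i.succ) (fun i => hs i.succ), Fin.sum_univ_succ]
      congr 1
      rw [← hs 0]
      simp [ev]
  rw [key t _ ht θ]
  funext j
  rw [Finset.sum_apply]
  simp [Pi.single_apply]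

include ht in
theorem xr_mem (g : Γ) : xr η t g ∈ η.ker := by
  rw [mem_ker_iff_ev, xr, ev_mul, ev_inv, ev_sec η t ht, add_neg_cancel]

/-- control of the remainder under left multiplication -/
def Yp (γ : Γ) : Prop := ∃ M : ℝ, 1 ≤ M ∧ ∀ g, ℓ (xr η t (γ * g)) ≤
  M * ℓ (xr η t g) + M ^ (1 + n1 (ev η g))

include H in
theorem Yp_one : Yp η (ℓ := ℓ) t 1 := ⟨1, le_rfl, fun g => by rw [one_mul, one_mul]; simp⟩

include H in
theorem Yp_mul {γ δ : Γ} (h1 : Yp η (ℓ := ℓ) t γ) (h2 : Yp η (ℓ := ℓ) t δ) :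
    Yp η (ℓ := ℓ) t (γ * δ) := by
  obtain ⟨M1, hM1, h1⟩ := h1
  obtain ⟨M2, hM2, h2⟩ := h2
  have hq : (1 : ℝ) ≤ M1 ^ (1 + n1 (ev η δ)) := one_le_pow₀ hM1
  have h12 : 1 ≤ M1 * M2 := one_le_mul_of_one_le_of_one_le hM1 hM2
  refine ⟨M1 * M2 + M1 ^ (1 + n1 (ev η δ)), by linarith, fun g => ?_⟩
  rw [mul_assoc]
  have e1 := h1 (δ * g)
  have e2 := h2 g
  have e3 : M1 ^ (1 + n1 (ev η (δ * g))) ≤ (M1 ^ (1 + n1 (ev η δ))) ^ (1 + n1 (ev η g)) := by
    rw [← pow_mul]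
    refine pow_le_pow_right₀ hM1 ?_
    rw [ev_mul]
    have := n1_add (ev η δ) (ev η g)
    nlinarith [Nat.zero_le (n1 (ev η δ) * n1 (ev η g))]
  have e4 : M1 * M2 ^ (1 + n1 (ev η g)) ≤ (M1 * M2) ^ (1 + n1 (ev η g)) := by
    rw [mul_pow]
    exact mul_le_mul_of_nonneg_right (le_self_pow₀ hM1 (by omega)) (by positivity)
  have e5 := pow_add_pow_le (zero_le_one.trans h12) (zero_le_one.trans hq)
    (show 1 + n1 (ev η g) ≠ 0 by omega)
  have e6 := H.nonneg (xr η t g)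
  have e7 : M1 * ℓ (xr η t (δ * g)) ≤ M1 * (M2 * ℓ (xr η t g) + M2 ^ (1 + n1 (ev η g))) :=
    mul_le_mul_of_nonneg_left e2 (by linarith)
  nlinarith [mul_nonneg (zero_le_one.trans hq) e6]

include H ht in
theorem Yp_of_mem {γ : Γ} (hγ : γ ∈ η.ker) : Yp η (ℓ := ℓ) t γ := by
  refine ⟨1 + ℓ γ, by linarith [H.nonneg γ], fun g => ?_⟩
  have e1 : xr η t (γ * g) = γ * xr η t g := by
    rw [xr, xr, ev_mul, (mem_ker_iff_ev η γ).1 hγ, zero_add, mul_assoc]
  rw [e1]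
  have e2 := H.mul γ hγ _ (xr_mem η t ht g)
  have e3 := H.nonneg (xr η t g)
  have e4 := H.nonneg γ
  have e5 : 1 + ℓ γ ≤ (1 + ℓ γ) ^ (1 + n1 (ev η g)) := le_self_pow₀ (by linarith) (by omega)
  nlinarith [mul_nonneg e3 e4]

include H ht in
theorem Yp_t (i : Fin k) : Yp η (ℓ := ℓ) t (t i) := by
  obtain ⟨M, hM, h⟩ := H.sec_step t
  obtain ⟨Λ, hΛ, hc⟩ := H.conj (t i)
  refine ⟨max M Λ, hM.trans (le_max_left _ _), fun g => ?_⟩
  have e1 : xr η t (t i * g) = (t i * xr η t g * (t i)⁻¹) *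
      (t i * sec t (ev η g) * (sec t (ev η g + Pi.single i 1))⁻¹) := by
    rw [xr, xr, ev_mul, ht, add_comm (Pi.single i 1)]; group
  rw [e1]
  obtain ⟨h1, h2⟩ := h i (ev η g)
  refine (H.mul _ (H.norm _ _ (xr_mem η t ht g)) _ h1).trans (add_le_add ?_ ?_)
  · exact (hc _ (xr_mem η t ht g)).trans
      (mul_le_mul_of_nonneg_right (le_max_right _ _) (H.nonneg _))
  · exact h2.trans (pow_le_pow_left₀ (by linarith) (le_max_left _ _) _)

include H ht in
theorem Yp_t_inv (i : Fin k) : Yp η (ℓ := ℓ) t (t i)⁻¹ := by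
  obtain ⟨M, hM, h⟩ := H.sec_step t
  obtain ⟨Λ, hΛ, hc⟩ := H.conj (t i)⁻¹
  have hLM : 1 ≤ Λ * M ^ 2 := one_le_mul_of_one_le_of_one_le hΛ (one_le_pow₀ hM)
  refine ⟨Λ * M ^ 2, hLM, fun g => ?_⟩
  set g' := (t i)⁻¹ * g with hg'
  have hg : g = t i * g' := by rw [hg']; group
  obtain ⟨h1, h2⟩ := h i (ev η g')
  set Dd := t i * sec t (ev η g') * (sec t (ev η g' + Pi.single i 1))⁻¹ with hDd
  have e1 : xr η t g' = (t i)⁻¹ * (xr η t g * Dd⁻¹) * ((t i)⁻¹)⁻¹ := by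
    have hev : ev η (t i * g') = ev η g' + Pi.single i 1 := by
      rw [ev_mul, ht, add_comm]
    rw [hDd, hg, xr, xr, hev]; group
  have h3 := xr_mem η t ht g
  have h4 : xr η t g * Dd⁻¹ ∈ η.ker := η.ker.mul_mem h3 (η.ker.inv_mem h1)
  have h5 : ℓ (xr η t g * Dd⁻¹) ≤ ℓ (xr η t g) + M ^ (1 + n1 (ev η g')) := by
    refine (H.mul _ h3 _ (η.ker.inv_mem h1)).trans ?_
    rw [H.inv _ h1]
    linarith
  have h6 : n1 (ev η g') ≤ n1 (ev η g) + 1 := by
    rw [hg', ev_mul, ev_inv, ht]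
    have := n1_add (-(Pi.single i 1 : Fin k → ℤ)) (ev η g)
    rw [n1_neg, n1_single] at this
    omega
  rw [e1]
  refine (hc _ h4).trans ?_
  have h7 : M ^ (1 + n1 (ev η g')) ≤ M ^ (2 * (1 + n1 (ev η g))) :=
    pow_le_pow_right₀ hM (by omega)
  have h8 : Λ * M ^ (2 * (1 + n1 (ev η g))) ≤ (Λ * M ^ 2) ^ (1 + n1 (ev η g)) := by
    rw [mul_pow, pow_mul]
    exact mul_le_mul_of_nonneg_right (le_self_pow₀ hΛ (by omega)) (by positivity)
  have h9 : Λ * ℓ (xr η t g) ≤ Λ * M ^ 2 * ℓ (xr η t g) := by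
    refine mul_le_mul_of_nonneg_right ?_ (H.nonneg _)
    exact le_mul_of_one_le_right (by linarith) (one_le_pow₀ hM)
  calc Λ * ℓ (xr η t g * Dd⁻¹) ≤ Λ * (ℓ (xr η t g) + M ^ (1 + n1 (ev η g'))) :=
        mul_le_mul_of_nonneg_left h5 (by linarith)
    _ = Λ * ℓ (xr η t g) + Λ * M ^ (1 + n1 (ev η g')) := by ring
    _ ≤ Λ * M ^ 2 * ℓ (xr η t g) + Λ * M ^ (2 * (1 + n1 (ev η g))) := by
        refine add_le_add h9 (mul_le_mul_of_nonneg_left h7 (by linarith))
    _ ≤ _ := by linarith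

include H ht in
theorem Yp_all (γ : Γ) : Yp η (ℓ := ℓ) t γ := by
  have key : ∀ θ : Fin k → ℤ, ∀ {l : ℕ} (s : Fin l → Γ) (θ : Fin l → ℤ),
      (∀ i, Yp η (ℓ := ℓ) t (s i) ∧ Yp η (ℓ := ℓ) t (s i)⁻¹) → Yp η (ℓ := ℓ) t (sec s θ) := by
    intro _ l
    induction l with
    | zero => intro s θ _; exact Yp_one η H t
    | succ l ih =>
      intro s θ hs
      refine Yp_mul η H t ?_ (ih _ _ fun i => hs i.succ)
      have hp : ∀ (x : Γ), Yp η (ℓ := ℓ) t x → ∀ n : ℕ, Yp η (ℓ := ℓ) t (x ^ n) := by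
        intro x hx n
        induction n with
        | zero => rw [pow_zero]; exact Yp_one η H t
        | succ n ihn => rw [pow_succ]; exact Yp_mul η H t ihn hx
      obtain ⟨q, hq | hq⟩ := (θ 0).eq_nat_or_neg
      · rw [hq, zpow_natCast]; exact hp _ (hs 0).1 q
      · rw [hq, zpow_neg, zpow_natCast, ← inv_pow]; exact hp _ (hs 0).2 q
  have h1 : γ = xr η t γ * sec t (ev η γ) := by rw [xr]; group
  rw [h1]
  exact Yp_mul η H t (Yp_of_mem η H t ht (xr_mem η t ht γ))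
    (key 0 t _ fun i => ⟨Yp_t η H t ht i, Yp_t_inv η H t ht i⟩)

include H ht in
/-- **exponential distortion** -/
theorem exp_distortion (F : Set Γ) (hF : F.Finite) : ∃ C : ℝ, 0 < C ∧ ∀ L : List Γ,
    (∀ x ∈ L, x ∈ F ∨ x⁻¹ ∈ F) → ℓ (xr η t L.prod) ≤ Real.exp (C * (L.length + 1)) ∧
      n1 (ev η L.prod) ≤ C * L.length := by
  have hF' : (F ∪ F⁻¹).Finite := hF.union hF.inv
  choose M hM h using fun γ => Yp_all η H t ht γ
  obtain ⟨M0, hM0⟩ := (hF'.image M).bddAbove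
  obtain ⟨q, hq⟩ := (hF'.image fun γ => n1 (ev η γ)).bddAbove
  set M1 := max M0 1 with hM1
  have hM1' : 1 ≤ M1 := le_max_right _ _
  have hle : ∀ γ ∈ F ∪ F⁻¹, M γ ≤ M1 := fun γ hγ => (hM0 ⟨γ, hγ, rfl⟩).trans (le_max_left _ _)
  set P := M1 + M1 ^ (1 + q) with hP
  have hP1 : 1 ≤ P := by have := one_le_pow₀ (n := 1 + q) hM1'; linarith
  have key : ∀ L : List Γ, (∀ x ∈ L, x ∈ F ∪ F⁻¹) →
      n1 (ev η L.prod) ≤ q * L.length ∧ ℓ (xr η t L.prod) ≤ P ^ (L.length + 1) := by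
    intro L
    induction L with
    | nil =>
      intro _
      rw [List.prod_nil, xr, ev_one, sec_zero, inv_one, mul_one, H.one]
      refine ⟨by simp [n1], by positivity⟩
    | cons γ L ih =>
      intro hL
      obtain ⟨i1, i2⟩ := ih fun x hx => hL x (List.mem_cons_of_mem _ hx)
      have hγ := hL γ List.mem_cons_self
      have hqγ : n1 (ev η γ) ≤ q := hq ⟨γ, hγ, rfl⟩
      rw [List.prod_cons, List.length_cons]
      constructor
      · rw [ev_mul]
        refine (n1_add _ _).trans ?_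
        rw [mul_add, mul_one]
        omega
      · refine (h γ _).trans ?_
        have hMγ := hle γ hγ
        have h1 : M γ * ℓ (xr η t L.prod) ≤ M1 * P ^ (L.length + 1) :=
          mul_le_mul hMγ i2 (H.nonneg _) (by linarith)
        have h2 : M γ ^ (1 + n1 (ev η L.prod)) ≤ (M1 ^ (1 + q)) ^ (L.length + 1) := by
          calc M γ ^ (1 + n1 (ev η L.prod)) ≤ M1 ^ (1 + n1 (ev η L.prod)) :=
                pow_le_pow_left₀ (by linarith [hM γ]) hMγ _
            _ ≤ M1 ^ ((1 + q) * (L.length + 1)) := by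
                refine pow_le_pow_right₀ hM1' ?_
                have : (1 + q) * (L.length + 1) = 1 + q * L.length + (L.length + q) := by ring
                omega
            _ = _ := pow_mul _ _ _
        have h3 : (M1 ^ (1 + q)) ^ (L.length + 1) ≤ M1 ^ (1 + q) * P ^ (L.length + 1) := by
          calc (M1 ^ (1 + q)) ^ (L.length + 1) ≤ P ^ (L.length + 1) :=
                pow_le_pow_left₀ (by positivity) (by linarith) _
            _ ≤ M1 ^ (1 + q) * P ^ (L.length + 1) :=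
                le_mul_of_one_le_left (by positivity) (one_le_pow₀ hM1')
        calc M γ * ℓ (xr η t L.prod) + M γ ^ (1 + n1 (ev η L.prod))
            ≤ M1 * P ^ (L.length + 1) + M1 ^ (1 + q) * P ^ (L.length + 1) :=
              add_le_add h1 (h2.trans h3)
          _ = P ^ (L.length + 1 + 1) := by rw [hP]; ring
  refine ⟨max (Real.log P) q + 1, ?_, fun L hL => ?_⟩
  · have := (Real.log_nonneg hP1).trans (le_max_left (Real.log P) (q : ℝ)); linarith
  · obtain ⟨h1, h2⟩ := key L (fun x hx => by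
      rcases hL x hx with h | h
      · exact Or.inl h
      · exact Or.inr h)
    constructor
    · refine h2.trans ?_
      have h3 : P ^ (L.length + 1) = Real.exp (Real.log P * (L.length + 1)) := by
        have h4 : Real.exp (Real.log P * (L.length + 1)) =
            (Real.exp (Real.log P)) ^ (L.length + 1) := by
          rw [← Real.exp_nat_mul]; congr 1; push_cast; ring
        rw [h4, Real.exp_log (by linarith)]
      rw [h3]
      refine Real.exp_le_exp.2 (mul_le_mul_of_nonneg_right ?_ (by positivity))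
      linarith [le_max_left (Real.log P) (q : ℝ)]
    · have h3 : (n1 (ev η L.prod) : ℝ) ≤ q * L.length := by exact_mod_cast h1
      refine h3.trans (mul_le_mul_of_nonneg_right ?_ (by positivity))
      linarith [le_max_right (Real.log P) (q : ℝ)]

end main

end Vale.Agent.P188.H796
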