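import Vale.Agent.P188.H796.Metr
import Vale.Agent.P188.H131.Haar2
import Vale.Agent.P188.H131.Haar3

/-!
Adjoint bounds, and the quasi-isometry `Γ → S`.
-/

open Finset Filter Topology
open scoped commutatorElement Pointwise

universe u v w

namespace Vale.Agent.P188.H796

open H615 H131

theorem wl_le_mul_of_gen {G : Type u} [Group G] {U : Set G} (hgen : Subgroup.closure U = ⊤)
    {f : G → ℝ} {c : ℝ} (h1 : f 1 ≤ 0) (hmul : ∀ a x, (a ∈ U ∨ a⁻¹ ∈ U) → f (a * x) ≤ c + f x)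
    (x : G) : f x ≤ c * wl U x := by
  obtain ⟨l, e1, e2, e3⟩ := wl_list hgen x
  rw [← e1, ← e3]
  clear e1 e3
  induction l with
  | nil => simpa using h1
  | cons a l ih =>
    rw [List.prod_cons, List.length_cons]
    have := hmul a l.prod (e2 a List.mem_cons_self)
    have := ih fun b hb => e2 b (List.mem_cons_of_mem _ hb)
    push_cast
    linarith

section compact

variable {N : Type u} [Group N] {d n : ℕ} {D : MB N d n} {A : Type v} [NormedRing A]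
  [NormedAlgebra ℝ A] [FiniteDimensional ℝ A] (R : RD D A)

omit [FiniteDimensional ℝ A] in
/-- the lattice meets compact sets in finite sets -/
theorem RD.finite_preimage {C : Set R.NR} (hC : IsCompact C) : {x : N | R.ι x ∈ C}.Finite := by
  have h1 : ∀ i : Fin d, ∃ M : ℕ, ∀ s ∈ C, |s i| ≤ M := by
    intro i
    have hcont : Continuous fun s : R.NR => |s i| :=
      continuous_abs.comp (continuous_apply (A := fun _ => ℝ) i)
    obtain ⟨M, hM⟩ := (hC.image hcont).bddAbove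
    obtain ⟨M', hM'⟩ := exists_nat_ge M
    exact ⟨M', fun s hs => (hM ⟨s, hs, rfl⟩).trans hM'⟩
  choose M hM using h1
  have h2 : Set.Finite {c : Fin d → ℤ | ∀ i, c i ∈ Set.Icc (-(M i : ℤ)) (M i)} := by
    have := Set.Finite.pi (fun i => Set.finite_Icc (-(M i : ℤ)) (M i : ℤ))
    simpa [Set.pi] using this
  have hinj : Function.Injective fun x : N => fun i => D.c i x := by
    intro x y h
    rw [← D.prod_c x, ← D.prod_c y]
    have h' : ∀ i, D.c i x = D.c i y := fun i => congrFun h i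
    simp only [h']
  refine Set.Finite.subset (h2.preimage hinj.injOn) ?_
  intro x hx i
  have h3 := hM i _ hx
  rw [R.ι_apply] at h3
  have h4 : |D.c i x| ≤ (M i : ℤ) := by exact_mod_cast h3
  exact Set.mem_Icc.2 (abs_le.1 h4)

theorem RD.isCompact_ball : IsCompact (R.Ex '' {v : R.V | ‖(v : A)‖ ≤ 1}) := by
  have : ProperSpace R.V := FiniteDimensional.proper ℝ R.V
  refine IsCompact.image ?_ R.continuous_Ex
  have h1 : {v : R.V | ‖(v : A)‖ ≤ 1} = Metric.closedBall 0 1 := by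
    ext v
    rw [mem_closedBall_zero_iff]
    rfl
  rw [h1]
  exact isCompact_closedBall 0 1

theorem RD.exists_Lo_le {C : Set R.NR} (hC : IsCompact C) :
    ∃ M : ℕ, ∀ y ∈ C, ‖((R.Lo y : R.V) : A)‖ ≤ M := by
  obtain ⟨M, hM⟩ := (hC.image (continuous_norm.comp
    (continuous_subtype_val.comp R.continuous_Lo))).bddAbove
  obtain ⟨M', hM'⟩ := exists_nat_ge M
  exact ⟨M', fun s hs => (hM ⟨s, hs, rfl⟩).trans hM'⟩

theorem RD.Ex_nsmul (v : R.V) (j : ℕ) : R.Ex ((j : ℝ) • v) = (R.Ex v) ^ j := by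
  induction j with
  | zero => rw [pow_zero, Nat.cast_zero, zero_smul, R.Ex_zero]
  | succ j ih => rw [pow_succ, ← ih, Nat.cast_succ, R.Ex_add, one_smul]

end compact

section conc

variable {Γ : Type u} [Group Γ] {k : ℕ} {η : Γ →* Multiplicative (Fin k → ℤ)} {d n : ℕ}
  (D : MB η.ker d n)

theorem MB.isLen_S {F : Set Γ} (hgen : Subgroup.closure F = ⊤) :
    Agent.P188.H428.IsLen (wl (D.U F)) := isLen_wl (D.closure_U hgen)

/-- word length of an exponential, trivial bound -/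
theorem MB.wl_ex_le (F : Set Γ) (v : D.R.V) (M : ℕ)
    (hv : ‖(v : D.Alg)‖ ≤ M) : wl (D.U F) (D.ex v) ≤ M := by
  rcases Nat.eq_zero_or_pos M with rfl | hM
  · have h1 : v = 0 := by
      apply Subtype.ext
      have : ‖(v : D.Alg)‖ ≤ 0 := by simpa using hv
      exact norm_le_zero_iff.1 this
    rw [h1, MB.ex, D.R.Ex_zero, map_one, wl_one]
  · have hM0 : (0 : ℝ) < M := by exact_mod_cast hM
    have h1 : D.ex v = (D.ex ((M : ℝ)⁻¹ • v)) ^ M := by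
      change D.inN (D.R.Ex v) = (D.inN (D.R.Ex _)) ^ M
      rw [← map_pow, ← D.R.Ex_nsmul, smul_smul, mul_inv_cancel₀ hM0.ne', one_smul]
    have h2 : D.ex ((M : ℝ)⁻¹ • v) ∈ D.U F := by
      refine Or.inr ⟨_, ?_, rfl⟩
      change ‖(((M : ℝ)⁻¹ • v : D.R.V) : D.Alg)‖ ≤ 1
      rw [Submodule.coe_smul, norm_smul, norm_inv, Real.norm_natCast, inv_mul_le_iff₀ hM0, mul_one]
      exact hv
    rw [h1]
    have h3 := wl_le_of_list (Sg := D.U F) (List.replicate M (D.ex ((M : ℝ)⁻¹ • v)))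
      (fun a ha => Or.inl (by rw [List.eq_of_mem_replicate ha]; exact h2)) rfl
    rw [List.prod_replicate, List.length_replicate] at h3
    exact h3

theorem MB.wl_compact (F : Set Γ) {C : Set D.R.NR}
    (hC : IsCompact C) : ∃ M : ℕ, ∀ y ∈ C, wl (D.U F) (D.inN y) ≤ M := by
  obtain ⟨M, hM⟩ := D.R.exists_Lo_le hC
  refine ⟨M, fun y hy => ?_⟩
  have := D.wl_ex_le F (D.R.Lo y) M (hM y hy)
  rwa [MB.ex, D.R.Ex_Lo] at this

theorem MB.wl_inΓ_le {F : Set Γ} (hgen : Subgroup.closure F = ⊤) (g : Γ) :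
    wl (D.U F) (D.inΓ g) ≤ wl F g := by
  obtain ⟨l, e1, e2, e3⟩ := wl_list hgen g
  rw [← e1, ← e3, map_list_prod, ← List.length_map (f := D.inΓ)]
  refine wl_le_of_list _ ?_ rfl
  intro a ha
  rw [List.mem_map] at ha
  obtain ⟨b, hb, rfl⟩ := ha
  rcases e2 b hb with h | h
  · exact Or.inl (Or.inl ⟨b, h, rfl⟩)
  · exact Or.inr (Or.inl ⟨b⁻¹, h, map_inv _ _⟩)

/-- floors move by finitely many elements -/
theorem MB.fl_finite {F : Set Γ} (hF : F.Finite) {F0 : Set D.R.NR} (h0 : FundK D.P F0)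
    {C : Set D.R.NR} (hC : IsCompact C) (hFC : F0 ⊆ C) : ∃ Φ : Set Γ, Φ.Finite ∧
      ∀ s u : D.S, (u ∈ D.U F ∨ u⁻¹ ∈ D.U F) → (h0.fl s)⁻¹ * h0.fl (s * u) ∈ Φ := by
  have hF' : (F ∪ F⁻¹).Finite := hF.union hF.inv
  let K1 : Set D.R.NR := C * (C * (D.R.Ex '' {v : D.R.V | ‖(v : D.Alg)‖ ≤ 1}))⁻¹
  have hK1 : IsCompact K1 := hC.mul (hC.mul D.R.isCompact_ball).inv
  let K2 : Γ → Set D.R.NR := fun f => C * ((D.αΓ f⁻¹) '' C)⁻¹
  have hK2 : ∀ f, IsCompact (K2 f) := fun f =>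
    hC.mul ((hC.image (D.continuous_actM _)).inv)
  refine ⟨((fun x : η.ker => ((x : Γ))⁻¹) '' {x | D.R.ι x ∈ K1}) ∪
    ⋃ f ∈ F ∪ F⁻¹, (fun x : η.ker => f * ((x : Γ))⁻¹) '' {x | D.R.ι x ∈ K2 f}, ?_, ?_⟩
  · refine ((D.R.finite_preimage hK1).image _).union ?_
    exact hF'.biUnion fun f _ => (D.R.finite_preimage (hK2 f)).image _
  · intro s u hu
    have hs := h0.eq s
    have hsm := h0.fr_mem s
    set g := h0.fl s with hg
    set c := h0.fr s with hc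
    rcases D.mem_U hu with ⟨f, hf, rfl⟩ | ⟨v, hv, rfl⟩
    · right
      refine Set.mem_iUnion₂.2 ⟨f, hf, ?_⟩
      have e1 : s * D.inΓ f = gk D.P (g * f) (D.αΓ f⁻¹ c) := by
        rw [← hs]
        exact gk_mul_inG D.P g f c
      obtain ⟨x, hx, -⟩ := h0.ex (D.αΓ f⁻¹ c)
      have e2 : s * D.inΓ f = gk D.P (g * f * (x : Γ)⁻¹) (D.R.ι x * D.αΓ f⁻¹ c) := by
        rw [e1, gk_eq_iff]
        refine ⟨x⁻¹, by rw [Subgroup.coe_inv], ?_⟩
        change _ = D.R.ι x⁻¹ * (D.R.ι x * _)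
        rw [← mul_assoc, ← map_mul, inv_mul_cancel, map_one, one_mul]
      refine ⟨x, ?_, ?_⟩
      · change D.R.ι x ∈ C * ((D.αΓ f⁻¹) '' C)⁻¹
        refine Set.mem_mul.2 ⟨D.R.ι x * D.αΓ f⁻¹ c, hFC hx, (D.αΓ f⁻¹ c)⁻¹,
          Set.inv_mem_inv.2 ⟨c, hFC hsm, rfl⟩, by group⟩
      · have e3 : h0.fl (s * D.inΓ f) = g * f * (x : Γ)⁻¹ := by
          rw [e2]; exact h0.fl_gk _ hx
        rw [e3]
        simp only
        group
    · left
      have e1 : s * D.inN (D.R.Ex v) = gk D.P g (c * D.R.Ex v) := by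
        rw [← hs]
        exact gk_mul_inK D.P g c _
      obtain ⟨x, hx, -⟩ := h0.ex (c * D.R.Ex v)
      have e2 : s * D.inN (D.R.Ex v) = gk D.P (g * (x : Γ)⁻¹) (D.R.ι x * (c * D.R.Ex v)) := by
        rw [e1, gk_eq_iff]
        refine ⟨x⁻¹, by rw [Subgroup.coe_inv], ?_⟩
        change _ = D.R.ι x⁻¹ * (D.R.ι x * _)
        rw [← mul_assoc (D.R.ι x⁻¹), ← map_mul, inv_mul_cancel, map_one, one_mul]
      refine ⟨x, ?_, ?_⟩
      · change D.R.ι x ∈ C * (C * (D.R.Ex '' {v : D.R.V | ‖(v : D.Alg)‖ ≤ 1}))⁻¹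
        refine Set.mem_mul.2 ⟨D.R.ι x * (c * D.R.Ex v), hFC hx, (c * D.R.Ex v)⁻¹,
          Set.inv_mem_inv.2 (Set.mul_mem_mul (hFC hsm) ⟨v, hv, rfl⟩), by group⟩
      · have e3 : h0.fl (s * D.inN (D.R.Ex v)) = g * (x : Γ)⁻¹ := by
          rw [e2]; exact h0.fl_gk _ hx
        rw [e3]
        simp only
        group

/-- the floor map is Lipschitz -/
theorem MB.fl_lip {F : Set Γ} (hF : F.Finite) (hgen : Subgroup.closure F = ⊤) {F0 : Set D.R.NR}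
    (h0 : FundK D.P F0) {C : Set D.R.NR} (hC : IsCompact C) (hFC : F0 ⊆ C) : ∃ M : ℕ,
      ∀ s z : D.S, wl F ((h0.fl s)⁻¹ * h0.fl (s * z)) ≤ M * wl (D.U F) z := by
  obtain ⟨Φ, hΦ, h⟩ := D.fl_finite hF h0 hC hFC
  obtain ⟨M, hM⟩ := (hΦ.image fun g => wl F g).bddAbove
  refine ⟨M, fun s z => ?_⟩
  obtain ⟨l, e1, e2, e3⟩ := wl_list (D.closure_U hgen) z
  rw [← e1, ← e3]
  clear e1 e3
  induction l generalizing s with
  | nil => simp [wl_one]
  | cons a l ih =>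
    rw [List.prod_cons, List.length_cons]
    have h1 := ih (s * a) fun b hb => e2 b (List.mem_cons_of_mem _ hb)
    have h2 : wl F ((h0.fl s)⁻¹ * h0.fl (s * a)) ≤ M := hM ⟨_, h s a (e2 a List.mem_cons_self), rfl⟩
    have h3 : (h0.fl s)⁻¹ * h0.fl (s * (a * l.prod)) = ((h0.fl s)⁻¹ * h0.fl (s * a)) *
        ((h0.fl (s * a))⁻¹ * h0.fl (s * a * l.prod)) := by
      rw [mul_assoc s a]; group
    rw [h3]
    have h4 := wl_mul hgen ((h0.fl s)⁻¹ * h0.fl (s * a))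
      ((h0.fl (s * a))⁻¹ * h0.fl (s * a * l.prod))
    nlinarith

/-- **`Γ → S` is a quasi-isometry** -/
theorem MB.qi {F : Set Γ} (hF : F.Finite) (hgen : Subgroup.closure F = ⊤) {F0 : Set D.R.NR}
    (h0 : FundK D.P F0) {C : Set D.R.NR} (hC : IsCompact C) (hFC : F0 ⊆ C) : ∃ M : ℕ,
      (∀ g : Γ, wl F g ≤ M * (wl (D.U F) (D.inΓ g) + 1)) ∧
      (∀ g : Γ, wl (D.U F) (D.inΓ g) ≤ wl F g) ∧
      (∀ s z : D.S, wl F ((h0.fl s)⁻¹ * h0.fl (s * z)) ≤ M * wl (D.U F) z) ∧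
      ∀ s : D.S, wl (D.U F) ((D.inΓ (h0.fl s))⁻¹ * s) ≤ M := by
  obtain ⟨M1, h1⟩ := D.fl_lip hF hgen h0 hC hFC
  obtain ⟨M2, h2⟩ := D.wl_compact F hC
  refine ⟨M1 + M2 + 2 * wl F (h0.fl 1), fun g => ?_, D.wl_inΓ_le hgen, fun s z => ?_, fun s => ?_⟩
  · have e1 := h1 1 (D.inΓ g)
    have e2 : h0.fl (D.inΓ g * 1) = g * h0.fl 1 := h0.fl_inG_mul g 1
    rw [mul_one] at e2
    rw [one_mul, e2] at e1
    have e3 : g = h0.fl 1 * ((h0.fl 1)⁻¹ * (g * h0.fl 1)) * (h0.fl 1)⁻¹ := by group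
    have e4 := wl_mul hgen (h0.fl 1 * ((h0.fl 1)⁻¹ * (g * h0.fl 1))) (h0.fl 1)⁻¹
    have e5 := wl_mul hgen (h0.fl 1) ((h0.fl 1)⁻¹ * (g * h0.fl 1))
    rw [← e3, wl_inv hgen] at e4
    nlinarith
  · exact (h1 s z).trans (Nat.mul_le_mul_right _ (by omega))
  · have e1 : (D.inΓ (h0.fl s))⁻¹ * s = D.inN (h0.fr s) := by
      rw [inv_mul_eq_iff_eq_mul]
      exact (h0.eq s).symm
    rw [e1]
    exact (h2 _ (hFC (h0.fr_mem s))).trans (by omega)

/-- bound on the adjoint action -/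
theorem MB.Ad_bound {F : Set Γ} (hF : F.Finite) (hgen : Subgroup.closure F = ⊤) :
    ∃ C : ℝ, 0 < C ∧ ∀ (s : D.S) (v : D.R.V),
      ‖((D.Ad s v : D.R.V) : D.Alg)‖ ≤ Real.exp (C * wl (D.U F) s) * ‖(v : D.Alg)‖ := by
  obtain ⟨Λ, hΛ, hTh⟩ := D.Th_bound F hF
  obtain ⟨C1, hC1, h1⟩ := RD.exists_ex_bound (A := D.Alg) D.R.m
  set K : ℝ := (C1 * 2 ^ D.R.m) * (C1 * 2 ^ D.R.m) + Λ with hK
  have hK1 : 1 ≤ K := by
    have : 0 ≤ (C1 * 2 ^ D.R.m) * (C1 * 2 ^ D.R.m) := by positivity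
    linarith
  have hex : ∀ v : D.R.V, ‖(v : D.Alg)‖ ≤ 1 → ‖H796.ex D.R.m (v : D.Alg)‖ ≤ C1 * 2 ^ D.R.m := by
    intro v hv
    refine (h1 _).trans (mul_le_mul_of_nonneg_left ?_ hC1.le)
    exact pow_le_pow_left₀ (by positivity) (by linarith) _
  have hgenr : ∀ z : D.S, (z ∈ D.U F ∨ z⁻¹ ∈ D.U F) → ∀ v : D.R.V,
      ‖((D.Ad z v : D.R.V) : D.Alg)‖ ≤ K * ‖(v : D.Alg)‖ := by
    intro z hz v
    rcases D.mem_U hz with ⟨f, hf, rfl⟩ | ⟨w, hw, rfl⟩
    · rw [D.Ad_inΓ]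
      refine (hTh f hf v).trans (mul_le_mul_of_nonneg_right ?_ (norm_nonneg _))
      have : 0 ≤ (C1 * 2 ^ D.R.m) * (C1 * 2 ^ D.R.m) := by positivity
      linarith
    · rw [D.Ad_inN, D.R.coe_Adn]
      have e1 : (((D.R.EU (D.R.Ex w))⁻¹ : D.Algˣ) : D.Alg) = H796.ex D.R.m ((-w : D.R.V) : D.Alg) := by
        rw [← D.R.toA_inv, ← D.R.Ex_neg]
        exact D.R.toA_Ex (-w)
      have e2 : D.R.E (D.R.Ex w) = H796.ex D.R.m (w : D.Alg) := D.R.toA_Ex w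
      rw [e1, e2]
      have e3 := hex w hw
      have e4 := hex (-w) (by simpa using hw)
      calc ‖H796.ex D.R.m (w : D.Alg) * v * H796.ex D.R.m ((-w : D.R.V) : D.Alg)‖
          ≤ ‖H796.ex D.R.m (w : D.Alg)‖ * ‖(v : D.Alg)‖ * ‖H796.ex D.R.m ((-w : D.R.V) : D.Alg)‖ :=
            (norm_mul_le _ _).trans (mul_le_mul_of_nonneg_right (norm_mul_le _ _) (norm_nonneg _))
        _ ≤ (C1 * 2 ^ D.R.m) * ‖(v : D.Alg)‖ * (C1 * 2 ^ D.R.m) := by gcongr
        _ = (C1 * 2 ^ D.R.m) * (C1 * 2 ^ D.R.m) * ‖(v : D.Alg)‖ := by ring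
        _ ≤ K * ‖(v : D.Alg)‖ := mul_le_mul_of_nonneg_right (by linarith) (norm_nonneg _)
  refine ⟨Real.log K + 1, by have := Real.log_nonneg hK1; linarith, fun s v => ?_⟩
  obtain ⟨l, e1, e2, e3⟩ := wl_list (D.closure_U hgen) s
  rw [← e1, ← e3]
  clear e1 e3
  have key : ‖((D.Ad l.prod v : D.R.V) : D.Alg)‖ ≤ K ^ l.length * ‖(v : D.Alg)‖ := by
    induction l with
    | nil => simp
    | cons a l ih =>
      rw [List.prod_cons, map_mul, LinearEquiv.mul_apply, List.length_cons, pow_succ']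
      refine (hgenr a (e2 a List.mem_cons_self) _).trans ?_
      have := ih fun b hb => e2 b (List.mem_cons_of_mem _ hb)
      nlinarith
  refine key.trans (mul_le_mul_of_nonneg_right ?_ (norm_nonneg _))
  have h3 : K ^ l.length = Real.exp (Real.log K * l.length) := by
    rw [mul_comm, Real.exp_nat_mul, Real.exp_log (by linarith)]
  rw [h3]
  exact Real.exp_le_exp.2 (mul_le_mul_of_nonneg_right (by linarith) (Nat.cast_nonneg _))

end conc

end Vale.Agent.P188.H796
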