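import Vale.Agent.P188.H796.IP

/-!
P188, Gromov-lite: on an infinite group of polynomial growth, the functions `P ^ k δ` are
almost harmonic compared with their Dirichlet energy.
-/

universe u v

open Filter Topology Pointwise

namespace Vale.Agent.P188.H796

open Vale.Agent.P188.SG

variable {H : Type u} [Group H] {S : Finset H}

open Classical in
/-- the distribution of the random walk -/
noncomputable def fk (S : Finset H) (k : ℕ) : H → ℝ :=
  (avg S)^[k] (fun x => if x = 1 then 1 else 0)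

theorem fk_succ (k : ℕ) : fk S (k + 1) = avg S (fk S k) := Function.iterate_succ_apply' _ _ _

theorem fk_fs (k : ℕ) : fol1_fs (fk S k) := by
  classical
  refine fol1_fs_iter ⟨{1}, fun x hx => ?_⟩ k
  rw [if_neg (by simpa using hx)]

theorem fk_nonneg (k : ℕ) (x : H) : 0 ≤ fk S k x := by
  induction k generalizing x with
  | zero => unfold fk; simp only [Function.iterate_zero, id]; split_ifs <;> norm_num
  | succ k ih =>
    rw [fk_succ]
    exact mul_nonneg (by positivity) (Finset.sum_nonneg fun s _ => ih _)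

theorem fk_supp (hS : SymGen S) (k : ℕ) (x : H) (hx : fk S k x ≠ 0) : len S x ≤ k := by
  induction k generalizing x with
  | zero =>
    unfold fk at hx
    simp only [Function.iterate_zero, id] at hx
    by_cases h : x = 1
    · rw [h, len_one]
    · exact absurd (if_neg h) hx
  | succ k ih =>
    rw [fk_succ] at hx
    unfold avg at hx
    have h1 : ∃ s ∈ S, fk S k (x * s) ≠ 0 := by
      by_contra hcon
      push Not at hcon
      exact hx (by rw [Finset.sum_eq_zero hcon, mul_zero])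
    obtain ⟨s, hs, h2⟩ := h1
    have h3 := ih _ h2
    have h4 := len_mul_le hS.gen (x * s) s⁻¹
    rw [mul_inv_cancel_right] at h4
    have h5 := len_le_one (hS.inv s hs)
    omega

theorem fk_mass (hne : S.Nonempty) (k : ℕ) : ∑ᶠ x, fk S k x = 1 := by
  classical
  have hc : (S.card : ℝ) ≠ 0 := by exact_mod_cast hne.card_pos.ne'
  induction k with
  | zero =>
    unfold fk
    simp only [Function.iterate_zero, id]
    rw [finsum_eq_single _ (1 : H) (fun x hx => if_neg hx), if_pos rfl]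
  | succ k ih =>
    rw [fk_succ]
    have h1 : ∀ s ∈ S, (Function.support fun x => fk S k (x * s)).Finite := by
      intro s _
      obtain ⟨F, hF⟩ := fol1_fs_shift (fk_fs (S := S) k) s
      refine F.finite_toSet.subset fun x hx => ?_
      by_contra hxF
      exact hx (hF x (by simpa using hxF))
    unfold avg
    rw [← mul_finsum, finsum_sum_comm S (fun x s => fk S k (x * s)) h1]
    have h2 : ∀ s ∈ S, ∑ᶠ x, fk S k (x * s) = 1 := by
      intro s _
      rw [← ih]
      exact finsum_comp_equiv (Equiv.mulRight s) (f := fun x => fk S k x)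
    rw [Finset.sum_congr rfl h2, Finset.sum_const, nsmul_eq_mul, mul_one, inv_mul_cancel₀ hc]

theorem fk_norm (hS : SymGen S) (k : ℕ) :
    1 ≤ ({x : H | len S x ≤ k}.ncard : ℝ) * fol1_ip (fk S k) (fk S k) := by
  classical
  have hfin := (ncard_ball_le hS.gen k).1
  have hF : ∀ x, x ∉ hfin.toFinset → fk S k x = 0 := by
    intro x hx
    by_contra h
    exact hx (by simpa using fk_supp hS k x h)
  have h1 := fk_mass hS.ne k
  rw [finsum_eq_sum_of_support_subset (s := hfin.toFinset) _ (by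
    intro x hx
    by_contra h
    exact hx (hF x h))] at h1
  have h2 := Finset.sum_mul_sq_le_sq_mul_sq hfin.toFinset (fun _ => (1 : ℝ)) (fk S k)
  simp only [one_mul, one_pow, Finset.sum_const, nsmul_eq_mul, mul_one] at h2
  rw [h1, one_pow] at h2
  rw [fol1_ip_eq hF, Set.ncard_eq_toFinset_card _ hfin]
  simpa only [sq] using h2

theorem exists_far [Infinite H] (hS : SymGen S) (k : ℕ) :
    ∃ g : H, 2 * k < len S g ∧ len S g ≤ 2 * k + 1 := by
  have hfin := (ncard_ball_le hS.gen (2 * k)).1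
  obtain ⟨g, hg⟩ : ∃ g : H, g ∉ {x : H | len S x ≤ 2 * k} := by
    by_contra hcon
    push Not at hcon
    exact Set.infinite_univ (hfin.subset fun x _ => hcon x)
  simp only [Set.mem_ofPred_eq, not_le] at hg
  obtain ⟨p, hp0, hp1, hp2, -, -⟩ := exists_path hS.gen g
  have hex : ∃ i, 2 * k < len S (p i) := ⟨_, by rw [hp1]; exact hg⟩
  classical
  obtain ⟨i, hi⟩ : ∃ i, i = Nat.find hex := ⟨_, rfl⟩
  have h1 : 2 * k < len S (p i) := hi ▸ Nat.find_spec hex
  have h0 : i ≠ 0 := by
    rintro rfl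
    rw [hp0, len_one] at h1
    omega
  obtain ⟨j, rfl⟩ := Nat.exists_eq_succ_of_ne_zero h0
  have h2 : ¬ 2 * k < len S (p j) := Nat.find_min hex (by omega)
  refine ⟨p (j + 1), h1, ?_⟩
  have h3 := len_mul_le hS.gen (p j) ((p j)⁻¹ * p (j + 1))
  rw [mul_inv_cancel_left] at h3
  have h4 := hp2 j
  omega

theorem nrm_path (hS : SymGen S) {f : H → ℝ} (hf : fol1_fs f) {M : ℝ} (hM0 : 0 ≤ M)
    (hM : ∀ s ∈ S, nrm (sh s f - f) ≤ M) (g : H) : nrm (sh g f - f) ≤ len S g * M := by
  obtain ⟨p, hp0, hp1, -, -, hp⟩ := exists_path hS.gen g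
  have key : ∀ i : ℕ, nrm (sh (p i) f - f) ≤ i * M := by
    intro i
    induction i with
    | zero =>
      rw [hp0, sh_one, sub_self]
      have : nrm (0 : H → ℝ) = 0 := by
        unfold nrm fol1_ip
        simp
      simp [this]
    | succ i ih =>
      push_cast
      rcases hp i with h | ⟨s, hs, h⟩
      · rw [h]
        nlinarith
      · have hs' : s ∈ S := by
          rcases hs with hs | hs
          · exact hs
          · simpa using hS.inv _ hs
        have e : sh (p i * s) f - f = sh (p i) (sh s f - f) + (sh (p i) f - f) := by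
          rw [sh_mul, sh_sub]
          abel
        rw [h, e]
        refine (nrm_add_le (fs_sh (fs_sub (fs_sh hf s) hf) _)
          (fs_sub (fs_sh hf (p i)) hf)).trans ?_
        rw [nrm_sh]
        have := hM s hs'
        linarith
  have := key (len S g)
  rwa [hp1] at this

/-- the energy of `fk` -/
noncomputable def Ak (S : Finset H) (k : ℕ) : ℝ := En S (fk S k) (fk S k)

omit [Group H] in
theorem ip_disjoint {f f' : H → ℝ} (h : ∀ x, f x = 0 ∨ f' x = 0) : fol1_ip f f' = 0 := by
  unfold fol1_ip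
  have : ∀ x, f x * f' x = 0 := fun x => by
    rcases h x with h | h
    · rw [h, zero_mul]
    · rw [h, mul_zero]
  simp only [this, finsum_zero]

theorem Ak_lower [Infinite H] (hS : SymGen S) (k : ℕ) :
    1 ≤ ({x : H | len S x ≤ k}.ncard : ℝ) * ((2 * k + 1) ^ 2 * (S.card * Ak S k)) := by
  obtain ⟨g, hg1, hg2⟩ := exists_far (S := S) hS k
  have hf := fk_fs (S := S) k
  have h1 : fol1_ip (sh g (fk S k) - fk S k) (sh g (fk S k) - fk S k) =
      2 * fol1_ip (fk S k) (fk S k) := by
    rw [nrm_diff_sq hf, ip_disjoint (f := sh g (fk S k)) (f' := fk S k), sub_zero]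
    intro x
    by_contra hcon
    push Not at hcon
    have h2 := fk_supp hS k _ hcon.1
    have h3 := fk_supp hS k _ hcon.2
    have h4 := len_mul_le hS.gen x⁻¹ (x * g)
    rw [inv_mul_cancel_left, len_inv hS.gen] at h4
    omega
  have hA0 : 0 ≤ Ak S k := En_nonneg hS.ne hf
  have hc : (0 : ℝ) < S.card := by exact_mod_cast hS.ne.card_pos
  have h2 : ∀ s ∈ S, nrm (sh s (fk S k) - fk S k) ≤ Real.sqrt (2 * S.card * Ak S k) := by
    intro s hs
    refine Real.sqrt_le_sqrt ?_
    have h3 := En_self (S := S) hS.ne hf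
    unfold Ak
    rw [← h3]
    exact Finset.single_le_sum (f := fun s => fol1_ip (sh s (fk S k) - fk S k)
      (sh s (fk S k) - fk S k)) (fun s _ => fol1_ip_nonneg _) hs
  have h3 := nrm_path hS hf (Real.sqrt_nonneg _) h2 g
  have h4 := pow_le_pow_left₀ (nrm_nonneg _) h3 2
  rw [nrm_sq, h1, mul_pow, Real.sq_sqrt (by positivity)] at h4
  have h5 : (len S g : ℝ) ≤ 2 * k + 1 := by exact_mod_cast hg2
  have h6 : (len S g : ℝ) ^ 2 ≤ (2 * k + 1) ^ 2 := pow_le_pow_left₀ (by positivity) h5 2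
  have h7 : fol1_ip (fk S k) (fk S k) ≤ (2 * k + 1) ^ 2 * (S.card * Ak S k) := by
    have h8 : (len S g : ℝ) ^ 2 * (2 * S.card * Ak S k) ≤
        (2 * k + 1) ^ 2 * (2 * S.card * Ak S k) :=
      mul_le_mul_of_nonneg_right h6 (by positivity)
    nlinarith
  exact (fk_norm hS k).trans (mul_le_mul_of_nonneg_left h7 (by positivity))

theorem Ak_pos [Infinite H] (hS : SymGen S) (k : ℕ) : 0 < Ak S k := by
  have h1 := Ak_lower (S := S) hS k
  have h2 : 0 ≤ Ak S k := En_nonneg hS.ne (fk_fs k)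
  rcases h2.eq_or_lt with h | h
  · rw [← h] at h1
    norm_num at h1
  · exact h

theorem Ak_logconv (hS : SymGen S) (k : ℕ) : Ak S (k + 1) ^ 2 ≤ Ak S k * Ak S (k + 2) := by
  have h := En_cs (S := S) hS.ne hS.inv (fk_fs (S := S) k) (fk_fs (S := S) (k + 2))
  have e : En S (fk S k) (fk S (k + 2)) = Ak S (k + 1) := by
    unfold Ak En
    rw [fk_succ (S := S) (k + 1), fk_succ (S := S) k,
      ← fol1_ip_symm hS.inv (fk_fs k), ← fol1_ip_symm hS.inv (fol1_fs_avg (fk_fs k)),
      fol1_ip_comm (avg S (fk S k)) (avg S (avg S (fk S k)))]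
  rw [e] at h
  exact h

theorem ip_avg_ge (hne : S.Nonempty) (h1 : (1 : H) ∈ S) {g : H → ℝ} (hg : fol1_fs g) :
    (2 * (S.card : ℝ)⁻¹ - 1) * fol1_ip g g ≤ fol1_ip (avg S g) g := by
  have hc : (0 : ℝ) < S.card := by exact_mod_cast hne.card_pos
  rw [ip_avg_left hg]
  have h2 : ∀ s ∈ S, -fol1_ip g g ≤ fol1_ip (sh s g) g := by
    intro s _
    have h3 := fol1_ip_nonneg (sh s g + g)
    have h4 := fs_sh hg s
    rw [ip_add_left _ h4 hg, ip_add_right _ h4 hg, ip_add_right _ h4 hg, ip_sh,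
      fol1_ip_comm g (sh s g)] at h3
    linarith
  classical
  have h3 : ∑ s ∈ S, fol1_ip (sh s g) g =
      fol1_ip g g + ∑ s ∈ S.erase 1, fol1_ip (sh s g) g := by
    rw [← Finset.add_sum_erase _ _ h1, sh_one]
  have h4 : ((S.card : ℝ) - 1) * (-fol1_ip g g) ≤ ∑ s ∈ S.erase 1, fol1_ip (sh s g) g := by
    have := Finset.card_nsmul_le_sum (S.erase 1) (fun s => fol1_ip (sh s g) g) (-fol1_ip g g)
      (fun s hs => h2 s (Finset.mem_of_mem_erase hs))
    rw [nsmul_eq_mul, Finset.card_erase_of_mem h1, Nat.cast_sub hne.card_pos] at this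
    simpa using this
  rw [h3]
  rw [show (2 * (S.card : ℝ)⁻¹ - 1) * fol1_ip g g =
    (S.card : ℝ)⁻¹ * (fol1_ip g g + ((S.card : ℝ) - 1) * (-fol1_ip g g)) by field_simp; ring]
  exact mul_le_mul_of_nonneg_left (by linarith) (by positivity)

/-- `(1 - P) f_k` -/
noncomputable def gk (S : Finset H) (k : ℕ) : H → ℝ := fk S k - avg S (fk S k)

theorem gk_le (hS : SymGen S) (h1 : (1 : H) ∈ S) (k : ℕ) :
    2 * (S.card : ℝ)⁻¹ * fol1_ip (gk S k) (gk S k) ≤ Ak S k - Ak S (k + 1) := by
  have hf := fk_fs (S := S) k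
  have hf1 := fol1_fs_avg (S := S) hf
  have hf2 := fol1_fs_avg (S := S) hf1
  have hg : fol1_fs (gk S k) := fs_sub hf hf1
  have h2 := ip_avg_ge (S := S) hS.ne h1 hg
  have e : fol1_ip (gk S k) (gk S k) + fol1_ip (avg S (gk S k)) (gk S k) =
      Ak S k - Ak S (k + 1) := by
    have s1 := fol1_ip_symm hS.inv hf (avg S (fk S k))
    have s2 := fol1_ip_symm hS.inv hf (fk S k)
    unfold gk Ak En
    rw [fk_succ, avg_sub, ip_sub_left _ hf hf1, ip_sub_right _ hf hf1, ip_sub_right _ hf hf1,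
      ip_sub_left _ hf1 hf2, ip_sub_right _ hf hf1, ip_sub_right _ hf hf1]
    have s3 := fol1_ip_comm (avg S (avg S (fk S k))) (fk S k)
    linarith
  linarith

theorem Ak_ratio [Infinite H] (hS : SymGen S) {D : ℕ} (hG : GrowthLE H D) {ε : ℝ} (hε : 0 < ε) :
    ∀ᶠ k in atTop, (1 - ε) * Ak S k ≤ Ak S (k + 1) := by
  rcases le_or_gt 1 ε with hε1 | hε1
  · refine Eventually.of_forall fun k => ?_
    have h1 := Ak_pos (S := S) hS k
    have h2 := Ak_pos (S := S) hS (k + 1)
    nlinarith
  by_cases hex : ∃ k0, (1 - ε) * Ak S k0 ≤ Ak S (k0 + 1)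
  · obtain ⟨k0, hk0⟩ := hex
    rw [eventually_atTop]
    refine ⟨k0, fun k hk => ?_⟩
    induction k, hk using Nat.le_induction with
    | base => exact hk0
    | succ k hk ih =>
      have h1 := Ak_logconv (S := S) hS k
      have h2 := Ak_pos (S := S) hS k
      have h3 := Ak_pos (S := S) hS (k + 1)
      have h4 : (1 - ε) * Ak S (k + 1) * Ak S k ≤ Ak S (k + 2) * Ak S k := by
        calc (1 - ε) * Ak S (k + 1) * Ak S k = (1 - ε) * Ak S k * Ak S (k + 1) := by ring
          _ ≤ Ak S (k + 1) * Ak S (k + 1) := mul_le_mul_of_nonneg_right ih h3.le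
          _ ≤ Ak S (k + 2) * Ak S k := by nlinarith
      exact le_of_mul_le_mul_right h4 h2
  · exfalso
    push Not at hex
    have h1 : ∀ k, Ak S k ≤ (1 - ε) ^ k * Ak S 0 := by
      intro k
      induction k with
      | zero => simp
      | succ k ih =>
        rw [pow_succ]
        have := (hex k).le
        nlinarith
    obtain ⟨C, hC⟩ := ball_growth hS.gen hG
    have h2 : ∀ k : ℕ, 1 ≤ (C * (k + 1) ^ D : ℝ) * ((2 * k + 1) ^ 2 *
        (S.card * ((1 - ε) ^ k * Ak S 0))) := by
      intro k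
      refine (Ak_lower (S := S) hS k).trans ?_
      have h3 : ({x : H | len S x ≤ k}.ncard : ℝ) ≤ C * (k + 1) ^ D := by exact_mod_cast hC k
      have h4 : (0 : ℝ) ≤ Ak S k := (Ak_pos hS k).le
      have h5 := h1 k
      gcongr
    have h3 : Tendsto (fun k : ℕ => (C * (k + 1) ^ D : ℝ) * ((2 * k + 1) ^ 2 *
        (S.card * ((1 - ε) ^ k * Ak S 0)))) atTop (𝓝 0) := by
      have h4 : Tendsto (fun k : ℕ => ((k : ℝ) ^ (D + 2) * (1 - ε) ^ k)) atTop (𝓝 0) :=
        tendsto_pow_const_mul_const_pow_of_lt_one (D + 2) (by linarith) (by linarith)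
      have h5 := h4.const_mul (C * 2 ^ D * 9 * S.card * Ak S 0 : ℝ)
      rw [mul_zero] at h5
      refine squeeze_zero' ?_ ?_ h5
      · refine Eventually.of_forall fun k => ?_
        have h6 := (Ak_pos (S := S) hS 0).le
        have h7 : (0 : ℝ) ≤ (1 - ε) ^ k := pow_nonneg (by linarith) _
        positivity
      · filter_upwards [eventually_ge_atTop 1] with k hk
        have hk' : (1 : ℝ) ≤ k := by exact_mod_cast hk
        have h6 := (Ak_pos (S := S) hS 0).le
        have h7 : (0 : ℝ) ≤ (1 - ε) ^ k := pow_nonneg (by linarith) _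
        have h8 : ((k : ℝ) + 1) ^ D ≤ 2 ^ D * (k : ℝ) ^ D := by
          rw [← mul_pow]
          exact pow_le_pow_left₀ (by positivity) (by linarith) _
        have h9 : (2 * (k : ℝ) + 1) ^ 2 ≤ 9 * (k : ℝ) ^ 2 := by nlinarith
        calc (C * (k + 1) ^ D : ℝ) * ((2 * k + 1) ^ 2 * (S.card * ((1 - ε) ^ k * Ak S 0))) ≤
            (C * (2 ^ D * (k : ℝ) ^ D)) * ((9 * (k : ℝ) ^ 2) *
              (S.card * ((1 - ε) ^ k * Ak S 0))) := by gcongr
          _ = C * 2 ^ D * 9 * S.card * Ak S 0 * ((k : ℝ) ^ (D + 2) * (1 - ε) ^ k) := by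
            rw [pow_add]; ring
    have h4 := ge_of_tendsto h3 (Eventually.of_forall h2)
    linarith

end Vale.Agent.P188.H796
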