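import Vale.Agent.P188.H796.Words

/-!
P188, Gromov-lite: subgroups generated by the elements near the identity, subrepresentations.
-/

open Pointwise

namespace Vale.Agent.P188.H796

universe u v

/-- every element of the closure of a set is in the closure of a finite subset -/
theorem exists_finite_of_mem_closure {G : Type u} [Group G] {T : Set G} {x : G}
    (hx : x ∈ Subgroup.closure T) : ∃ S : Set G, S.Finite ∧ S ⊆ T ∧ x ∈ Subgroup.closure S := by
  induction hx using Subgroup.closure_induction with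
  | mem x hx =>
    exact ⟨{x}, Set.finite_singleton x, by simpa using hx, Subgroup.subset_closure rfl⟩
  | one => exact ⟨∅, Set.finite_empty, Set.empty_subset _, Subgroup.one_mem _⟩
  | mul x y _ _ h1 h2 =>
    obtain ⟨S, a1, a2, a3⟩ := h1
    obtain ⟨S', b1, b2, b3⟩ := h2
    exact ⟨S ∪ S', a1.union b1, Set.union_subset a2 b2,
      Subgroup.mul_mem _ (Subgroup.closure_mono Set.subset_union_left a3)
        (Subgroup.closure_mono Set.subset_union_right b3)⟩
  | inv x _ h1 =>
    obtain ⟨S, a1, a2, a3⟩ := h1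
    exact ⟨S, a1, a2, Subgroup.inv_mem _ a3⟩

theorem exists_finite_closure {G : Type u} [Group G] {T : Set G}
    (h : (Subgroup.closure T).FG) :
    ∃ S : Set G, S.Finite ∧ S ⊆ T ∧ Subgroup.closure S = Subgroup.closure T := by
  obtain ⟨F, hF⟩ := h
  have h1 : ∀ x ∈ F, ∃ S : Set G, S.Finite ∧ S ⊆ T ∧ x ∈ Subgroup.closure S := fun x hx =>
    exists_finite_of_mem_closure (by rw [← hF]; exact Subgroup.subset_closure hx)
  choose! S hS using h1
  refine ⟨⋃ x ∈ F, S x, F.finite_toSet.biUnion fun x hx => (hS x hx).1,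
    Set.iUnion₂_subset fun x hx => (hS x hx).2.1, le_antisymm ?_ ?_⟩
  · exact Subgroup.closure_mono (Set.iUnion₂_subset fun x hx => (hS x hx).2.1)
  · rw [← hF, Subgroup.closure_le]
    intro x hx
    exact Subgroup.closure_mono (Set.subset_biUnion_of_mem (u := fun x => S x) hx) (hS x hx).2.2

section Rep

variable {G : Type u} [Group G] {V : Type v} [NormedAddCommGroup V] [InnerProductSpace ℂ V]
variable {ρ : G →* (V →L[ℂ] V)}

theorem dev_div_le (hρ : IsoRep ρ) (g h : G) : dev ρ (g⁻¹ * h) ≤ ‖ρ h - ρ g‖ := by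
  have e : ρ (g⁻¹ * h) - 1 = ρ g⁻¹ * (ρ h - ρ g) := by
    rw [mul_sub, ← map_mul, ← map_mul, inv_mul_cancel, map_one]
  unfold dev
  rw [e]
  refine (norm_mul_le _ _).trans ?_
  exact mul_le_of_le_one_left (norm_nonneg _) (hρ.norm_le _)

theorem finiteIndex_near [FiniteDimensional ℂ V] (hρ : IsoRep ρ) {ε : ℝ} (hε : 0 < ε) :
    (Subgroup.closure {g | dev ρ g < ε}).FiniteIndex := by
  classical
  have : ProperSpace (V →L[ℂ] V) := FiniteDimensional.proper ℂ _
  have hb : TotallyBounded (Set.range ρ) := by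
    refine (isCompact_closedBall (0 : V →L[ℂ] V) 1).totallyBounded.subset ?_
    rintro _ ⟨g, rfl⟩
    rw [mem_closedBall_zero_iff]
    exact hρ.norm_le g
  obtain ⟨t, ht, hts⟩ := Metric.totallyBounded_iff.1 hb (ε / 2) (by positivity)
  have h1 : ∀ g, ∃ y ∈ t, dist (ρ g) y < ε / 2 := fun g => by
    have := hts ⟨g, rfl⟩
    simp only [Set.mem_iUnion, Metric.mem_ball, exists_prop] at this
    exact this
  choose y hy hyd using h1
  have hfin : Finite (G ⧸ Subgroup.closure {g | dev ρ g < ε}) := by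
    have : Finite t := ht.to_subtype
    refine Finite.of_injective
      (fun q : G ⧸ Subgroup.closure {g | dev ρ g < ε} => (⟨y q.out, hy _⟩ : t)) ?_
    intro q q' hqq
    have e : y q.out = y q'.out := congrArg Subtype.val hqq
    rw [← Quotient.out_eq' q, ← Quotient.out_eq' q', QuotientGroup.eq]
    refine Subgroup.subset_closure ?_
    show dev ρ _ < ε
    refine (dev_div_le hρ _ _).trans_lt ?_
    rw [← dist_eq_norm]
    have a1 := hyd q.out
    have a2 := hyd q'.out
    rw [e] at a1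
    have := dist_triangle_right (ρ q'.out) (ρ q.out) (y q'.out)
    linarith
  exact Subgroup.finiteIndex_of_finite_quotient

/-- the restriction of a representation of `G` to a subgroup and an invariant subspace -/
noncomputable def subRep (ρ : G →* (V →L[ℂ] V)) (K : Subgroup G) (W : Submodule ℂ V)
    (hW : ∀ y ∈ K, ∀ w ∈ W, ρ y w ∈ W) : K →* (W →L[ℂ] W) where
  toFun y := ((ρ y).comp W.subtypeL).codRestrict W fun w => hW y y.2 w w.2
  map_one' := by
    ext w
    simp
  map_mul' y z := by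
    ext w
    show ρ (y * z : G) (w : V) = ρ y (ρ z (w : V))
    rw [map_mul]
    rfl

theorem subRep_apply (K : Subgroup G) (W : Submodule ℂ V)
    (hW : ∀ y ∈ K, ∀ w ∈ W, ρ y w ∈ W) (y : K) (w : W) :
    ((subRep ρ K W hW y w : W) : V) = ρ y w := rfl

theorem subRep_isoRep (hρ : IsoRep ρ) (K : Subgroup G) (W : Submodule ℂ V)
    (hW : ∀ y ∈ K, ∀ w ∈ W, ρ y w ∈ W) : IsoRep (subRep ρ K W hW) := fun y w => by
  show ‖((subRep ρ K W hW y w : W) : V)‖ = ‖(w : V)‖
  rw [subRep_apply, hρ]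

theorem IsoRep.inner (hρ : IsoRep ρ) (g : G) (v w : V) :
    inner ℂ (ρ g v) (ρ g w) = inner ℂ v w :=
  LinearIsometry.inner_map_map (⟨(ρ g).toLinearMap, hρ g⟩ : V →ₗᵢ[ℂ] V) v w

theorem IsoRep.orth (hρ : IsoRep ρ) (K : Subgroup G) (W : Submodule ℂ V)
    (hW : ∀ y ∈ K, ∀ w ∈ W, ρ y w ∈ W) : ∀ y ∈ K, ∀ w ∈ Wᗮ, ρ y w ∈ Wᗮ := by
  intro y hy w hw
  rw [Submodule.mem_orthogonal] at hw ⊢
  intro u hu
  have h1 := hw _ (hW y⁻¹ (K.inv_mem hy) u hu)
  rw [← hρ.inner y] at h1
  have h2 : ρ y (ρ y⁻¹ u) = u := by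
    have : (ρ y * ρ y⁻¹) u = u := by rw [← map_mul, mul_inv_cancel, map_one]; rfl
    exact this
  rwa [h2] at h1

end Rep

end Vale.Agent.P188.H796
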