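import Vale.Agent.P188.SG.Fol1
import Vale.Agent.P188.H796.Dev

/-!
P188, Gromov-lite: polynomial growth gives a cautious random walk.
-/

universe u v

open Filter Topology Pointwise

namespace Vale.Agent.P188.H796

open Vale.Agent.P188.SG

variable {H : Type u} [Group H] {S : Finset H}

theorem ball_growth (hS : Subgroup.closure (S : Set H) = ⊤) {D : ℕ} (hG : GrowthLE H D) :
    ∃ C : ℕ, ∀ n : ℕ, {x : H | len S x ≤ n}.ncard ≤ C * (n + 1) ^ D := by
  classical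
  let U : Set H := ((insert 1 (S ∪ S.image fun x => x⁻¹) : Finset H) : Set H)
  have hU : U.Finite := Finset.finite_toSet _
  have hU1 : (1 : H) ∈ U := Finset.mem_coe.2 (Finset.mem_insert_self _ _)
  obtain ⟨C, hC⟩ := hG U hU
  refine ⟨C, fun n => le_trans (Set.ncard_le_ncard ?_ (finite_pow hU n)) (hC n)⟩
  have hmem : ∀ l : List H, (∀ a ∈ l, a ∈ S ∨ a⁻¹ ∈ S) → l.prod ∈ U ^ l.length := by
    intro l
    induction l with
    | nil => intro _; simp
    | cons a l ih =>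
      intro hl
      rw [List.prod_cons, List.length_cons, pow_succ']
      refine Set.mul_mem_mul ?_ (ih fun b hb => hl b (List.mem_cons_of_mem _ hb))
      rcases hl a List.mem_cons_self with h | h
      · exact Finset.mem_coe.2 (Finset.mem_insert_of_mem (Finset.mem_union_left _ h))
      · refine Finset.mem_coe.2 (Finset.mem_insert_of_mem (Finset.mem_union_right _ ?_))
        exact Finset.mem_image.mpr ⟨a⁻¹, h, inv_inv a⟩
  intro x hx
  obtain ⟨l, h1, h2, h3⟩ := len_list hS x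
  have h4 := hmem l h2
  rw [h3, h1] at h4
  exact Set.pow_subset_pow_right hU1 hx h4

/-- doubling at infinitely many scales -/
theorem exists_doubling (b : ℕ → ℕ) (hb : ∀ n, 0 < b n) {C D : ℕ}
    (hC : ∀ n, b n ≤ C * (n + 1) ^ D) (n0 : ℕ) :
    ∃ r : ℕ, n0 ≤ r ∧ b (2 * r) ≤ 2 ^ (D + 1) * b r := by
  by_contra hcon
  push Not at hcon
  obtain ⟨m, hm⟩ : ∃ m, m = n0 + 1 := ⟨_, rfl⟩
  have h1 : ∀ j, 2 ^ ((D + 1) * j) * b m ≤ b (2 ^ j * m) := by
    intro j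
    induction j with
    | zero => simp
    | succ j ih =>
      have h2 : n0 ≤ 2 ^ j * m := by
        have : 1 * m ≤ 2 ^ j * m := Nat.mul_le_mul_right _ Nat.one_le_two_pow
        omega
      have h3 := (hcon _ h2).le
      have e : 2 ^ (j + 1) * m = 2 * (2 ^ j * m) := by rw [pow_succ]; ring
      rw [e]
      refine le_trans ?_ h3
      have e2 : 2 ^ ((D + 1) * (j + 1)) * b m = 2 ^ (D + 1) * (2 ^ ((D + 1) * j) * b m) := by
        rw [mul_add, mul_one, pow_add]; ring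
      rw [e2]
      exact Nat.mul_le_mul_left _ ih
  have h4 : ∀ j, 2 ^ j ≤ C * (2 * m) ^ D := by
    intro j
    have h5 := (h1 j).trans (hC _)
    have h6 : 2 ^ j * m + 1 ≤ 2 ^ j * (2 * m) := by
      have : 1 * m ≤ 2 ^ j * m := Nat.mul_le_mul_right _ Nat.one_le_two_pow
      have h7 : 1 ≤ m := by omega
      have : 2 ^ j * (2 * m) = 2 ^ j * m + 2 ^ j * m := by ring
      omega
    have h7 : 2 ^ ((D + 1) * j) ≤ C * (2 ^ j * (2 * m)) ^ D := by
      refine le_trans ?_ (h5.trans (Nat.mul_le_mul_left _ (Nat.pow_le_pow_left h6 D)))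
      exact Nat.le_mul_of_pos_right _ (hb m)
    have e1 : 2 ^ ((D + 1) * j) = 2 ^ j * (2 ^ j) ^ D := by
      rw [← pow_mul, ← pow_add]
      congr 1
      ring
    have e2 : C * (2 ^ j * (2 * m)) ^ D = C * (2 * m) ^ D * (2 ^ j) ^ D := by
      rw [mul_pow]; ring
    rw [e1, e2] at h7
    exact Nat.le_of_mul_le_mul_right h7 (by positivity)
  exact absurd (h4 (C * (2 * m) ^ D)) (not_le.2 Nat.lt_two_pow_self)

/-- Følner pairs at infinitely many scales -/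
def FolnerInf (S : Finset H) : Prop :=
  ∃ C : ℕ, ∀ n0 : ℕ, ∃ r : ℕ, n0 ≤ r ∧ ∃ E' E : Finset H, E'.Nonempty ∧
    (∀ x ∈ E', ∀ h : H, len S h ≤ r → x * h ∈ E) ∧
    (∀ x ∈ E, ∀ y ∈ E, len S (x⁻¹ * y) ≤ C * (r + 1)) ∧ E.card ≤ C * E'.card

theorem folnerInf_of_growth (hS : Subgroup.closure (S : Set H) = ⊤) {D : ℕ}
    (hG : GrowthLE H D) : FolnerInf S := by
  classical
  obtain ⟨C, hC⟩ := ball_growth hS hG
  have hfin : ∀ n, {x : H | len S x ≤ n}.Finite := fun n => (ncard_ball_le hS n).1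
  have hpos : ∀ n, 0 < {x : H | len S x ≤ n}.ncard := fun n => by
    rw [Set.ncard_pos (hfin n)]
    exact ⟨1, by simp [len_one]⟩
  refine ⟨2 ^ (D + 1) + 4, fun n0 => ?_⟩
  obtain ⟨r, hr, h1⟩ := exists_doubling _ hpos hC n0
  refine ⟨r, hr, (hfin r).toFinset, (hfin (2 * r)).toFinset, ?_, ?_, ?_, ?_⟩
  · exact ⟨1, by simp [len_one]⟩
  · intro x hx h hh
    simp only [Set.Finite.mem_toFinset, Set.mem_ofPred_eq] at hx ⊢
    have := len_mul_le hS x h
    omega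
  · intro x hx y hy
    simp only [Set.Finite.mem_toFinset, Set.mem_ofPred_eq] at hx hy
    have h2 := len_mul_le hS x⁻¹ y
    rw [len_inv hS] at h2
    have h3 : 4 * (r + 1) ≤ (2 ^ (D + 1) + 4) * (r + 1) := Nat.mul_le_mul_right _ (Nat.le_add_left _ _)
    omega
  · rw [← Set.ncard_eq_toFinset_card _ (hfin _), ← Set.ncard_eq_toFinset_card _ (hfin _)]
    refine h1.trans (Nat.mul_le_mul_right _ (by omega))

theorem cautious_of_folnerInf (hS : SymGen S) (hF : FolnerInf S) : Cautious S := by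
  intro c hc
  obtain ⟨C, hC⟩ := hF
  obtain ⟨M, hM⟩ : ∃ M : ℝ, M = 4 * C * (4 * C ^ 2 / c ^ 2 + 1) := ⟨_, rfl⟩
  obtain ⟨r₁, hr₁, E₁', E₁, hne₁, h11, h12, h13⟩ := hC (2 * C + 1)
  obtain ⟨hC0, -⟩ := fol1_step hS (by omega) (by omega) hne₁ h11 h12 h13 0
  have hC' : (0 : ℝ) < C := by exact_mod_cast hC0
  have hC1 : (1 : ℝ) ≤ C := by exact_mod_cast hC0
  refine ⟨(C : ℝ)⁻¹ * Real.exp (-M), by positivity, ?_⟩
  rw [Filter.frequently_atTop]
  intro n0
  obtain ⟨r₀, hr₀⟩ := exists_nat_ge (c * (n0 + 1))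
  obtain ⟨r, hr, E', E, hne, h1, h2, h3⟩ := hC (r₀ + 2 * C + 1)
  obtain ⟨k, hk⟩ : ∃ k : ℕ, k = ⌈(C * ((r : ℝ) + 1) / c) ^ 2⌉₊ := ⟨_, rfl⟩
  obtain ⟨-, h4⟩ := fol1_step hS (by omega) (by omega) hne h1 h2 h3 k
  have hr1 : (1 : ℝ) ≤ r := by
    have : 1 ≤ r := by omega
    exact_mod_cast this
  have hrr : c * (n0 + 1) ≤ r := by
    have : (r₀ : ℝ) ≤ r := by
      have : r₀ ≤ r := by omega
      exact_mod_cast this
    linarith
  have hk1 : (C * ((r : ℝ) + 1) / c) ^ 2 ≤ k := hk ▸ Nat.le_ceil _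
  have hk2 : (k : ℝ) < (C * ((r : ℝ) + 1) / c) ^ 2 + 1 := hk ▸ Nat.ceil_lt_add_one (by positivity)
  have h5 : (n0 : ℝ) + 1 ≤ C * ((r : ℝ) + 1) / c := by
    rw [le_div_iff₀ hc]
    nlinarith
  have h6 : (n0 : ℝ) ≤ k := by
    have : (0 : ℝ) ≤ n0 := Nat.cast_nonneg _
    nlinarith
  have h6' : n0 ≤ k := by exact_mod_cast h6
  refine ⟨2 * k, by omega, ?_⟩
  refine le_trans ?_ (h4.trans (Ex_mono _ fun g => ?_))
  · refine mul_le_mul_of_nonneg_left (Real.exp_le_exp.mpr ?_) (by positivity)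
    rw [hM, neg_le_neg_iff]
    have h7 : (k : ℝ) ≤ (4 * C ^ 2 / c ^ 2 + 1) * (r : ℝ) ^ 2 := by
      have h8 : (C * ((r : ℝ) + 1) / c) ^ 2 ≤ 4 * C ^ 2 / c ^ 2 * (r : ℝ) ^ 2 := by
        have h9 : C * ((r : ℝ) + 1) / c ≤ C * (2 * r) / c := by gcongr; linarith
        refine (pow_le_pow_left₀ (by positivity) h9 2).trans (le_of_eq ?_)
        ring
      nlinarith
    have h10 : 4 * ((C : ℝ) / (r : ℝ) ^ 2) * k ≤
        4 * ((C : ℝ) / (r : ℝ) ^ 2) * ((4 * C ^ 2 / c ^ 2 + 1) * (r : ℝ) ^ 2) :=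
      mul_le_mul_of_nonneg_left h7 (by positivity)
    refine h10.trans (le_of_eq ?_)
    field_simp
  · have h11 : (C : ℝ) * (r + 1) ≤ c * Real.sqrt ((2 * k : ℕ) : ℝ) := by
      have h12 : C * ((r : ℝ) + 1) / c ≤ Real.sqrt ((2 * k : ℕ) : ℝ) := by
        apply Real.le_sqrt_of_sq_le
        push_cast
        have : (0 : ℝ) ≤ k := Nat.cast_nonneg _
        linarith
      rw [div_le_iff₀ hc] at h12
      linarith
    by_cases hg : (len S g : ℝ) ≤ C * (r + 1)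
    · rw [if_pos hg, if_pos (hg.trans h11)]
    · rw [if_neg hg]
      split_ifs <;> norm_num

theorem cautious_of_growth (hS : SymGen S) {D : ℕ} (hG : GrowthLE H D) : Cautious S :=
  cautious_of_folnerInf hS (folnerInf_of_growth hS.gen hG)

end Vale.Agent.P188.H796
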