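import Vale.Agent.P188.H796.Dev

/-!
P188, Gromov-lite: a sequence of shrinking elements in a small representation gives too many
distinct products for polynomial growth.
-/

open Pointwise

namespace Vale.Agent.P188.H796

universe u v

variable {G : Type u} [Group G] {V : Type v} [NormedAddCommGroup V] [InnerProductSpace ℂ V]
variable {ρ : G →* (V →L[ℂ] V)}

open Classical in
/-- the products `h j ^ a_j * ⋯ * h (j + l - 1) ^ a_(j + l - 1)` with exponents less than `M` -/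
noncomputable def words (h : ℕ → G) (M : ℕ) : ℕ → ℕ → Finset G
  | 0, _ => {1}
  | l + 1, j => ((Finset.range M) ×ˢ words h M l (j + 1)).image (fun p => h j ^ p.1 * p.2)

theorem words_dev (hρ : IsoRep ρ) {h : ℕ → G} {M : ℕ} (hM : 0 < M)
    (hratio : ∀ k, 8 * M * dev ρ (h (k + 1)) ≤ dev ρ (h k)) (l : ℕ) :
    ∀ j, ∀ x ∈ words h M l j, dev ρ x ≤ 2 * M * dev ρ (h j) := by
  classical
  have hM' : (1 : ℝ) ≤ M := by exact_mod_cast hM
  induction l with
  | zero =>
    intro j x hx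
    rw [words, Finset.mem_singleton] at hx
    rw [hx, dev_one]
    have := dev_nonneg (ρ := ρ) (h j)
    positivity
  | succ l ih =>
    intro j x hx
    rw [words, Finset.mem_image] at hx
    obtain ⟨⟨a, y⟩, hay, rfl⟩ := hx
    rw [Finset.mem_product, Finset.mem_range] at hay
    obtain ⟨ha, hy⟩ := hay
    have h1 := ih (j + 1) y hy
    have h2 := dev_mul_le hρ (h j ^ a) y
    have h3 := dev_pow_le hρ (h j) a
    have h4 := hratio j
    have h5 := dev_nonneg (ρ := ρ) (h j)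
    have h6 : (a : ℝ) ≤ M := by exact_mod_cast ha.le
    have h7 : (a : ℝ) * dev ρ (h j) ≤ M * dev ρ (h j) := mul_le_mul_of_nonneg_right h6 h5
    have h8 : dev ρ (h j) ≤ M * dev ρ (h j) := by nlinarith
    linarith

theorem words_key (hρ : IsoRep ρ) {h : ℕ → G} {M : ℕ} (hM : 0 < M)
    (hpos : ∀ k, 0 < dev ρ (h k)) (hsmall : ∀ k, 16 * M * dev ρ (h k) ≤ 1)
    (hratio : ∀ k, 8 * M * dev ρ (h (k + 1)) ≤ dev ρ (h k)) (l j a a' : ℕ) {x x' : G}
    (hx : x ∈ words h M l (j + 1)) (hx' : x' ∈ words h M l (j + 1)) (haa : a < a')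
    (ha' : a' < M) : h j ^ a * x ≠ h j ^ a' * x' := by
  intro he
  have hM' : (1 : ℝ) ≤ M := by exact_mod_cast hM
  obtain ⟨b, hb⟩ : ∃ b, b = a' - a := ⟨_, rfl⟩
  have hb1 : 1 ≤ b := by omega
  have hbM : b < M := by omega
  have e1 : h j ^ b = x * x'⁻¹ := by
    have : h j ^ a' = h j ^ a * h j ^ b := by rw [← pow_add]; congr 1; omega
    rw [this, mul_assoc, mul_right_inj] at he
    rw [he, mul_inv_cancel_right]
  have h1 := words_dev hρ hM hratio l (j + 1) x hx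
  have h2 := words_dev hρ hM hratio l (j + 1) x' hx'
  have h3 : dev ρ (h j ^ b) ≤ 4 * M * dev ρ (h (j + 1)) := by
    rw [e1]
    refine (dev_mul_le hρ _ _).trans ?_
    have := dev_inv_le hρ x'
    linarith
  have h4 := dev_pow_ge hρ (h j) b
  have h5 := hratio j
  have h6 := hsmall j
  have h7 := hpos j
  obtain ⟨δ, hδ⟩ : ∃ δ, δ = dev ρ (h j) := ⟨_, rfl⟩
  rw [← hδ] at h4 h5 h6 h7
  have hb' : (1 : ℝ) ≤ b := by exact_mod_cast hb1
  have hbM' : (b : ℝ) ≤ M := by exact_mod_cast hbM.le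
  have h8 : (b : ℝ) * δ ≤ 1 / 16 := by
    have : (b : ℝ) * δ ≤ M * δ := mul_le_mul_of_nonneg_right hbM' h7.le
    linarith
  have h9 : (b : ℝ) ^ 2 * δ ^ 2 ≤ 1 / 16 * (b * δ) := by
    have : (b : ℝ) ^ 2 * δ ^ 2 = (b * δ) * (b * δ) := by ring
    rw [this]
    exact mul_le_mul_of_nonneg_right h8 (by positivity)
  have h10 : δ ≤ b * δ := by nlinarith
  linarith

theorem words_card (hρ : IsoRep ρ) {h : ℕ → G} {M : ℕ} (hM : 0 < M)
    (hpos : ∀ k, 0 < dev ρ (h k)) (hsmall : ∀ k, 16 * M * dev ρ (h k) ≤ 1)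
    (hratio : ∀ k, 8 * M * dev ρ (h (k + 1)) ≤ dev ρ (h k)) (l : ℕ) :
    ∀ j, (words h M l j).card = M ^ l := by
  classical
  induction l with
  | zero => intro j; simp [words]
  | succ l ih =>
    intro j
    rw [words, Finset.card_image_of_injOn, Finset.card_product, Finset.card_range, ih, pow_succ']
    rintro ⟨a, x⟩ hax ⟨a', x'⟩ hax' he
    simp only [Finset.coe_product, Set.mem_prod, Finset.mem_coe, Finset.mem_range] at hax hax'
    simp only at he
    rcases lt_trichotomy a a' with h1 | h1 | h1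
    · exact absurd he (words_key hρ hM hpos hsmall hratio l j a a' hax.2 hax'.2 h1 hax'.1)
    · subst h1
      rw [mul_right_inj] at he
      rw [he]
    · exact absurd he.symm (words_key hρ hM hpos hsmall hratio l j a' a hax'.2 hax.2 h1 hax.1)

theorem words_mem {U : Set G} {h : ℕ → G} {M : ℕ} (hL : ∀ k, h k ∈ U ^ 4 ^ k)
    (h1 : (1 : G) ∈ U) (l : ℕ) :
    ∀ j, ∀ x ∈ words h M l j, ∃ n, n + M * 4 ^ j ≤ M * 4 ^ (j + l) ∧ x ∈ U ^ n := by
  classical
  induction l with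
  | zero =>
    intro j x hx
    rw [words, Finset.mem_singleton] at hx
    exact ⟨0, by simp, by rw [hx]; simp⟩
  | succ l ih =>
    intro j x hx
    rw [words, Finset.mem_image] at hx
    obtain ⟨⟨a, y⟩, hay, rfl⟩ := hx
    rw [Finset.mem_product, Finset.mem_range] at hay
    obtain ⟨ha, hy⟩ := hay
    obtain ⟨n, hn, hyn⟩ := ih (j + 1) y hy
    refine ⟨4 ^ j * a + n, ?_, ?_⟩
    · have h2 : 4 ^ j * a ≤ 4 ^ j * M := Nat.mul_le_mul_left _ (by simpa using ha.le)
      have h3 : M * 4 ^ (j + 1) = 4 * (M * 4 ^ j) := by ring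
      have h4 : M * 4 ^ (j + 1 + l) = M * 4 ^ (j + (l + 1)) := by congr 2; omega
      have h5 : 4 ^ j * M = M * 4 ^ j := by ring
      simp only at *
      omega
    · rw [pow_add, pow_mul]
      exact Set.mul_mem_mul (Set.pow_mem_pow (hL j)) hyn

theorem no_seq {D : ℕ} (hG : GrowthLE G D) (hρ : IsoRep ρ) {U : Set G} (hU : U.Finite)
    (h1 : (1 : G) ∈ U) {h : ℕ → G} (hL : ∀ k, h k ∈ U ^ 4 ^ k)
    (hpos : ∀ k, 0 < dev ρ (h k)) (hsmall : ∀ k, 16 * (2 * 4 ^ D : ℕ) * dev ρ (h k) ≤ 1)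
    (hratio : ∀ k, 8 * (2 * 4 ^ D : ℕ) * dev ρ (h (k + 1)) ≤ dev ρ (h k)) : False := by
  obtain ⟨M, hM⟩ : ∃ M, M = 2 * 4 ^ D := ⟨_, rfl⟩
  rw [← hM] at hsmall hratio
  have hM0 : 0 < M := by rw [hM]; positivity
  obtain ⟨C, hC⟩ := hG U hU
  have key : ∀ l, 2 ^ l ≤ C * (2 * M) ^ D := by
    intro l
    have h2 : M ^ l ≤ (U ^ (M * 4 ^ l)).ncard := by
      rw [← words_card hρ hM0 hpos hsmall hratio l 0, ← Set.ncard_coe_finset]
      refine Set.ncard_le_ncard (fun x hx => ?_) (finite_pow hU _)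
      obtain ⟨n, hn, hx⟩ := words_mem hL h1 l 0 x hx
      refine Set.pow_subset_pow_right h1 ?_ hx
      rw [zero_add] at hn
      omega
    have h3 := h2.trans (hC (M * 4 ^ l))
    have h4 : (M * 4 ^ l + 1) ^ D ≤ ((2 * M) * 4 ^ l) ^ D := by
      refine Nat.pow_le_pow_left ?_ D
      have : 0 < M * 4 ^ l := by positivity
      nlinarith
    have h5 : M ^ l = 2 ^ l * (4 ^ D) ^ l := by rw [hM, mul_pow]
    have h6 : ((2 * M) * 4 ^ l) ^ D = (2 * M) ^ D * (4 ^ D) ^ l := by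
      rw [mul_pow, ← pow_mul, ← pow_mul, mul_comm l D]
    have h7 : 2 ^ l * (4 ^ D) ^ l ≤ C * (2 * M) ^ D * (4 ^ D) ^ l := by
      rw [← h5]
      refine h3.trans ?_
      rw [mul_assoc, ← h6]
      exact Nat.mul_le_mul_left _ h4
    exact Nat.le_of_mul_le_mul_right h7 (by positivity)
  exact absurd (key (C * (2 * M) ^ D)) (not_le.2 Nat.lt_two_pow_self)

end Vale.Agent.P188.H796
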